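import Vale.Agent.P014.H483.Ei

/-!
# P014, module P: the period homomorphism
-/

namespace Vale.Agent.P014.H483

open Complex Filter Topology

variable {F : ℂ → ℂ} {a : ℕ → ℤ}

lemma mob_mul {p q r s p' q' r' s' : ℤ} (hd' : p' * s' - q' * r' = 1) {z : ℂ} (hz : 0 < z.im) :
    mob p q r s (mob p' q' r' s' z) =
      mob (p * p' + q * r') (p * q' + q * s') (r * p' + s * r') (r * q' + s * s') z := by
  have h2 := (mob_im hd' hz).2
  unfold mob
  push_cast
  have e1 : (p : ℂ) * ((p' * z + q') / (r' * z + s')) + q =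
      ((p * p' + q * r') * z + (p * q' + q * s')) / (r' * z + s') := by
    rw [eq_div_iff h2, add_mul, mul_assoc, div_mul_cancel₀ _ h2]
    ring
  have e2 : (r : ℂ) * ((p' * z + q') / (r' * z + s')) + s =
      ((r * p' + s * r') * z + (r * q' + s * s')) / (r' * z + s') := by
    rw [eq_div_iff h2, add_mul, mul_assoc, div_mul_cancel₀ _ h2]
    ring
  rw [e1, e2, div_div_div_cancel_right₀ h2]

theorem psi_mul (h : Form F a) {p q r s p' q' r' s' : ℤ} (hd : p * s - q * r = 1) (hr : 17 ∣ r)
    (hd' : p' * s' - q' * r' = 1) (hr' : 17 ∣ r') :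
    psi a (p * p' + q * r') (p * q' + q * s') (r * p' + s * r') (r * q' + s * s') =
      psi a p q r s + psi a p' q' r' s' := by
  have hI : (0 : ℝ) < I.im := by simp
  have h1 := Ei_mob h hd hr (mob_im hd' hI).1
  have h2 := Ei_mob h hd' hr' hI
  have h3 : mob p q r s (((p' : ℂ) * I + q') / (r' * I + s')) = _ := mob_mul hd' hI
  rw [h3] at h1
  rw [show psi a (p * p' + q * r') (p * q' + q * s') (r * p' + s * r') (r * q' + s * s') =
    Ei a (mob (p * p' + q * r') (p * q' + q * s') (r * p' + s * r') (r * q' + s * s') I) - Ei a I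
    from rfl, h1]
  change Ei a (mob p' q' r' s' I) + psi a p q r s - Ei a I = _
  rw [h2]
  ring

theorem psi_T : psi a 1 1 0 1 = 0 := by
  have h1 : Ei a (mob 1 1 0 1 I) = Ei a I := by
    unfold Ei mob
    refine tsum_congr fun n => ?_
    congr 1
    have : (2 * Real.pi * I * (n * (((1 : ℤ) * I + (1 : ℤ)) / ((0 : ℤ) * I + (1 : ℤ)))) : ℂ) =
      2 * Real.pi * I * (n * I) + n * (2 * Real.pi * I) := by
      push_cast
      ring
    rw [this, Complex.exp_add, Complex.exp_nat_mul_two_pi_mul_I, mul_one]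
  unfold psi
  rw [h1, sub_self]

/-- `-γ` and `γ` have the same period -/
theorem psi_neg (p q r s : ℤ) : psi a (-p) (-q) (-r) (-s) = psi a p q r s := by
  have h1 : mob (-p) (-q) (-r) (-s) I = mob p q r s I := by
    unfold mob
    push_cast
    rw [show (-(p : ℂ) * I + -q) = -(p * I + q) by ring,
      show (-(r : ℂ) * I + -s) = -(r * I + s) by ring, neg_div_neg_eq]
  unfold psi
  rw [h1]

theorem psi_V (h : Form F a) : psi a 1 0 17 1 = 0 := by
  -- `V = W T⁻¹ W⁻¹`
  have hI : (0 : ℝ) < I.im := by simp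
  have hw : 0 < (-1 / (17 * I)).im := im_fricke hI
  have hv : (0 : ℝ) < (mob 1 0 17 1 I).im := (mob_im (by norm_num) hI).1
  have h1 := Ei_fricke h hI
  have h2 := Ei_fricke h hv
  -- W(V i) = W i - 1
  have e1 : -1 / (17 * mob 1 0 17 1 I) = -1 / (17 * I) - 1 := by
    unfold mob
    push_cast
    have h3 : (17 * I + 1 : ℂ) ≠ 0 := by
      intro h0
      have := congrArg Complex.re h0
      simp at this
    have h4 : (I : ℂ) ≠ 0 := Complex.I_ne_zero
    field_simp
    ring
  have e2 : Ei a (-1 / (17 * I) - 1) = Ei a (-1 / (17 * I)) := by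
    unfold Ei
    refine tsum_congr fun n => ?_
    congr 1
    have : (2 * Real.pi * I * (n * (-1 / (17 * I) - 1)) : ℂ) =
      2 * Real.pi * I * (n * (-1 / (17 * I))) - n * (2 * Real.pi * I) := by
      ring
    rw [this, Complex.exp_sub, Complex.exp_nat_mul_two_pi_mul_I, div_one]
  rw [e1, e2, h1] at h2
  rw [show psi a 1 0 17 1 = Ei a (mob 1 0 17 1 I) - Ei a I from rfl]
  linear_combination h2

open ComplexConjugate in
theorem Ei_conj (z : ℂ) : Ei a (-conj z) = conj (Ei a z) := by
  unfold Ei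
  rw [Complex.conj_tsum]
  refine tsum_congr fun n => ?_
  rw [map_mul, map_div₀, Complex.conj_natCast, ← Complex.exp_conj]
  have e1 : conj ((a n : ℤ) : ℂ) = a n := map_intCast _ _
  rw [e1]
  congr 2
  simp only [map_mul, Complex.conj_I, Complex.conj_ofReal, Complex.conj_natCast]
  rw [show conj (2 : ℂ) = 2 from map_ofNat _ 2]
  ring

open ComplexConjugate in
theorem mob_conj (p q r s : ℤ) (z : ℂ) : mob p (-q) (-r) s (-conj z) = -conj (mob p q r s z) := by
  unfold mob
  rw [map_div₀, map_add, map_add, map_mul, map_mul]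
  have e : ∀ k : ℤ, conj ((k : ℤ) : ℂ) = k := fun k => map_intCast _ _
  rw [e, e, e, e]
  push_cast
  rw [← neg_div]
  congr 1 <;> ring

open ComplexConjugate in
/-- the period of `(p, -q; -r, s)` -/
theorem psi_conj (p q r s : ℤ) : psi a p (-q) (-r) s = conj (psi a p q r s) := by
  have h1 : -conj I = I := by simp
  have h2 := mob_conj p q r s I
  rw [h1] at h2
  unfold psi
  rw [h2, Ei_conj, map_sub]
  congr 1
  rw [← Ei_conj, h1]

end Vale.Agent.P014.H483
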