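import Vale.Agent.P004H.H871.Gauss
import Vale.Agent.P014.H483.Psi

/-!
# P014, module P: twists of the form and of its Eichler integral
-/

namespace Vale.Agent.P014.H483

open Complex Finset Filter Topology
open Vale.Agent.P004H.H871 (RC)

section keys

variable {F : ℂ → ℂ} {a : ℕ → ℤ} {m : ℕ}

lemma ne_zero_of_im {z : ℂ} (hz : 0 < z.im) : z ≠ 0 := by
  rintro rfl
  simp at hz

lemma im_add_div {z : ℂ} (hz : 0 < z.im) (V : ℤ) (m : ℕ) : 0 < (z + V / m).im := by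
  have h : ((V : ℂ) / (m : ℂ)).im = 0 := by
    rw [show (V : ℂ) / (m : ℂ) = (((V : ℝ) / (m : ℝ) : ℝ) : ℂ) by push_cast; rfl]
    exact Complex.ofReal_im _
  rw [Complex.add_im, h, add_zero]
  exact hz

/-- the matrix `(t, U; 17 V, m)` -/
lemma mob_key (hm : 0 < m) {U V t : ℤ} (ht : 17 * U * V + 1 = m * t) {z : ℂ} (hz : 0 < z.im) :
    mob t U (17 * V) m (-1 / (17 * (z + V / m))) = -1 / (17 * (m : ℂ) ^ 2 * z) + U / m ∧
    ((17 * V : ℤ) : ℂ) * (-1 / (17 * (z + V / m))) + ((m : ℤ) : ℂ) = m * z / (z + V / m) := by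
  have hx := im_add_div hz V m
  set x : ℂ := z + V / m with hxd
  have hx0 : x ≠ 0 := ne_zero_of_im hx
  have hz0 : z ≠ 0 := ne_zero_of_im hz
  have hm0 : (m : ℂ) ≠ 0 := by exact_mod_cast hm.ne'
  have htc : (17 : ℂ) * U * V + 1 = m * t := by exact_mod_cast ht
  have hVx : (m : ℂ) * x = m * z + V := by
    rw [hxd]
    field_simp
  have e1 : ((17 * V : ℤ) : ℂ) * (-1 / (17 * x)) + ((m : ℤ) : ℂ) = m * z / x := by
    push_cast
    field_simp
    linear_combination hVx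
  refine ⟨?_, e1⟩
  unfold mob
  rw [e1]
  field_simp
  linear_combination (17 : ℂ) * U * hVx + htc

/-- `m γ W (1, V/m; 0, 1)`, `γ = (t, U; 17 V, m)` -/
lemma key1 (h : Form F a) (hm : 0 < m) {U V t : ℤ} (ht : 17 * U * V + 1 = m * t) {z : ℂ}
    (hz : 0 < z.im) :
    F (-1 / (17 * (m : ℂ) ^ 2 * z) + U / m) = -17 * (m : ℂ) ^ 2 * z ^ 2 * F (z + V / m) := by
  have hx := im_add_div hz V m
  have hx0 := ne_zero_of_im hx
  obtain ⟨e2, e1⟩ := mob_key hm ht hz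
  have h1 := h.slash t U (17 * V) m (by linarith) (Dvd.intro _ rfl) _ (im_fricke hx)
  rw [h.fricke _ hx] at h1
  unfold mob at e2
  rw [e2, e1] at h1
  rw [h1]
  field_simp

/-- the same for the Eichler integral -/
lemma key1E (h : Form F a) (hm : 0 < m) {U V t : ℤ} (ht : 17 * U * V + 1 = m * t) {z : ℂ}
    (hz : 0 < z.im) :
    Ei a (-1 / (17 * (m : ℂ) ^ 2 * z) + U / m) + Ei a (z + V / m) =
      Ei0 a + psi a t U (17 * V) m := by
  have hx := im_add_div hz V m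
  obtain ⟨e2, -⟩ := mob_key hm ht hz
  have h1 := Ei_mob h (p := t) (q := U) (r := 17 * V) (s := m) (by linarith) (Dvd.intro _ rfl)
    (im_fricke hx)
  rw [e2, Ei_fricke h hx] at h1
  rw [h1]
  ring

end keys

/-! ### the twisted sums -/

section sums

variable {F : ℂ → ℂ} {a : ℕ → ℤ} {m : ℕ} [NeZero m] {c : ℤ → ℤ}

/-- `∑_u c(u) F(z + u/m)` -/
noncomputable def TS (m : ℕ) [NeZero m] (c : ℤ → ℤ) (F : ℂ → ℂ) (z : ℂ) : ℂ :=
  ∑ u : ZMod m, (c u.val : ℂ) * F (z + ((u.val : ℤ) : ℂ) / m)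

/-- only the units contribute -/
lemma sum_units (hc : RC m c) (G : ℕ → ℂ) : ∑ u : ZMod m, (c u.val : ℂ) * G u.val =
    ∑ u : (ZMod m)ˣ, (c (u : ZMod m).val : ℂ) * G (u : ZMod m).val := by
  have h1 : ∑ u : (ZMod m)ˣ, (c (u : ZMod m).val : ℂ) * G (u : ZMod m).val =
      ∑ u ∈ (Finset.univ : Finset (ZMod m)ˣ).map ⟨Units.val, Units.val_injective⟩,
        (c u.val : ℂ) * G u.val := by
    rw [Finset.sum_map]
    rfl
  rw [h1]
  symm
  apply Finset.sum_subset (Finset.subset_univ _)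
  intro u _ hu
  have h2 : ¬ IsUnit u := by
    intro h
    apply hu
    rw [Finset.mem_map]
    exact ⟨h.unit, Finset.mem_univ _, h.unit_spec⟩
  have h3 : c (u.val : ℤ) = 0 := by
    apply hc.zero
    push_cast
    rwa [ZMod.natCast_zmod_val]
  rw [h3]
  simp

/-- the twisted series: for `∑ b n q^n` -/
lemma twist_hasSum' {b : ℕ → ℂ} {B : ℂ → ℂ}
    (hB : ∀ z : ℂ, 0 < z.im → HasSum (fun n : ℕ => b n * cexp (2 * Real.pi * I * (n * z))) (B z))
    {g : ℂ} (hg : g ≠ 0)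
    (hg2 : ∀ k : ℤ, ∑ u : ZMod m, (c u.val : ℂ) * ZMod.stdAddChar (u * (k : ZMod m)) = c k * g)
    {z : ℂ} (hz : 0 < z.im) :
    HasSum (fun n : ℕ => b n * c n * cexp (2 * Real.pi * I * (n * z))) (g⁻¹ * TS m c B z) := by
  have hm0 : (m : ℂ) ≠ 0 := by exact_mod_cast NeZero.ne m
  have h1 : ∀ u : ZMod m, HasSum (fun n : ℕ => (c u.val : ℂ) *
      (b n * cexp (2 * Real.pi * I * (n * (z + ((u.val : ℤ) : ℂ) / m)))))
      ((c u.val : ℂ) * B (z + ((u.val : ℤ) : ℂ) / m)) := fun u =>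
    (hB _ (im_add_div hz _ m)).mul_left _
  have h2 := (hasSum_sum (fun u (_ : u ∈ (Finset.univ : Finset (ZMod m))) => h1 u)).mul_left g⁻¹
  refine h2.congr_fun fun n => ?_
  have h3 : ∀ u : ZMod m, (ZMod.stdAddChar (u * ((n : ℤ) : ZMod m)) : ℂ) =
      cexp (2 * Real.pi * I * (n * (((u.val : ℤ) : ℂ) / m))) := by
    intro u
    rw [P004.stdAddChar_mul_int]
    congr 1
    push_cast
    ring
  have h4 : ∀ u : ZMod m, (c u.val : ℂ) *
      (b n * cexp (2 * Real.pi * I * (n * (z + ((u.val : ℤ) : ℂ) / m)))) =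
      (b n * cexp (2 * Real.pi * I * (n * z))) *
        ((c u.val : ℂ) * ZMod.stdAddChar (u * ((n : ℤ) : ZMod m))) := by
    intro u
    rw [h3 u, mul_add, mul_add, Complex.exp_add]
    ring
  simp_rw [h4, ← Finset.mul_sum]
  rw [hg2]
  field_simp

/-- the substitution `W u v = 1`, with an inhomogeneous term -/
lemma TS_gen (hc : RC m c) {W : ℤ} (hW : IsUnit (W : ZMod m)) {B : ℂ → ℂ} {Z z K : ℂ}
    (P : (ZMod m)ˣ → ℂ)
    (key : ∀ (u : (ZMod m)ˣ) (V t : ℤ), -W * ((u : ZMod m).val : ℤ) * V + 1 = m * t →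
      B (Z + ((((u : ZMod m).val : ℤ)) : ℂ) / m) = K * B (z + V / m) + P u) :
    TS m c B Z = (c W : ℂ) * K * TS m c B z + ∑ u : (ZMod m)ˣ, (c (u : ZMod m).val : ℂ) * P u := by
  unfold TS
  rw [sum_units hc (fun k => B (Z + ((k : ℤ) : ℂ) / m)),
    sum_units hc (fun k => B (z + ((k : ℤ) : ℂ) / m)), Finset.mul_sum]
  have hW' := hW
  obtain ⟨w, hw⟩ := hW
  let e : (ZMod m)ˣ ≃ (ZMod m)ˣ := (Equiv.mulLeft w).trans (Equiv.inv _)
  have hre : ∑ u : (ZMod m)ˣ, (c W : ℂ) * K * ((c (u : ZMod m).val : ℂ) *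
      B (z + ((((u : ZMod m).val : ℕ) : ℤ) : ℂ) / m)) =
      ∑ u : (ZMod m)ˣ, (c W : ℂ) * K * ((c ((e u : (ZMod m)ˣ) : ZMod m).val : ℂ) *
      B (z + (((((e u : (ZMod m)ˣ) : ZMod m).val : ℕ) : ℤ) : ℂ) / m)) :=
    (Equiv.sum_comp e (fun u : (ZMod m)ˣ => (c W : ℂ) * K * ((c (u : ZMod m).val : ℂ) *
      B (z + ((((u : ZMod m).val : ℕ) : ℤ) : ℂ) / m)))).symm
  rw [hre, ← Finset.sum_add_distrib]
  refine Finset.sum_congr rfl fun u _ => ?_
  have h1 : (W : ZMod m) * (u : ZMod m) * ((e u : (ZMod m)ˣ) : ZMod m) = 1 := by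
    have h2 : w * u * e u = 1 := mul_inv_cancel (w * u)
    have h3 := congrArg (Units.val) h2
    rw [Units.val_mul, Units.val_mul, hw] at h3
    exact h3
  set U : ℤ := ((u : ZMod m).val : ℤ) with hU
  set V : ℤ := (((e u : (ZMod m)ˣ) : ZMod m).val : ℤ) with hV
  have hUz : (U : ZMod m) = u := by
    rw [hU]
    push_cast
    exact ZMod.natCast_zmod_val _
  have hVz : (V : ZMod m) = (e u : (ZMod m)ˣ) := by
    rw [hV]
    push_cast
    exact ZMod.natCast_zmod_val _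
  have hd : (m : ℤ) ∣ -W * U * V + 1 := by
    rw [← ZMod.intCast_zmod_eq_zero_iff_dvd]
    push_cast
    rw [hUz, hVz]
    linear_combination -h1
  obtain ⟨t, ht⟩ := hd
  rw [key u V t ht]
  have h5 : c W * c U * c V = 1 := by
    rw [← hc.mul, ← hc.mul, ← hc.one]
    apply hc.per
    push_cast
    rw [hUz, hVz, h1]
  have h6 : c V * c V = 1 := hc.sq (by rw [hVz]; exact Units.isUnit _)
  have h7 : c W * c W = 1 := hc.sq hW'
  have h8 : c U = c W * c V := by linear_combination (c W * c V) * h5 - c U * c W * c W * h6 - c U * h7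
  have h9 : (c U : ℂ) = c W * c V := by exact_mod_cast h8
  rw [mul_add, h9]
  ring

omit [NeZero m] in
lemma unit17 (h17 : m.Coprime 17) : IsUnit (((-17 : ℤ)) : ZMod m) := by
  rw [ZMod.coe_int_isUnit_iff_isCoprime]
  have : IsCoprime (m : ℤ) (17 : ℤ) := by exact_mod_cast Nat.isCoprime_iff_coprime.2 h17
  exact this.neg_right

/-- the functional equation of the twisted form -/
lemma TS_fe (h : Form F a) (hc : RC m c) (h17 : m.Coprime 17) {z : ℂ} (hz : 0 < z.im) :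
    TS m c F (-1 / (17 * (m : ℂ) ^ 2 * z)) =
      (c (-17) : ℂ) * (-17 * (m : ℂ) ^ 2 * z ^ 2) * TS m c F z := by
  have hm : 0 < m := Nat.pos_of_ne_zero (NeZero.ne m)
  have h1 := TS_gen hc (unit17 h17) (B := F) (Z := -1 / (17 * (m : ℂ) ^ 2 * z)) (z := z)
    (K := -17 * (m : ℂ) ^ 2 * z ^ 2) (fun _ => 0) (fun u V t ht => by
      rw [add_zero]
      exact key1 h hm (t := t) (by linarith) hz)
  rw [h1]
  simp

/-- the functional equation of the twisted Eichler integral -/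
lemma TS_feE (h : Form F a) (hc : RC m c) (h17 : m.Coprime 17) (P : (ZMod m)ˣ → ℂ)
    (hP : ∀ (u : (ZMod m)ˣ) (V t : ℤ), 17 * ((u : ZMod m).val : ℤ) * V + 1 = m * t →
      psi a t ((u : ZMod m).val : ℤ) (17 * V) m = P u) {z : ℂ} (hz : 0 < z.im) :
    TS m c (Ei a) (-1 / (17 * (m : ℂ) ^ 2 * z)) =
      -(c (-17) : ℂ) * TS m c (Ei a) z +
        ∑ u : (ZMod m)ˣ, (c (u : ZMod m).val : ℂ) * (Ei0 a + P u) := by
  have hm : 0 < m := Nat.pos_of_ne_zero (NeZero.ne m)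
  have h1 := TS_gen hc (unit17 h17) (B := Ei a) (Z := -1 / (17 * (m : ℂ) ^ 2 * z)) (z := z)
    (K := -1) (fun u => Ei0 a + P u) (fun u V t ht => by
      have ht' : 17 * ((u : ZMod m).val : ℤ) * V + 1 = m * t := by linarith
      have := key1E h hm ht' hz
      rw [hP u V t ht'] at this
      linear_combination this)
  rw [h1]
  ring

/-- the sum of the character vanishes -/
lemma sum_c (hc : RC m c) (hm : 1 < m) : ∑ u : (ZMod m)ˣ, (c (u : ZMod m).val : ℂ) = 0 := by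
  obtain ⟨g, _, hg2⟩ := hc.gauss
  have h1 := hg2 0
  have h0 : c 0 = 0 := by
    apply hc.zero
    have : Fact (1 < m) := ⟨hm⟩
    simp
  have h2 := sum_units hc (fun _ => 1)
  simp only [mul_one] at h2
  rw [← h2]
  simpa [h0] using h1

end sums

/-! ### real form -/

section real

variable {F : ℂ → ℂ} {a : ℕ → ℤ} {m : ℕ} [NeZero m] {c : ℤ → ℤ}

/-- the twisted theta series on the imaginary axis -/
noncomputable def fD (a : ℕ → ℤ) (c : ℤ → ℤ) (y : ℝ) : ℝ :=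
  ∑' n : ℕ, ((a n * c n : ℤ) : ℝ) * Real.exp (-2 * Real.pi * n * y)

/-- its primitive -/
noncomputable def eD (a : ℕ → ℤ) (c : ℤ → ℤ) (y : ℝ) : ℝ :=
  ∑' n : ℕ, ((a n * c n : ℤ) : ℝ) / n * Real.exp (-2 * Real.pi * n * y)

lemma exp_axis (n : ℕ) (y : ℝ) :
    cexp (2 * Real.pi * I * (n * (y * I))) = ((Real.exp (-2 * Real.pi * n * y) : ℝ) : ℂ) := by
  push_cast
  congr 1
  have hI := Complex.I_mul_I
  linear_combination (2 * Real.pi * n * y : ℂ) * hI

lemma fD_eq (h : Form F a) {g : ℂ} (hg : g ≠ 0)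
    (hg2 : ∀ k : ℤ, ∑ u : ZMod m, (c u.val : ℂ) * ZMod.stdAddChar (u * (k : ZMod m)) = c k * g)
    {y : ℝ} (hy : 0 < y) : ((fD a c y : ℝ) : ℂ) = g⁻¹ * TS m c F (y * I) := by
  have hz : 0 < ((y : ℂ) * I).im := by simpa using hy
  have h1 := twist_hasSum' (b := fun n => (a n : ℂ)) h.qexp hg hg2 hz
  rw [← h1.tsum_eq]
  unfold fD
  rw [Complex.ofReal_tsum]
  refine tsum_congr fun n => ?_
  rw [exp_axis]
  push_cast
  ring

lemma hasSum_Ei (h : Form F a) {z : ℂ} (hz : 0 < z.im) :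
    HasSum (fun n : ℕ => ((a n : ℂ) / n) * cexp (2 * Real.pi * I * (n * z))) (Ei a z) :=
  (summable_Ei h hz).hasSum

lemma eD_eq (h : Form F a) {g : ℂ} (hg : g ≠ 0)
    (hg2 : ∀ k : ℤ, ∑ u : ZMod m, (c u.val : ℂ) * ZMod.stdAddChar (u * (k : ZMod m)) = c k * g)
    {y : ℝ} (hy : 0 < y) : ((eD a c y : ℝ) : ℂ) = g⁻¹ * TS m c (Ei a) (y * I) := by
  have hz : 0 < ((y : ℂ) * I).im := by simpa using hy
  have h1 := twist_hasSum' (b := fun n => (a n : ℂ) / n) (fun z hz => hasSum_Ei h hz) hg hg2 hz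
  rw [← h1.tsum_eq]
  unfold eD
  rw [Complex.ofReal_tsum]
  refine tsum_congr fun n => ?_
  rw [exp_axis]
  push_cast
  ring

/-- **functional equation** of the twist -/
theorem fe_tw (h : Form F a) (hc : RC m c) (h17 : m.Coprime 17) {y : ℝ} (hy : 0 < y) :
    fD a c (1 / (17 * (m : ℝ) ^ 2 * y)) = c (-17) * (17 * (m : ℝ) ^ 2) * y ^ 2 * fD a c y := by
  obtain ⟨g, hg, hg2⟩ := hc.gauss
  have hm : (0 : ℝ) < m := by exact_mod_cast Nat.pos_of_ne_zero (NeZero.ne m)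
  have hm0 : (m : ℂ) ≠ 0 := by exact_mod_cast NeZero.ne m
  have hy0 : (y : ℂ) ≠ 0 := by exact_mod_cast hy.ne'
  have hz : 0 < ((y : ℂ) * I).im := by simpa using hy
  have h1 := TS_fe h hc h17 hz
  have e1 : -1 / (17 * (m : ℂ) ^ 2 * (y * I)) = ((1 / (17 * (m : ℝ) ^ 2 * y) : ℝ) : ℂ) * I := by
    push_cast
    have hI := Complex.I_mul_I
    field_simp
    linear_combination -hI
  rw [e1] at h1
  apply Complex.ofReal_injective
  rw [fD_eq h hg hg2 (by positivity), h1]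
  push_cast
  rw [fD_eq h hg hg2 hy, mul_pow, Complex.I_sq]
  ring

/-- **Birch's formula**, before the limit -/
theorem birch_fe (h : Form F a) (hc : RC m c) (h17 : m.Coprime 17) (hm1 : 1 < m) {g : ℂ}
    (hg : g ≠ 0)
    (hg2 : ∀ k : ℤ, ∑ u : ZMod m, (c u.val : ℂ) * ZMod.stdAddChar (u * (k : ZMod m)) = c k * g)
    (P : (ZMod m)ˣ → ℂ)
    (hP : ∀ (u : (ZMod m)ˣ) (V t : ℤ), 17 * ((u : ZMod m).val : ℤ) * V + 1 = m * t →
      psi a t ((u : ZMod m).val : ℤ) (17 * V) m = P u) {y : ℝ} (hy : 0 < y) :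
    ((eD a c (1 / (17 * (m : ℝ) ^ 2 * y)) : ℝ) : ℂ) = -(c (-17) : ℂ) * ((eD a c y : ℝ) : ℂ) +
      g⁻¹ * ∑ u : (ZMod m)ˣ, (c (u : ZMod m).val : ℂ) * P u := by
  have hm : (0 : ℝ) < m := by exact_mod_cast Nat.pos_of_ne_zero (NeZero.ne m)
  have hm0 : (m : ℂ) ≠ 0 := by exact_mod_cast NeZero.ne m
  have hy0 : (y : ℂ) ≠ 0 := by exact_mod_cast hy.ne'
  have hz : 0 < ((y : ℂ) * I).im := by simpa using hy
  have h1 := TS_feE h hc h17 P hP hz
  have e1 : -1 / (17 * (m : ℂ) ^ 2 * (y * I)) = ((1 / (17 * (m : ℝ) ^ 2 * y) : ℝ) : ℂ) * I := by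
    push_cast
    have hI := Complex.I_mul_I
    field_simp
    linear_combination -hI
  rw [e1] at h1
  have h2 : ∑ u : (ZMod m)ˣ, (c (u : ZMod m).val : ℂ) * (Ei0 a + P u) =
      ∑ u : (ZMod m)ˣ, (c (u : ZMod m).val : ℂ) * P u := by
    simp_rw [mul_add]
    rw [Finset.sum_add_distrib, ← Finset.sum_mul, sum_c hc hm1, zero_mul, zero_add]
  rw [h2] at h1
  rw [eD_eq h hg hg2 (by positivity), h1, eD_eq h hg hg2 hy]
  ring

lemma eD_tendsto (h : Form F a) (hc : RC m c) : Tendsto (eD a c) atTop (𝓝 0) := by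
  obtain ⟨g, hg, hg2⟩ := hc.gauss
  have h1 : Tendsto (fun y : ℝ => g⁻¹ * TS m c (Ei a) (y * I)) atTop (𝓝 0) := by
    have h2 : Tendsto (fun y : ℝ => TS m c (Ei a) (y * I)) atTop (𝓝 0) := by
      unfold TS
      rw [show (0 : ℂ) = ∑ u : ZMod m, (c u.val : ℂ) * 0 by simp]
      refine tendsto_finsetSum _ fun u _ => Tendsto.const_mul _ ?_
      have h3 := Ei_tendsto h ((((u.val : ℤ) : ℝ)) / m)
      refine h3.congr fun y => ?_
      congr 1
      push_cast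
      ring
    simpa using h2.const_mul g⁻¹
  have h4 : Tendsto (fun y : ℝ => ((eD a c y : ℝ) : ℂ)) atTop (𝓝 0) := by
    refine h1.congr' ?_
    filter_upwards [eventually_gt_atTop 0] with y hy
    exact (eD_eq h hg hg2 hy).symm
  have h5 := (Complex.continuous_re.tendsto 0).comp h4
  simpa [Function.comp_def] using h5

/-- **Birch's formula**: the limit at `0` -/
theorem birch (h : Form F a) (hc : RC m c) (h17 : m.Coprime 17) (hm1 : 1 < m) {g : ℂ}
    (hg : g ≠ 0)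
    (hg2 : ∀ k : ℤ, ∑ u : ZMod m, (c u.val : ℂ) * ZMod.stdAddChar (u * (k : ZMod m)) = c k * g)
    (P : (ZMod m)ˣ → ℂ)
    (hP : ∀ (u : (ZMod m)ˣ) (V t : ℤ), 17 * ((u : ZMod m).val : ℤ) * V + 1 = m * t →
      psi a t ((u : ZMod m).val : ℤ) (17 * V) m = P u) :
    Tendsto (fun y : ℝ => ((eD a c y : ℝ) : ℂ)) (𝓝[>] 0)
      (𝓝 (g⁻¹ * ∑ u : (ZMod m)ˣ, (c (u : ZMod m).val : ℂ) * P u)) := by
  have hm : (0 : ℝ) < m := by exact_mod_cast Nat.pos_of_ne_zero (NeZero.ne m)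
  set K : ℝ := 17 * (m : ℝ) ^ 2 with hK
  have hK0 : 0 < K := by positivity
  have h1 : Tendsto (fun y : ℝ => 1 / (K * y)) (𝓝[>] 0) atTop := by
    have h2 : Tendsto (fun y : ℝ => K⁻¹ * y⁻¹) (𝓝[>] 0) atTop :=
      tendsto_inv_nhdsGT_zero.const_mul_atTop (inv_pos.2 hK0)
    refine h2.congr fun y => ?_
    rw [one_div, mul_inv K y]
  have h3 := (eD_tendsto h hc).comp h1
  have h4 : Tendsto (fun y : ℝ => ((eD a c (1 / (K * y)) : ℝ) : ℂ)) (𝓝[>] 0) (𝓝 0) := by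
    have := (Complex.continuous_ofReal.tendsto 0).comp h3
    simpa [Function.comp_def] using this
  have h5 := (h4.const_mul (-(c (-17) : ℂ))).add_const
    (g⁻¹ * ∑ u : (ZMod m)ˣ, (c (u : ZMod m).val : ℂ) * P u)
  rw [mul_zero, zero_add] at h5
  refine h5.congr' ?_
  filter_upwards [self_mem_nhdsWithin] with y hy
  have hy0 : (0 : ℝ) < y := hy
  have hw : 0 < 1 / (K * y) := by positivity
  have h6 := birch_fe h hc h17 hm1 hg hg2 P hP hw
  have e : 1 / (17 * (m : ℝ) ^ 2 * (1 / (K * y))) = y := by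
    rw [← hK]
    field_simp
  rw [e] at h6
  exact h6.symm

/-- the square of the Gauss sum -/
theorem gauss_sq (hc : RC m c) {g : ℂ}
    (hg2 : ∀ k : ℤ, ∑ u : ZMod m, (c u.val : ℂ) * ZMod.stdAddChar (u * (k : ZMod m)) = c k * g) :
    g ^ 2 = c (-1) * m := by
  have hneg : IsUnit (((-1 : ℤ)) : ZMod m) := by push_cast; exact isUnit_one.neg
  have hs : c (-1) * c (-1) = 1 := hc.sq hneg
  -- double sum
  have h1 : ∑ k : ZMod m, (c k.val : ℂ) * g * ZMod.stdAddChar (-k) =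
      ∑ u : ZMod m, (c u.val : ℂ) * ∑ k : ZMod m, ZMod.stdAddChar ((u - 1) * k) := by
    have h2 : ∀ k : ZMod m, (c k.val : ℂ) * g * ZMod.stdAddChar (-k) =
        ∑ u : ZMod m, (c u.val : ℂ) * ZMod.stdAddChar ((u - 1) * k) := by
      intro k
      have h3 := hg2 (k.val : ℤ)
      have e : (((k.val : ℤ)) : ZMod m) = k := by push_cast; exact ZMod.natCast_zmod_val _
      rw [e] at h3
      rw [← h3, Finset.sum_mul]
      refine Finset.sum_congr rfl fun u _ => ?_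
      rw [mul_assoc, ← AddChar.map_add_eq_mul]
      congr 2
      ring
    simp_rw [h2, Finset.mul_sum]
    rw [Finset.sum_comm]
  have h4 : ∀ u : ZMod m, ∑ k : ZMod m, (ZMod.stdAddChar ((u - 1) * k) : ℂ) =
      if u = 1 then (m : ℂ) else 0 := by
    intro u
    have h5 := AddChar.sum_mulShift (R := ZMod m) (R' := ℂ) (ψ := ZMod.stdAddChar) (u - 1)
      (ZMod.isPrimitive_stdAddChar m)
    simp only [sub_eq_zero, ZMod.card] at h5
    have h6 : ∑ k : ZMod m, (ZMod.stdAddChar ((u - 1) * k) : ℂ) =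
        ∑ k : ZMod m, (ZMod.stdAddChar (k * (u - 1)) : ℂ) := by
      refine Finset.sum_congr rfl fun k _ => ?_
      rw [mul_comm]
    rw [h6, h5]
    split_ifs <;> simp
  have h7 : ∑ k : ZMod m, (c k.val : ℂ) * g * ZMod.stdAddChar (-k) = c (-1) * g * g := by
    have h8 := hg2 (-1)
    have h9 : ∑ k : ZMod m, (c k.val : ℂ) * g * ZMod.stdAddChar (-k) =
        g * ∑ u : ZMod m, (c u.val : ℂ) * ZMod.stdAddChar (u * (((-1 : ℤ)) : ZMod m)) := by
      rw [Finset.mul_sum]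
      refine Finset.sum_congr rfl fun k _ => ?_
      push_cast
      rw [mul_neg_one]
      ring
    rw [h9, h8]
    ring
  rw [h7] at h1
  simp_rw [h4] at h1
  simp only [mul_ite, mul_zero, Finset.sum_ite_eq', Finset.mem_univ, if_true] at h1
  have h10 : c ((1 : ZMod m).val : ℤ) = 1 := by
    have := hc.val 1
    push_cast at this
    rw [this, hc.one]
  rw [h10] at h1
  have hs' : (c (-1) : ℂ) * c (-1) = 1 := by exact_mod_cast hs
  push_cast at h1
  linear_combination (c (-1) : ℂ) * h1 - g ^ 2 * hs'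

end real

end Vale.Agent.P014.H483
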