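import Vale.Agent.P014.H483.Line
import Vale.Agent.P014.H483.Num0

/-!
# P014, module P: the numerical inequalities on the line `re z = 1/3`
-/

namespace Vale.Agent.P014.H483

open Complex Filter Topology

/-! ### the third roots of unity -/

/-- the real part of `ω^n` -/
noncomputable def kap (n : ℕ) : ℝ := if n % 3 = 0 then 1 else -(1 / 2)

/-- the imaginary part of `ω^n`, divided by `√3 / 2` -/
noncomputable def ch3 (n : ℕ) : ℝ := if n % 3 = 1 then 1 else if n % 3 = 2 then -1 else 0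

lemma kap_le (n : ℕ) : |kap n| ≤ 1 := by
  unfold kap
  split_ifs <;> norm_num [abs_le]

lemma ch3_le (n : ℕ) : |ch3 n| ≤ 1 := by
  unfold ch3
  split_ifs <;> norm_num [abs_le]

/-- `ω` -/
noncomputable def om : ℂ := ⟨-(1 / 2), √3 / 2⟩

lemma om_eq : cexp (2 * Real.pi * I * ((1 / 3 : ℝ) : ℂ)) = om := by
  have h1 : 2 * Real.pi * I * ((1 / 3 : ℝ) : ℂ) = ((Real.pi - Real.pi / 3 : ℝ) : ℂ) * I := by
    push_cast
    ring
  rw [h1]
  apply Complex.ext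
  · rw [Complex.exp_ofReal_mul_I_re, Real.cos_pi_sub, Real.cos_pi_div_three]
    rfl
  · rw [Complex.exp_ofReal_mul_I_im, Real.sin_pi_sub, Real.sin_pi_div_three]
    rfl

lemma om_sq : om ^ 2 = ⟨-(1 / 2), -(√3 / 2)⟩ := by
  have h3 : √3 * √3 = (3 : ℝ) := Real.mul_self_sqrt (by norm_num)
  apply Complex.ext
  · rw [sq, Complex.mul_re]
    simp only [om]
    linear_combination (-1 / 4 : ℝ) * h3
  · rw [sq, Complex.mul_im]
    simp only [om]
    ring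

lemma om_cube : om ^ 3 = 1 := by
  have h3 : √3 * √3 = (3 : ℝ) := Real.mul_self_sqrt (by norm_num)
  rw [pow_succ, om_sq]
  apply Complex.ext
  · rw [Complex.mul_re]
    simp only [om, Complex.one_re]
    linear_combination (1 / 4 : ℝ) * h3
  · rw [Complex.mul_im]
    simp only [om, Complex.one_im]
    ring

lemma om_pow (n : ℕ) : om ^ n = ⟨kap n, √3 / 2 * ch3 n⟩ := by
  have h1 : om ^ n = om ^ (n % 3) := by
    conv_lhs => rw [← Nat.div_add_mod n 3, pow_add, pow_mul, om_cube, one_pow, one_mul]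
  rw [h1]
  have h2 : n % 3 < 3 := Nat.mod_lt _ (by norm_num)
  unfold kap ch3
  interval_cases h : n % 3
  · simp
    rfl
  · simp [om]
  · rw [om_sq]
    simp

/-- the terms of the series on the line -/
lemma exp_line (n : ℕ) (y : ℝ) : cexp (2 * Real.pi * I * (n * zl y)) =
    ((Real.exp (-(2 * Real.pi * y)) ^ n : ℝ) : ℂ) * om ^ n := by
  have h1 : 2 * Real.pi * I * (n * zl y) = n * (((-(2 * Real.pi * y) : ℝ) : ℂ) +
      2 * Real.pi * I * ((1 / 3 : ℝ) : ℂ)) := by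
    unfold zl
    push_cast
    linear_combination (2 * Real.pi * n * y : ℂ) * Complex.I_sq
  rw [h1, Complex.exp_nat_mul, Complex.exp_add, om_eq, mul_pow]
  push_cast
  ring

/-! ### real series -/

section series

variable {c : ℕ → ℤ} {G : ℂ → ℂ}

lemma line_re (h : ∀ z : ℂ, 0 < z.im →
      HasSum (fun n : ℕ => (c n : ℂ) * cexp (2 * Real.pi * I * (n * z))) (G z)) {y : ℝ}
    (hy : 0 < y) :
    HasSum (fun n : ℕ => (c n : ℝ) * kap n * Real.exp (-(2 * Real.pi * y)) ^ n) (G (zl y)).re := by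
  have h1 := h (zl y) (by rw [zl_im]; exact hy)
  have h2 := Complex.hasSum_re h1
  refine h2.congr_fun fun n => ?_
  rw [exp_line, om_pow]
  rw [show ((c n : ℤ) : ℂ) = (((c n : ℤ) : ℝ) : ℂ) by push_cast; rfl, Complex.re_ofReal_mul,
    Complex.re_ofReal_mul]
  ring

lemma line_im (h : ∀ z : ℂ, 0 < z.im →
      HasSum (fun n : ℕ => (c n : ℂ) * cexp (2 * Real.pi * I * (n * z))) (G z)) {y : ℝ}
    (hy : 0 < y) :
    HasSum (fun n : ℕ => (c n : ℝ) * ch3 n * Real.exp (-(2 * Real.pi * y)) ^ n)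
      (2 / √3 * (G (zl y)).im) := by
  have h1 := h (zl y) (by rw [zl_im]; exact hy)
  have h2 := (Complex.hasSum_im h1).mul_left (2 / √3)
  refine h2.congr_fun fun n => ?_
  rw [exp_line, om_pow]
  rw [show ((c n : ℤ) : ℂ) = (((c n : ℤ) : ℝ) : ℂ) by push_cast; rfl, Complex.im_ofReal_mul,
    Complex.im_ofReal_mul]
  have h3 : √3 ≠ 0 := by positivity
  field_simp

/-- tails bounded by a geometric series -/
lemma tail {f : ℕ → ℝ} {S : ℝ} (h : HasSum f S) (N : ℕ) {M ρ : ℝ} (hρ0 : 0 ≤ ρ) (hρ1 : ρ < 1)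
    (hb : ∀ j, |f (j + N)| ≤ M * ρ ^ j) : |S - ∑ n ∈ Finset.range N, f n| ≤ M / (1 - ρ) := by
  have h1 := (hasSum_nat_add_iff' N).2 h
  have h2 := (hasSum_geometric_of_lt_one hρ0 hρ1).mul_left M
  rw [← h1.tsum_eq, ← Real.norm_eq_abs]
  have h3 := tsum_of_norm_bounded (f := fun j => f (j + N)) h2 (fun j => by
    rw [Real.norm_eq_abs]
    exact hb j)
  rw [div_eq_mul_inv]
  exact h3

lemma tail_a {w : ℕ → ℝ} {r S : ℝ} (hw : ∀ n, |w n| ≤ 1) (hc : ∀ n, |(c n : ℝ)| ≤ 2 * n)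
    (h0 : 0 < r) (h1 : r ≤ 301 / 500) (h : HasSum (fun n : ℕ => (c n : ℝ) * w n * r ^ n) S) :
    |S - ∑ n ∈ Finset.range 11, (c n : ℝ) * w n * r ^ n| ≤ 65 * r ^ 11 := by
  have h2 := tail h 11 (M := 22 * r ^ 11) (ρ := 12 / 11 * r) (by positivity) (by linarith) ?_
  · refine h2.trans ?_
    rw [div_le_iff₀ (by linarith)]
    have h3 : 0 < r ^ 11 := by positivity
    nlinarith
  · intro j
    rw [abs_mul, abs_mul, abs_of_nonneg (by positivity : (0 : ℝ) ≤ r ^ (j + 11))]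
    have h3 : |(c (j + 11) : ℝ)| * |w (j + 11)| ≤ 22 * (12 / 11) ^ j := by
      have h4 : |(c (j + 11) : ℝ)| * |w (j + 11)| ≤ 2 * ((j + 11 : ℕ) : ℝ) * 1 :=
        mul_le_mul (hc _) (hw _) (abs_nonneg _) (by positivity)
      have h5 := one_add_mul_le_pow (a := (1 / 11 : ℝ)) (by norm_num) j
      push_cast at h4
      norm_num at h5
      linarith
    calc |(c (j + 11) : ℝ)| * |w (j + 11)| * r ^ (j + 11) ≤ 22 * (12 / 11) ^ j * r ^ (j + 11) :=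
          mul_le_mul_of_nonneg_right h3 (by positivity)
      _ = 22 * r ^ 11 * (12 / 11 * r) ^ j := by
          rw [pow_add, mul_pow]
          ring

lemma tail_b {w : ℕ → ℝ} {r S : ℝ} (hw : ∀ n, |w n| ≤ 1)
    (hc : ∀ n, 1 ≤ n → |(c n : ℝ)| ≤ 3 * (n : ℝ) ^ 2)
    (h0 : 0 < r) (h1 : r ≤ 301 / 500) (h : HasSum (fun n : ℕ => (c n : ℝ) * w n * r ^ n) S) :
    |S - ∑ n ∈ Finset.range 21, (c n : ℝ) * w n * r ^ n| ≤ 3900 * r ^ 21 := by
  have h2 := tail h 21 (M := 1323 * r ^ 21) (ρ := 484 / 441 * r) (by positivity) (by linarith) ?_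
  · refine h2.trans ?_
    rw [div_le_iff₀ (by linarith)]
    have h3 : 0 < r ^ 21 := by positivity
    nlinarith
  · intro j
    rw [abs_mul, abs_mul, abs_of_nonneg (by positivity : (0 : ℝ) ≤ r ^ (j + 21))]
    have h3 : |(c (j + 21) : ℝ)| * |w (j + 21)| ≤ 1323 * (484 / 441) ^ j := by
      have h4 : |(c (j + 21) : ℝ)| * |w (j + 21)| ≤ 3 * ((j + 21 : ℕ) : ℝ) ^ 2 * 1 :=
        mul_le_mul (hc _ (by omega)) (hw _) (abs_nonneg _) (by positivity)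
      have h5 := one_add_mul_le_pow (a := (1 / 21 : ℝ)) (by norm_num) j
      have h6 : (1 + (j : ℝ) * (1 / 21)) ^ 2 ≤ ((1 + 1 / 21) ^ j) ^ 2 :=
        pow_le_pow_left₀ (by positivity) h5 2
      have h7 : ((1 + 1 / 21 : ℝ) ^ j) ^ 2 = (484 / 441) ^ j := by
        rw [← pow_mul, mul_comm j 2, pow_mul]
        norm_num
      rw [h7] at h6
      push_cast at h4
      nlinarith
    calc |(c (j + 21) : ℝ)| * |w (j + 21)| * r ^ (j + 21) ≤
        1323 * (484 / 441) ^ j * r ^ (j + 21) :=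
          mul_le_mul_of_nonneg_right h3 (by positivity)
      _ = 1323 * r ^ 21 * (484 / 441 * r) ^ j := by
          rw [pow_add, mul_pow]
          ring

end series

/-- the table of the coefficients of `F` -/
structure TabA (a : ℕ → ℤ) : Prop where
  t : a 0 = 0 ∧ a 1 = 1 ∧ a 2 = -1 ∧ a 3 = 0 ∧ a 4 = -1 ∧ a 5 = -2 ∧ a 6 = 0 ∧ a 7 = 4 ∧
    a 8 = 3 ∧ a 9 = -3 ∧ a 10 = 2
  bd : ∀ n, |(a n : ℝ)| ≤ 2 * n

/-- the table of the coefficients of `e` -/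
structure TabB (b : ℕ → ℤ) : Prop where
  t : b 0 = 2 ∧ b 1 = 3 ∧ b 2 = 9 ∧ b 3 = 12 ∧ b 4 = 21 ∧ b 5 = 18 ∧ b 6 = 36 ∧ b 7 = 24 ∧
    b 8 = 45 ∧ b 9 = 39 ∧ b 10 = 54 ∧ b 11 = 36 ∧ b 12 = 84 ∧ b 13 = 42 ∧ b 14 = 72 ∧ b 15 = 72 ∧
    b 16 = 93 ∧ b 17 = 3 ∧ b 18 = 117 ∧ b 19 = 60 ∧ b 20 = 126
  bd : ∀ n, 1 ≤ n → |(b n : ℝ)| ≤ 3 * (n : ℝ) ^ 2

lemma sum_a_ch {a : ℕ → ℤ} (h : TabA a) (r : ℝ) :
    ∑ n ∈ Finset.range 11, (a n : ℝ) * ch3 n * r ^ n =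
      r + r ^ 2 - r ^ 4 + 2 * r ^ 5 + 4 * r ^ 7 - 3 * r ^ 8 + 2 * r ^ 10 := by
  obtain ⟨h0, h1, h2, h3, h4, h5, h6, h7, h8, h9, h10⟩ := h.t
  simp only [Finset.sum_range_succ, Finset.sum_range_zero, h0, h1, h2, h3, h4, h5, h6, h7, h8, h9,
    h10, ch3]
  norm_num
  ring

lemma sum_a_ka {a : ℕ → ℤ} (h : TabA a) (r : ℝ) :
    ∑ n ∈ Finset.range 11, (a n : ℝ) * kap n * r ^ n =
      -(1 / 2) * r + 1 / 2 * r ^ 2 + 1 / 2 * r ^ 4 + r ^ 5 - 2 * r ^ 7 - 3 / 2 * r ^ 8 -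
        3 * r ^ 9 - r ^ 10 := by
  obtain ⟨h0, h1, h2, h3, h4, h5, h6, h7, h8, h9, h10⟩ := h.t
  simp only [Finset.sum_range_succ, Finset.sum_range_zero, h0, h1, h2, h3, h4, h5, h6, h7, h8, h9,
    h10, kap]
  norm_num
  ring

lemma sum_b_ch {b : ℕ → ℤ} (h : TabB b) (r : ℝ) :
    ∑ n ∈ Finset.range 21, (b n : ℝ) * ch3 n * r ^ n =
      3 * r - 9 * r ^ 2 + 21 * r ^ 4 - 18 * r ^ 5 + 24 * r ^ 7 - 45 * r ^ 8 + 54 * r ^ 10 -
        36 * r ^ 11 + 42 * r ^ 13 - 72 * r ^ 14 + 93 * r ^ 16 - 3 * r ^ 17 + 60 * r ^ 19 -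
        126 * r ^ 20 := by
  obtain ⟨h0, h1, h2, h3, h4, h5, h6, h7, h8, h9, h10, h11, h12, h13, h14, h15, h16, h17, h18,
    h19, h20⟩ := h.t
  simp only [Finset.sum_range_succ, Finset.sum_range_zero, h0, h1, h2, h3, h4, h5, h6, h7, h8, h9,
    h10, h11, h12, h13, h14, h15, h16, h17, h18, h19, h20, ch3]
  norm_num
  ring

lemma sum_b_ka {b : ℕ → ℤ} (h : TabB b) (r : ℝ) :
    ∑ n ∈ Finset.range 21, (b n : ℝ) * kap n * r ^ n =
      2 - 3 / 2 * r - 9 / 2 * r ^ 2 + 12 * r ^ 3 - 21 / 2 * r ^ 4 - 9 * r ^ 5 + 36 * r ^ 6 -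
        12 * r ^ 7 - 45 / 2 * r ^ 8 + 39 * r ^ 9 - 27 * r ^ 10 - 18 * r ^ 11 + 84 * r ^ 12 -
        21 * r ^ 13 - 36 * r ^ 14 + 72 * r ^ 15 - 93 / 2 * r ^ 16 - 3 / 2 * r ^ 17 +
        117 * r ^ 18 - 30 * r ^ 19 - 63 * r ^ 20 := by
  obtain ⟨h0, h1, h2, h3, h4, h5, h6, h7, h8, h9, h10, h11, h12, h13, h14, h15, h16, h17, h18,
    h19, h20⟩ := h.t
  simp only [Finset.sum_range_succ, Finset.sum_range_zero, h0, h1, h2, h3, h4, h5, h6, h7, h8, h9,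
    h10, h11, h12, h13, h14, h15, h16, h17, h18, h19, h20, kap]
  norm_num
  ring

lemma prod_le {r c S : ℝ} (h4 : c ≤ r / 2) (h5 : -r ≤ c) (h6 : S ≤ r) (h7 : -(r / 2) ≤ S)
    (h0 : 0 < r) : S * c ≤ r ^ 2 / 2 := by
  rcases le_total 0 S with hS0 | hS0
  · have h8 : S * c ≤ S * (r / 2) := mul_le_mul_of_nonneg_left h4 hS0
    have h9 : S * (r / 2) ≤ r * (r / 2) := mul_le_mul_of_nonneg_right h6 (by positivity)
    linarith
  · have h8 : (-S) * (-c) ≤ (-S) * r := mul_le_mul_of_nonneg_left (by linarith) (by linarith)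
    have h9 : (-S) * r ≤ (r / 2) * r := mul_le_mul_of_nonneg_right (by linarith) h0.le
    linarith

/-- **the real inequalities** -/
lemma ineq {r s c S C : ℝ} (h0 : 0 < r) (h1 : r ≤ 301 / 500)
    (hs : |s - (r + r ^ 2 - r ^ 4 + 2 * r ^ 5 + 4 * r ^ 7 - 3 * r ^ 8 + 2 * r ^ 10)| ≤
      65 * r ^ 11)
    (hc : |c - (-(1 / 2) * r + 1 / 2 * r ^ 2 + 1 / 2 * r ^ 4 + r ^ 5 - 2 * r ^ 7 -
      3 / 2 * r ^ 8 - 3 * r ^ 9 - r ^ 10)| ≤ 65 * r ^ 11)
    (hS : |S - (3 * r - 9 * r ^ 2 + 21 * r ^ 4 - 18 * r ^ 5 + 24 * r ^ 7 - 45 * r ^ 8 +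
      54 * r ^ 10 - 36 * r ^ 11 + 42 * r ^ 13 - 72 * r ^ 14 + 93 * r ^ 16 - 3 * r ^ 17 +
      60 * r ^ 19 - 126 * r ^ 20)| ≤ 3900 * r ^ 21)
    (hC : |C - (2 - 3 / 2 * r - 9 / 2 * r ^ 2 + 12 * r ^ 3 - 21 / 2 * r ^ 4 - 9 * r ^ 5 +
      36 * r ^ 6 - 12 * r ^ 7 - 45 / 2 * r ^ 8 + 39 * r ^ 9 - 27 * r ^ 10 - 18 * r ^ 11 +
      84 * r ^ 12 - 21 * r ^ 13 - 36 * r ^ 14 + 72 * r ^ 15 - 93 / 2 * r ^ 16 -
      3 / 2 * r ^ 17 + 117 * r ^ 18 - 30 * r ^ 19 - 63 * r ^ 20)| ≤ 3900 * r ^ 21) :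
    0 < s ∧ S * c - C * s < 0 := by
  have hs1 := (abs_le.1 hs).1
  obtain ⟨hc1, hc2⟩ := abs_le.1 hc
  obtain ⟨hS1, hS2⟩ := abs_le.1 hS
  have hC1 := (abs_le.1 hC).1
  have hsr : r ≤ s := by
    have h2 := mul_nonneg h0.le (nb_s h0.le h1)
    linarith
  have hC' : 1 ≤ C := by
    have h2 := nb_C h0.le h1
    linarith
  have hCs : r ≤ C * s := by
    have h2 : 1 * s ≤ C * s := mul_le_mul_of_nonneg_right hC' (h0.le.trans hsr)
    linarith
  refine ⟨by linarith, ?_⟩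
  rcases le_total r (3 / 10) with h3 | h3
  · have h4 : c ≤ 0 := by
      have h5 := mul_nonneg h0.le (nb_cA h0.le h3)
      linarith
    have h6 : 0 ≤ S := by
      have h5 := mul_nonneg h0.le (nb_SA h0.le h3)
      linarith
    have h7 : S * c ≤ 0 := mul_nonpos_of_nonneg_of_nonpos h6 h4
    linarith
  · have h4 : c ≤ r / 2 := by
      have h5 := mul_nonneg h0.le (nb_cB1 h3 h1)
      linarith
    have h5 : -r ≤ c := by
      have h5 := mul_nonneg h0.le (nb_cB2 h3 h1)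
      linarith
    have h6 : S ≤ r := by
      have h5 := mul_nonneg h0.le (nb_SB1 h3 h1)
      linarith
    have h7 : -(r / 2) ≤ S := by
      have h5 := mul_nonneg h0.le (nb_SB2 h3 h1)
      linarith
    have h8 := prod_le h4 h5 h6 h7 h0
    have h9 : r ^ 2 < r := by
      have : r * r < 1 * r := mul_lt_mul_of_pos_right (by linarith) h0
      linarith [sq r]
    linarith

/-- the range of `r = exp (- 2 π y)` -/
lemma r_le {y : ℝ} (hy : 1 / √153 ≤ y) : Real.exp (-(2 * Real.pi * y)) ≤ 301 / 500 := by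
  have h1 : √153 ≤ (123694 / 10000 : ℝ) := by
    rw [Real.sqrt_le_left (by norm_num)]
    norm_num
  have h2 : (10000 / 123694 : ℝ) ≤ y := by
    refine le_trans ?_ hy
    rw [div_le_div_iff₀ (by norm_num) (by positivity)]
    linarith
  have h3 := Real.pi_gt_d4
  have h4 : (5079 / 10000 : ℝ) ≤ 2 * Real.pi * y := by nlinarith
  have h5 : Real.exp (-(2 * Real.pi * y)) ≤ Real.exp (-(5079 / 10000 : ℝ)) :=
    Real.exp_le_exp.2 (by linarith)
  refine h5.trans ?_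
  rw [Real.exp_neg, inv_le_comm₀ (Real.exp_pos _) (by norm_num)]
  have h6 := Real.sum_le_exp_of_nonneg (x := (5079 / 10000 : ℝ)) (by norm_num) 5
  refine le_trans ?_ h6
  simp only [Finset.sum_range_succ, Finset.sum_range_zero, Nat.factorial]
  norm_num

variable {F e : ℂ → ℂ} {a b : ℕ → ℤ}

/-- **the numerical inequalities** -/
theorem num (hF : ∀ z : ℂ, 0 < z.im →
      HasSum (fun n : ℕ => (a n : ℂ) * cexp (2 * Real.pi * I * (n * z))) (F z))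
    (he : ∀ z : ℂ, 0 < z.im →
      HasSum (fun n : ℕ => (b n : ℂ) * cexp (2 * Real.pi * I * (n * z))) (e z))
    (ta : TabA a) (tb : TabB b) {y : ℝ} (hy : 1 / √153 ≤ y) :
    0 < (F (zl y)).im ∧ (uu F e y).im ≠ 0 := by
  have hy0 : 0 < y := lt_of_lt_of_le (by positivity) hy
  set r : ℝ := Real.exp (-(2 * Real.pi * y)) with hr
  have h0 : 0 < r := Real.exp_pos _
  have h1 : r ≤ 301 / 500 := r_le hy
  have a1 := tail_a ch3_le ta.bd h0 h1 (line_im hF hy0)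
  have a2 := tail_a kap_le ta.bd h0 h1 (line_re hF hy0)
  have a3 := tail_b ch3_le tb.bd h0 h1 (line_im he hy0)
  have a4 := tail_b kap_le tb.bd h0 h1 (line_re he hy0)
  rw [sum_a_ch ta] at a1
  rw [sum_a_ka ta] at a2
  rw [sum_b_ch tb] at a3
  rw [sum_b_ka tb] at a4
  obtain ⟨i1, i2⟩ := ineq h0 h1 a1 a2 a3 a4
  have h3 : 0 < √(3 : ℝ) := by positivity
  have i3 : 0 < (F (zl y)).im := by
    have h4 : (F (zl y)).im = √3 / 2 * (2 / √3 * (F (zl y)).im) := by field_simp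
    rw [h4]
    positivity
  refine ⟨i3, ?_⟩
  have h5 : 0 < Complex.normSq (F (zl y)) := by
    rw [Complex.normSq_pos]
    intro h6
    rw [h6] at i3
    simp at i3
  have h6 : (uu F e y).im = √3 / 2 * (2 / √3 * (e (zl y)).im * (F (zl y)).re -
      (e (zl y)).re * (2 / √3 * (F (zl y)).im)) / Complex.normSq (F (zl y)) := by
    unfold uu
    rw [Complex.div_im]
    field_simp
  rw [h6]
  have h7 : √3 / 2 * (2 / √3 * (e (zl y)).im * (F (zl y)).re -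
      (e (zl y)).re * (2 / √3 * (F (zl y)).im)) < 0 := mul_neg_of_pos_of_neg (by positivity) i2
  exact (div_neg_of_neg_of_pos h7 h5).ne

end Vale.Agent.P014.H483
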