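import Vale.Agent.P014.H483.Calib
import Vale.Agent.P014.H483.Num

/-!
# P014, module P: the values of the odd twists
-/

namespace Vale.Agent.P014.H483

open Complex Filter Topology MeasureTheory
open Vale.Agent.P014.H74

variable {F e dF de : ℂ → ℂ} {a b : ℕ → ℤ}

/-- the real period of `y² = (x - 1) (x + 3) (4 x - 5)` (both components) -/
noncomputable def Omst : ℝ := ∫ x in {x : ℝ | 0 < (x - 1) * (x + 3) * (4 * x - 5)},
  2 / √((x - 1) * (x + 3) * (4 * x - 5))

/-- **calibration** -/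
theorem calibration (h : Cal F e dF de a b) (ta : TabA a) (tb : TabB b) :
    2 * ell (rhoO a) 3 = Omst :=
  ell_three_eq h (fun _ hy => (num h.form.qexp h.eqexp ta tb hy).1)
    (fun _ hy => (num h.form.qexp h.eqexp ta tb hy).2)

theorem Omst_pos (h : Cal F e dF de a b) (ta : TabA a) (tb : TabB b) : 0 < Omst := by
  obtain ⟨h1, -⟩ := calib h (fun _ hy => (num h.form.qexp h.eqexp ta tb hy).1)
    (fun _ hy => (num h.form.qexp h.eqexp ta tb hy).2)
  have h3 : 0 < ∫ x in Set.Ioi (5 / 4), GG x := by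
    rw [setIntegral_pos_iff_support_of_nonneg_ae]
    · have h4 : Function.support GG ∩ Set.Ioi (5 / 4) = Set.Ioi (5 / 4) := by
        rw [Set.inter_eq_right]
        intro x hx
        have hx' : (5 / 4 : ℝ) < x := hx
        have h5 : 0 < (x - 1) * (x + 3) * (4 * x - 5) :=
          mul_pos (mul_pos (by linarith) (by linarith)) (by linarith)
        rw [Function.mem_support]
        unfold GG
        have : 0 < √((x - 1) * (x + 3) * (4 * x - 5)) := Real.sqrt_pos.2 h5
        positivity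
      rw [h4, Real.volume_Ioi]
      exact ENNReal.zero_lt_top
    · refine Filter.Eventually.of_forall fun x => ?_
      unfold GG
      simp only [Pi.zero_apply]
      positivity
    · exact h1
  have h4 : Omst = 4 * ∫ x in Set.Ioi (5 / 4), GG x := Omega_eq h1
  rw [h4]
  positivity

/-- **the value of an odd twist**, in terms of the ratio of the modular symbols -/
theorem L_value (h : Cal F e dF de a b) (ta : TabA a) (tb : TabB b) {n : ℕ} (h4 : n % 4 = 3)
    (hsq : Squarefree n) (h17 : Nat.Coprime 17 n) (hA : P004G.LD (AT a n)) {P : ℝ}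
    (hP : ell (rhoO a) n = P * ell (rhoO a) 3) :
    ∃ L : ℂ → ℂ, Differentiable ℂ L ∧
      (∀ s : ℂ, 3 / 2 < s.re → LSeriesHasSum (fun m => (AT a n m : ℂ)) s (L s)) ∧
      ∃ ε : ℝ, (ε = 1 ∨ ε = -1) ∧ L 1 = ((ε * P * (Omst / (2 * √(n : ℝ))) : ℝ) : ℂ) := by
  obtain ⟨L, hL1, hL2, ε, hε, hL3⟩ := L_odd h.form h4 hsq h17 hA
  refine ⟨L, hL1, hL2, ε, hε, ?_⟩
  rw [hL3, hP, ← calibration h ta tb]
  congr 1
  have hn : (0 : ℝ) < n := by exact_mod_cast (Nat.pos_of_ne_zero hsq.ne_zero)
  have : 0 < √(n : ℝ) := Real.sqrt_pos.2 hn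
  field_simp

end Vale.Agent.P014.H483
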