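import Vale.Agent.P014.H687.Out
import Vale.Agent.P014.H687.Quart
import Vale.Agent.P014.H483.FinP

/-!
# P014, module P: the calibration for the form of level `17`
-/

namespace Vale.Agent.P014.H483

open Complex
open Vale.Agent.P014.H687
open Vale.Agent.P014.H70 (r3 Th3)
open Vale.Agent.P004H.H204 (qq)
open Vale.Agent.P014.H74 (ell)

lemma qq_pow (n : ℕ) (z : ℂ) : cexp (2 * Real.pi * I * (n * z)) = qq z ^ n := by
  unfold qq
  rw [← Complex.exp_nat_mul]
  congr 1
  ring

/-- the data of the calibration -/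
theorem cal17 : Cal (H687.Fc Th3) ec (H687.dv (fun n => (an r3 n : ℂ)))
    (H687.dv (fun n => (cE n : ℂ))) (an r3) cE where
  form := form17
  eslash p q r s h h17 z hz := by
    obtain ⟨c, rfl⟩ := h17
    exact ec_form.mob p q c s (by linarith) z hz
  efricke z hz := ec_form.W z hz
  eqexp z hz := by
    have h := ec_form.sum z hz
    simp_rw [qq_pow]
    exact h
  hF z hz := (F_form' T3).hasDerivAt hz
  he z hz := ec_form.hasDerivAt hz
  quartic z hz := by
    have h := gg_zero T3 ⟨z, hz⟩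
    unfold gg at h
    exact sub_eq_zero.1 h
  a1 := an_one T3
  b0 := rfl

lemma card_divisors_le {n : ℕ} (hn : n ≠ 0) : n.divisors.card ≤ 2 * Nat.sqrt n := by
  set s := Nat.sqrt n with hs
  have h1 : n.divisors ⊆ Finset.Icc 1 s ∪ (Finset.Icc 1 s).image (fun d => n / d) := by
    intro d hd
    rw [Nat.mem_divisors] at hd
    have hd0 : 0 < d := Nat.pos_of_dvd_of_pos hd.1 (Nat.pos_of_ne_zero hn)
    have hdn : d * (n / d) = n := Nat.mul_div_cancel' hd.1
    have hnd : 0 < n / d := Nat.div_pos (Nat.le_of_dvd (Nat.pos_of_ne_zero hn) hd.1) hd0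
    rw [Finset.mem_union, Finset.mem_image]
    by_cases h2 : d ≤ s
    · left
      exact Finset.mem_Icc.2 ⟨hd0, h2⟩
    · right
      refine ⟨n / d, Finset.mem_Icc.2 ⟨hnd, ?_⟩, ?_⟩
      · by_contra h3
        have h4 : s + 1 ≤ d := by omega
        have h5 : s + 1 ≤ n / d := by omega
        have h6 : (s + 1) * (s + 1) ≤ d * (n / d) := Nat.mul_le_mul h4 h5
        have h7 := Nat.sqrt_lt'.1 (show Nat.sqrt n < s + 1 by omega)
        rw [hdn] at h6
        nlinarith
      · exact Nat.div_div_self hd.1 hn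
  calc n.divisors.card ≤ (Finset.Icc 1 s ∪ (Finset.Icc 1 s).image (fun d => n / d)).card :=
        Finset.card_le_card h1
    _ ≤ (Finset.Icc 1 s).card + ((Finset.Icc 1 s).image (fun d => n / d)).card :=
        Finset.card_union_le _ _
    _ ≤ (Finset.Icc 1 s).card + (Finset.Icc 1 s).card :=
        Nat.add_le_add_left Finset.card_image_le _
    _ = 2 * s := by
        rw [Nat.card_Icc]
        omega

lemma an_le (n : ℕ) : |(an r3 n : ℝ)| ≤ 2 * n := by
  have hA := ld_AT (n := 1) (by norm_num)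
  have h1 := P004G.pfLbound (AT (an r3) 1) hA n
  have e : AT (an r3) 1 n = an r3 n := by
    unfold AT
    rw [jacobiSym.one_right, one_mul]
  rw [e] at h1
  rcases Nat.eq_zero_or_pos n with rfl | hn
  · rw [an_zero T3]
    simp
  · have h2 : P004.dv n ≤ 2 * √(n : ℝ) := by
      unfold P004.dv
      have h3 : ((n.divisors.card : ℕ) : ℝ) ≤ ((2 * Nat.sqrt n : ℕ) : ℝ) := by
        exact_mod_cast card_divisors_le hn.ne'
      refine h3.trans ?_
      push_cast
      have := Real.nat_sqrt_le_real_sqrt (a := n)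
      linarith
    have h4 : (0 : ℝ) ≤ √(n : ℝ) := Real.sqrt_nonneg _
    calc |(an r3 n : ℝ)| ≤ P004.dv n * √(n : ℝ) := h1
      _ ≤ 2 * √(n : ℝ) * √(n : ℝ) := mul_le_mul_of_nonneg_right h2 h4
      _ = 2 * n := by
        rw [mul_assoc, Real.mul_self_sqrt (Nat.cast_nonneg n)]

lemma an_nine : an r3 9 = -3 := by
  have := (hk T3).T 3 Nat.prime_three (by norm_num) 3
  norm_num [an_three T3, an_one T3] at this
  omega

lemma an_ten : an r3 10 = 2 := by
  have := (hk T3).mul 2 5 (by norm_num)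
  norm_num [an_two T3, an_five T3] at this
  exact this

theorem tabA : TabA (an r3) where
  t := ⟨an_zero T3, an_one T3, an_two T3, an_three T3, an_four T3, an_five T3, an_six T3,
    an_seven T3, an_eight T3, an_nine, an_ten⟩
  bd := an_le

lemma sigma_le (n : ℕ) : ((ArithmeticFunction.sigma 1 n : ℕ) : ℝ) ≤ (n : ℝ) ^ 2 := by
  rw [ArithmeticFunction.sigma_one_apply]
  have h3 : ∑ d ∈ n.divisors, d ≤ ∑ _d ∈ n.divisors, n :=
    Finset.sum_le_sum fun d hd => Nat.divisor_le hd
  have h4 : n.divisors.card ≤ n := Nat.card_divisors_le_self n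
  rw [Finset.sum_const, smul_eq_mul] at h3
  have h5 : ∑ d ∈ n.divisors, d ≤ n ^ 2 := by nlinarith
  exact_mod_cast h5

lemma sg_le (n : ℕ) : |(sg n : ℝ)| ≤ (n : ℝ) ^ 2 := by
  have h1 := sigma_le n
  have h0 : (0 : ℝ) ≤ ((ArithmeticFunction.sigma 1 n : ℕ) : ℝ) := Nat.cast_nonneg _
  unfold sg
  split_ifs with h17
  · obtain ⟨m, rfl⟩ := h17
    rw [Nat.mul_div_cancel_left m (by norm_num)]
    have h2 := sigma_le m
    have h3 : (0 : ℝ) ≤ ((ArithmeticFunction.sigma 1 m : ℕ) : ℝ) := Nat.cast_nonneg _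
    push_cast at h1 h0 ⊢
    rw [abs_le]
    constructor <;> nlinarith [sq_nonneg (m : ℝ)]
  · push_cast
    rw [sub_zero, abs_of_nonneg h0]
    exact h1

theorem tabB : TabB cE where
  t := by decide
  bd n hn := by
    have h1 : cE n = 3 * sg n := by
      unfold cE
      rw [if_neg (by omega)]
    have h3 := sg_le n
    rw [h1]
    push_cast
    rw [abs_mul, abs_of_pos (by norm_num : (0 : ℝ) < 3)]
    linarith

/-- **calibration**, unconditional -/
theorem calibration17 : 2 * ell (rhoO (an r3)) 3 = Omst := calibration cal17 tabA tabB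

theorem Omst_pos' : 0 < Omst := Omst_pos cal17 tabA tabB

end Vale.Agent.P014.H483
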