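import Mathlib

/-!
# P014, module P: the calibration, real variable part
-/

namespace Vale.Agent.P014.H483

open Filter Topology MeasureTheory Set

/-- the invariant differential of `y² = (x - 1) (x + 3) (4 x - 5)` -/
noncomputable def GG (x : ℝ) : ℝ := 1 / √((x - 1) * (x + 3) * (4 * x - 5))

section ode

variable {K m χ t : ℝ → ℝ} {y0 : ℝ}

lemma ode_le (hm2 : ∀ y, y0 ≤ y → m y ^ 2 = -4 * (K y + 4) * ((K y + 64) ^ 2 + 1024)) {y : ℝ}
    (hy : y0 ≤ y) : K y ≤ -4 := by
  have h1 := hm2 y hy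
  by_contra hcon
  push Not at hcon
  have h2 : 0 < (K y + 4) * ((K y + 64) ^ 2 + 1024) := by
    apply mul_pos (by linarith)
    positivity
  nlinarith [sq_nonneg (m y)]

lemma ode_zero (hm2 : ∀ y, y0 ≤ y → m y ^ 2 = -4 * (K y + 4) * ((K y + 64) ^ 2 + 1024)) {y : ℝ}
    (hy : y0 ≤ y) (h0 : m y = 0) : K y = -4 := by
  have h1 := hm2 y hy
  rw [h0] at h1
  have h2 : (K y + 4) * ((K y + 64) ^ 2 + 1024) = 0 := by linarith
  rcases mul_eq_zero.1 h2 with h3 | h3
  · linarith
  · have : 0 < (K y + 64) ^ 2 + 1024 := by positivity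
    linarith

lemma ode_lt (hK : ∀ y, y0 ≤ y → HasDerivAt K (Real.pi * χ y * m y) y)
    (hm : ∀ y, y0 ≤ y → HasDerivAt m
      (-2 * Real.pi * χ y * ((K y + 64) ^ 2 + 1024 + 2 * (K y + 4) * (K y + 64))) y)
    (hm2 : ∀ y, y0 ≤ y → m y ^ 2 = -4 * (K y + 4) * ((K y + 64) ^ 2 + 1024))
    (hχ : ∀ y, y0 ≤ y → 0 < χ y) (h0 : m y0 = 0) {y : ℝ} (hy : y0 < y) : K y < -4 := by
  have hle := fun {y : ℝ} (hy : y0 ≤ y) => ode_le hm2 hy
  have hK0 : K y0 = -4 := ode_zero hm2 le_rfl h0
  refine lt_of_le_of_ne (hle hy.le) fun hK1 => ?_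
  have hcont : ContinuousOn K (Icc y0 y) := fun w hw => (hK w hw.1).continuousAt.continuousWithinAt
  obtain ⟨w, hw, hmin⟩ := isCompact_Icc.exists_isMinOn ⟨y0, left_mem_Icc.2 hy.le⟩ hcont
  have hmin' : ∀ v ∈ Icc y0 y, K w ≤ K v := fun v hv => hmin hv
  rcases eq_or_lt_of_le (hle hw.1) with h1 | h1
  · -- constant
    have h2 : ∀ v ∈ Icc y0 y, K v = -4 := fun v hv =>
      le_antisymm (hle hv.1) (by rw [← h1]; exact hmin' v hv)
    have h3 : ∀ v ∈ Icc y0 y, m v = 0 := fun v hv => by
      have := hm2 v hv.1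
      rw [h2 v hv] at this
      have h4 : m v ^ 2 = 0 := by rw [this]; ring
      exact pow_eq_zero_iff (two_ne_zero) |>.1 h4
    set c : ℝ := (y0 + y) / 2 with hc
    have hc1 : y0 < c := by rw [hc]; linarith
    have hc2 : c < y := by rw [hc]; linarith
    have h5 : m =ᶠ[𝓝 c] fun _ => 0 := by
      filter_upwards [Ioo_mem_nhds hc1 hc2] with v hv
      exact h3 v ⟨hv.1.le, hv.2.le⟩
    have h6 : HasDerivAt m 0 c := (hasDerivAt_const c (0 : ℝ)).congr_of_eventuallyEq h5
    have h7 := (hm c hc1.le).unique h6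
    rw [h2 c ⟨hc1.le, hc2.le⟩] at h7
    have h8 := hχ c hc1.le
    have h9 := Real.pi_pos
    have h10 : 0 < Real.pi * χ c := by positivity
    nlinarith
  · -- interior minimum
    have hw1 : w ≠ y0 := by
      rintro rfl
      linarith
    have hw2 : w ≠ y := by
      rintro rfl
      linarith
    have hw3 : w ∈ Ioo y0 y := ⟨lt_of_le_of_ne hw.1 (Ne.symm hw1), lt_of_le_of_ne hw.2 hw2⟩
    have h2 : IsLocalMin K w := by
      filter_upwards [Ioo_mem_nhds hw3.1 hw3.2] with v hv
      exact hmin' v ⟨hv.1.le, hv.2.le⟩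
    have h3 := h2.hasDerivAt_eq_zero (hK w hw.1)
    have h4 := hχ w hw.1
    have h5 : m w = 0 := by
      rcases mul_eq_zero.1 h3 with h6 | h6
      · have : 0 < Real.pi * χ w := mul_pos Real.pi_pos h4
        linarith
      · exact h6
    have h6 := ode_zero hm2 hw.1 h5
    linarith

lemma ode_neg (hK : ∀ y, y0 ≤ y → HasDerivAt K (Real.pi * χ y * m y) y)
    (hm : ∀ y, y0 ≤ y → HasDerivAt m
      (-2 * Real.pi * χ y * ((K y + 64) ^ 2 + 1024 + 2 * (K y + 4) * (K y + 64))) y)
    (hm2 : ∀ y, y0 ≤ y → m y ^ 2 = -4 * (K y + 4) * ((K y + 64) ^ 2 + 1024))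
    (hχ : ∀ y, y0 ≤ y → 0 < χ y) (h0 : m y0 = 0) (hinf : Tendsto K atTop atBot) {y : ℝ}
    (hy : y0 < y) : m y < 0 := by
  have hne : ∀ v, y0 < v → m v ≠ 0 := by
    intro v hv h1
    have h2 := ode_zero hm2 hv.le h1
    have h3 := ode_lt hK hm hm2 hχ h0 hv
    linarith
  by_contra hcon
  push Not at hcon
  have hpos : 0 < m y := lt_of_le_of_ne hcon (Ne.symm (hne y hy))
  have hcont : ContinuousOn m (Ioi y0) := fun w hw =>
    (hm w (le_of_lt hw)).continuousAt.continuousWithinAt
  have hall : ∀ v, y0 < v → 0 < m v := by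
    intro v hv
    by_contra hc
    push Not at hc
    have h1 := isPreconnected_Ioi.intermediate_value (a := v) (b := y) hv hy hcont
    obtain ⟨w, hw, hw0⟩ := h1 ⟨hc, hpos.le⟩
    exact hne w hw hw0
  have hmono : MonotoneOn K (Ici y) := by
    refine monotoneOn_of_hasDerivWithinAt_nonneg (convex_Ici y)
      (f' := fun v => Real.pi * χ v * m v) ?_ ?_ ?_
    · intro w hw
      exact (hK w (hy.le.trans hw)).continuousAt.continuousWithinAt
    · intro w hw
      rw [interior_Ici] at hw
      exact (hK w (hy.trans hw).le).hasDerivWithinAt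
    · intro w hw
      rw [interior_Ici] at hw
      have h1 := hχ w (hy.trans hw).le
      have h2 := hall w (hy.trans hw)
      have := Real.pi_pos
      positivity
  have h3 : ∀ᶠ v in atTop, K v < K y := hinf.eventually (eventually_lt_atBot (K y))
  obtain ⟨v, hv1, hv2⟩ := (h3.and (eventually_ge_atTop y)).exists
  have := hmono (self_mem_Ici) hv2 hv2
  linarith

/-- the new variable -/
noncomputable def XX (k : ℝ) : ℝ := (-(k + 32) + √((k + 64) ^ 2 + 1024)) / 32

lemma XX_four : XX (-4) = 5 / 4 := by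
  unfold XX
  rw [show ((-4 : ℝ) + 64) ^ 2 + 1024 = 68 ^ 2 by norm_num, Real.sqrt_sq (by norm_num)]
  norm_num

/-- the algebra of the substitution -/
lemma XX_alg (k : ℝ) : 0 < XX k - 1 ∧
    √((k + 64) ^ 2 + 1024) * (XX k - 1) = 16 * ((XX k - 1) ^ 2 + 1) ∧
    (-4 - k) * (XX k - 1) = 4 * (XX k + 3) * (4 * XX k - 5) := by
  set s : ℝ := √((k + 64) ^ 2 + 1024) with hs
  have hs0 : 0 ≤ s := Real.sqrt_nonneg _
  have hs2 : s ^ 2 = (k + 64) ^ 2 + 1024 := Real.sq_sqrt (by positivity)
  have hX : XX k = (-(k + 32) + s) / 32 := rfl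
  have h1 : k + 64 < s := by
    by_contra hcon
    push Not at hcon
    nlinarith
  refine ⟨by rw [hX]; linarith, ?_, ?_⟩
  · rw [hX]
    linear_combination (1 / 64 : ℝ) * hs2
  · rw [hX]
    linear_combination (-1 / 64 : ℝ) * hs2

lemma hasDerivAt_XX (k : ℝ) : HasDerivAt XX (-(XX k - 1) / √((k + 64) ^ 2 + 1024)) k := by
  have h0 : (k + 64) ^ 2 + 1024 ≠ 0 := by positivity
  have h1 : HasDerivAt (fun k : ℝ => (k + 64) ^ 2 + 1024) (2 * (k + 64)) k := by
    have := (((hasDerivAt_id k).add_const (64 : ℝ)).pow 2).add_const (1024 : ℝ)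
    refine this.congr_deriv ?_
    simp
  have h2 := h1.sqrt h0
  have h3 : HasDerivAt (fun k : ℝ => -(k + 32)) (-1) k := ((hasDerivAt_id k).add_const (32 : ℝ)).neg
  have h4 := (h3.add h2).div_const 32
  refine h4.congr_deriv ?_
  have hs : √((k + 64) ^ 2 + 1024) ≠ 0 := (Real.sqrt_pos.2 (by positivity)).ne'
  unfold XX
  field_simp
  ring

lemma XX_tendsto : Tendsto XX atBot atTop := by
  have h1 : Tendsto (fun k : ℝ => -(k + 32) / 32) atBot atTop := by
    have h2 : Tendsto (fun k : ℝ => k + 32) atBot atBot := tendsto_atBot_add_const_right _ _ tendsto_id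
    have h3 : Tendsto (fun k : ℝ => -(k + 32)) atBot atTop := tendsto_neg_atBot_atTop.comp h2
    exact h3.atTop_div_const (by norm_num)
  refine tendsto_atTop_mono (fun k => ?_) h1
  unfold XX
  have := Real.sqrt_nonneg ((k + 64) ^ 2 + 1024)
  linarith

/-- **the integral**: value of `t` at the initial point -/
theorem ode_int (hK : ∀ y, y0 ≤ y → HasDerivAt K (Real.pi * χ y * m y) y)
    (hm : ∀ y, y0 ≤ y → HasDerivAt m
      (-2 * Real.pi * χ y * ((K y + 64) ^ 2 + 1024 + 2 * (K y + 4) * (K y + 64))) y)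
    (hm2 : ∀ y, y0 ≤ y → m y ^ 2 = -4 * (K y + 4) * ((K y + 64) ^ 2 + 1024))
    (hχ : ∀ y, y0 ≤ y → 0 < χ y) (h0 : m y0 = 0) (hinf : Tendsto K atTop atBot)
    (ht : ∀ y, y0 ≤ y → HasDerivAt t (-4 * Real.pi * χ y) y) (htinf : Tendsto t atTop (𝓝 0)) :
    IntegrableOn GG (Ioi (5 / 4)) ∧ ∫ x in Ioi (5 / 4), GG x = t y0 := by
  have hK0 : K y0 = -4 := ode_zero hm2 le_rfl h0
  have hlt := fun {y : ℝ} (hy : y0 < y) => ode_lt hK hm hm2 hχ h0 hy
  have hneg := fun {y : ℝ} (hy : y0 < y) => ode_neg hK hm hm2 hχ h0 hinf hy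
  set X : ℝ → ℝ := fun y => XX (K y) with hX
  set X' : ℝ → ℝ := fun y => -(XX (K y) - 1) / √((K y + 64) ^ 2 + 1024) * (Real.pi * χ y * m y)
    with hX'
  have hder : ∀ y, y0 ≤ y → HasDerivAt X (X' y) y := fun y hy =>
    HasDerivAt.comp y (hasDerivAt_XX (K y)) (hK y hy)
  have hX0 : X y0 = 5 / 4 := by
    change XX (K y0) = 5 / 4
    rw [hK0, XX_four]
  have hpos : ∀ y, y0 < y → 0 < X' y := by
    intro y hy
    have h1 := (XX_alg (K y)).1
    have h2 : 0 < √((K y + 64) ^ 2 + 1024) := Real.sqrt_pos.2 (by positivity)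
    have h3 := hneg hy
    have h4 := hχ y hy.le
    have h5 : X' y = (XX (K y) - 1) / √((K y + 64) ^ 2 + 1024) * (Real.pi * χ y * (-m y)) := by
      rw [hX']
      ring
    rw [h5]
    have h6 : 0 < -m y := by linarith
    have := Real.pi_pos
    positivity
  have hstrict : StrictMonoOn X (Ici y0) := by
    refine strictMonoOn_of_deriv_pos (convex_Ici y0) ?_ ?_
    · intro w hw
      exact (hder w hw).continuousAt.continuousWithinAt
    · intro w hw
      rw [interior_Ici] at hw
      rw [(hder w (le_of_lt hw)).deriv]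
      exact hpos w hw
  have htend : Tendsto X atTop atTop := XX_tendsto.comp hinf
  have himg : X '' Ioi y0 = Ioi (5 / 4) := by
    ext x
    constructor
    · rintro ⟨y, hy, rfl⟩
      rw [mem_Ioi, ← hX0]
      exact hstrict self_mem_Ici (mem_Ici.2 (le_of_lt hy)) hy
    · intro hx
      obtain ⟨Y, hY1, hY2⟩ := ((htend.eventually (eventually_gt_atTop x)).and
        (eventually_gt_atTop y0)).exists
      have hcont : ContinuousOn X (Icc y0 Y) := fun w hw =>
        (hder w hw.1).continuousAt.continuousWithinAt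
      have h1 := intermediate_value_Icc hY2.le hcont
      have hx' : 5 / 4 < x := hx
      obtain ⟨w, hw, hwx⟩ := h1 (show x ∈ Icc (X y0) (X Y) from ⟨by rw [hX0]; exact hx'.le, hY1.le⟩)
      refine ⟨w, ?_, hwx⟩
      rcases eq_or_lt_of_le hw.1 with h2 | h2
      · exfalso
        rw [← h2, hX0] at hwx
        linarith
      · exact h2
  -- the integrand
  have hint : ∀ y ∈ Ioi y0, |X' y| • GG (X y) = 4 * Real.pi * χ y := by
    intro y hy
    rw [abs_of_pos (hpos y hy), smul_eq_mul]
    obtain ⟨h1, h2, h3⟩ := XX_alg (K y)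
    have h4 : 0 < √((K y + 64) ^ 2 + 1024) := Real.sqrt_pos.2 (by positivity)
    have h5 := hneg hy
    have h6 := hχ y (le_of_lt hy)
    have h7 := hlt hy
    have hmy : m y = -(2 * √((K y + 64) ^ 2 + 1024) * √(-4 - K y)) := by
      have h8 : (-m y) ^ 2 = (2 * √((K y + 64) ^ 2 + 1024) * √(-4 - K y)) ^ 2 := by
        rw [neg_sq, hm2 y (le_of_lt hy), mul_pow, mul_pow, Real.sq_sqrt (by positivity),
          Real.sq_sqrt (by linarith)]
        ring
      have h9 : -m y = 2 * √((K y + 64) ^ 2 + 1024) * √(-4 - K y) := by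
        have h10 : 0 ≤ -m y := by linarith
        have h11 : 0 ≤ 2 * √((K y + 64) ^ 2 + 1024) * √(-4 - K y) := by positivity
        exact (pow_left_inj₀ h10 h11 two_ne_zero).1 h8
      linarith
    have hq : √((XX (K y) - 1) * (XX (K y) + 3) * (4 * XX (K y) - 5)) =
        (XX (K y) - 1) * √(-4 - K y) / 2 := by
      have h8 : (XX (K y) - 1) * (XX (K y) + 3) * (4 * XX (K y) - 5) =
          ((XX (K y) - 1) * √(-4 - K y) / 2) ^ 2 := by
        rw [div_pow, mul_pow, Real.sq_sqrt (by linarith)]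
        linear_combination (-(XX (K y) - 1) / 4) * h3
      rw [h8, Real.sqrt_sq (by positivity)]
    unfold GG
    change X' y * (1 / √((XX (K y) - 1) * (XX (K y) + 3) * (4 * XX (K y) - 5))) = _
    rw [hq, hX']
    simp only
    rw [hmy]
    have h12 : 0 < √(-4 - K y) := Real.sqrt_pos.2 (by linarith)
    field_simp
    ring
  have hcw : ContinuousWithinAt t (Ici y0) y0 := (ht y0 le_rfl).continuousAt.continuousWithinAt
  have hnp : ∀ y ∈ Ioi y0, -4 * Real.pi * χ y ≤ 0 := by
    intro y hy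
    have := hχ y (le_of_lt hy)
    have h2 := Real.pi_pos
    have h3 : 0 < Real.pi * χ y := by positivity
    linarith
  have hI := integral_Ioi_of_hasDerivAt_of_nonpos hcw (fun y hy => ht y (le_of_lt hy)) hnp htinf
  have hI' := integrableOn_Ioi_deriv_of_nonpos hcw (fun y hy => ht y (le_of_lt hy)) hnp htinf
  have hinj : InjOn X (Ioi y0) := hstrict.injOn.mono Ioi_subset_Ici_self
  have hdw : ∀ y ∈ Ioi y0, HasDerivWithinAt X (X' y) (Ioi y0) y := fun y hy =>
    (hder y (le_of_lt hy)).hasDerivWithinAt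
  have hchange := integral_image_eq_integral_abs_deriv_smul measurableSet_Ioi hdw hinj GG
  have hchange' := integrableOn_image_iff_integrableOn_abs_deriv_smul measurableSet_Ioi hdw hinj GG
  rw [himg] at hchange hchange'
  constructor
  · rw [hchange']
    refine (hI'.neg).congr_fun (fun y hy => ?_) measurableSet_Ioi
    rw [hint y hy]
    simp only [Pi.neg_apply]
    ring
  · rw [hchange, setIntegral_congr_fun measurableSet_Ioi hint]
    have h1 : ∫ y in Ioi y0, 4 * Real.pi * χ y = -∫ y in Ioi y0, -4 * Real.pi * χ y := by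
      rw [← integral_neg]
      refine integral_congr_ae (Eventually.of_forall fun y => ?_)
      simp only
      ring
    rw [h1, hI]
    ring

end ode

/-! ### the complete period -/

/-- both components contribute the same -/
theorem egg (hG : IntegrableOn GG (Ioi (5 / 4))) : IntegrableOn GG (Ioo (-3) 1) ∧
    ∫ x in Ioo (-3 : ℝ) 1, GG x = ∫ x in Ioi (5 / 4 : ℝ), GG x := by
  set w : ℝ → ℝ := fun x => 1 - 1 / (x - 1) with hw
  have hd : ∀ x ∈ Ioi (5 / 4 : ℝ), HasDerivWithinAt w (1 / (x - 1) ^ 2) (Ioi (5 / 4)) x := by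
    intro x hx
    have hx1 : (x - 1) ≠ 0 := by
      have : (5 / 4 : ℝ) < x := hx
      intro h
      linarith
    have h1 : HasDerivAt (fun x : ℝ => x - 1) 1 x := (hasDerivAt_id x).sub_const 1
    have h2 := ((hasDerivAt_const x (1 : ℝ)).div h1 hx1).const_sub 1
    refine (h2.congr_deriv ?_).hasDerivWithinAt
    ring
  have hinj : InjOn w (Ioi (5 / 4)) := by
    intro x hx y hy hxy
    have hx' : (5 / 4 : ℝ) < x := hx
    have hy' : (5 / 4 : ℝ) < y := hy
    have h1 : (x - 1) ≠ 0 := by intro h; linarith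
    have h2 : (y - 1) ≠ 0 := by intro h; linarith
    have h3 : 1 / (x - 1) = 1 / (y - 1) := by
      have : 1 - 1 / (x - 1) = 1 - 1 / (y - 1) := hxy
      linarith
    field_simp at h3
    linarith
  have himg : w '' Ioi (5 / 4) = Ioo (-3) 1 := by
    ext z
    constructor
    · rintro ⟨x, hx, rfl⟩
      have hx' : (5 / 4 : ℝ) < x := hx
      have h1 : 0 < x - 1 := by linarith
      have h2 : 1 / (x - 1) < 4 := by
        rw [div_lt_iff₀ h1]
        linarith
      have h3 : 0 < 1 / (x - 1) := by positivity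
      exact ⟨by simp only [hw]; linarith, by simp only [hw]; linarith⟩
    · rintro ⟨h1, h2⟩
      have h3 : 0 < 1 - z := by linarith
      refine ⟨1 + 1 / (1 - z), ?_, ?_⟩
      · rw [mem_Ioi]
        have : 1 / 4 < 1 / (1 - z) := by
          apply one_div_lt_one_div_of_lt h3
          linarith
        linarith
      · simp only [hw]
        field_simp
        ring
  have hint : ∀ x ∈ Ioi (5 / 4 : ℝ), |1 / (x - 1) ^ 2| • GG (w x) = GG x := by
    intro x hx
    have hx' : (5 / 4 : ℝ) < x := hx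
    have h1 : 0 < x - 1 := by linarith
    rw [abs_of_pos (by positivity), smul_eq_mul]
    unfold GG
    have h2 : (w x - 1) * (w x + 3) * (4 * w x - 5) =
        (x - 1) * (x + 3) * (4 * x - 5) / ((x - 1) ^ 2) ^ 2 := by
      simp only [hw]
      field_simp
      ring
    have h3 : 0 ≤ (x - 1) * (x + 3) * (4 * x - 5) := by
      have h4 : 0 < x + 3 := by linarith
      have h5 : 0 < 4 * x - 5 := by linarith
      positivity
    rw [h2, Real.sqrt_div h3, Real.sqrt_sq (by positivity)]
    field_simp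
  have hc := integral_image_eq_integral_abs_deriv_smul measurableSet_Ioi hd hinj GG
  have hc' := integrableOn_image_iff_integrableOn_abs_deriv_smul measurableSet_Ioi hd hinj GG
  rw [himg] at hc hc'
  constructor
  · rw [hc']
    exact hG.congr_fun (fun x hx => (hint x hx).symm) measurableSet_Ioi
  · rw [hc, setIntegral_congr_fun measurableSet_Ioi hint]

/-- the real period of the model -/
theorem Omega_eq (hG : IntegrableOn GG (Ioi (5 / 4))) :
    ∫ x in {x : ℝ | 0 < (x - 1) * (x + 3) * (4 * x - 5)},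
      2 / √((x - 1) * (x + 3) * (4 * x - 5)) = 4 * ∫ x in Ioi (5 / 4 : ℝ), GG x := by
  obtain ⟨h1, h2⟩ := egg hG
  have hset : {x : ℝ | 0 < (x - 1) * (x + 3) * (4 * x - 5)} = Ioo (-3) 1 ∪ Ioi (5 / 4) := by
    ext x
    simp only [mem_ofPred_eq, mem_union, mem_Ioo, mem_Ioi]
    constructor
    · intro h
      by_cases hx : 5 / 4 < x
      · exact Or.inr hx
      · left
        push Not at hx
        have h3 : 4 * x - 5 ≤ 0 := by linarith
        have h4 : (x - 1) * (x + 3) < 0 := by
          by_contra hcon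
          push Not at hcon
          nlinarith
        constructor
        · by_contra hcon
          push Not at hcon
          nlinarith
        · by_contra hcon
          push Not at hcon
          nlinarith
    · rintro (⟨h3, h4⟩ | h3)
      · have h5 : 0 < (1 - x) * (x + 3) := mul_pos (by linarith) (by linarith)
        have h6 : 0 < 5 - 4 * x := by linarith
        have := mul_pos h5 h6
        nlinarith
      · have h5 : 0 < (x - 1) * (x + 3) := mul_pos (by linarith) (by linarith)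
        have h6 : 0 < 4 * x - 5 := by linarith
        exact mul_pos h5 h6
  have hfun : ∀ x : ℝ, 2 / √((x - 1) * (x + 3) * (4 * x - 5)) = 2 * GG x := by
    intro x
    unfold GG
    ring
  simp_rw [hfun]
  rw [hset, integral_const_mul, setIntegral_union ?_ measurableSet_Ioi h1 hG, h2]
  · ring
  · rw [Set.disjoint_left]
    rintro x ⟨_, h3⟩ h4
    have : (5 / 4 : ℝ) < x := h4
    linarith

end Vale.Agent.P014.H483
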