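import Vale.Agent.P014.H483.LVal
import Vale.Agent.P014.H74.A4b

/-!
# P014, module P: the `L`-values of the twists in terms of the period homomorphisms
-/

namespace Vale.Agent.P014.H483

open Complex Filter Topology
open Vale.Agent.P004H.H871 (RC rc_odd)
open Vale.Agent.P014.H74
open P004G P004G.Rk

variable {F : ℂ → ℂ} {a : ℕ → ℤ}

/-- the complex period homomorphism -/
noncomputable def rhoC (a : ℕ → ℤ) (A : G) : ℂ := psi a A.1.X A.1.Y (17 * A.1.w) A.1.v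

/-- the even real period homomorphism -/
noncomputable def rhoE (a : ℕ → ℤ) (A : G) : ℝ := (rhoC a A).re

/-- the odd real period homomorphism -/
noncomputable def rhoO (a : ℕ → ℤ) (A : G) : ℝ := (rhoC a A).im

lemma rhoC_mul (h : Form F a) (A B : G) : rhoC a (A * B) = rhoC a A + rhoC a B := by
  have hA := A.det_eq
  have hB := B.det_eq
  have h1 := psi_mul h (p := A.1.X) (q := A.1.Y) (r := 17 * A.1.w) (s := A.1.v)
    (p' := B.1.X) (q' := B.1.Y) (r' := 17 * B.1.w) (s' := B.1.v) (by linarith)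
    (Dvd.intro _ rfl) (by linarith) (Dvd.intro _ rfl)
  unfold rhoC
  rw [← h1, G.mul_val]
  simp only [M4.mul_X, M4.mul_Y, M4.mul_w, M4.mul_v]
  congr 1 <;> ring

lemma rhoC_T : rhoC a (tz 1) = 0 := psi_T

lemma rhoC_V (h : Form F a) : rhoC a (vz 1) = 0 := psi_V h

open ComplexConjugate in
lemma rhoC_cG (A : G) : rhoC a (cG A) = conj (rhoC a A) := by
  have h1 := psi_conj (a := a) A.1.X A.1.Y (17 * A.1.w) A.1.v
  unfold rhoC
  rw [← h1]
  simp only [cG, cn]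
  congr 1
  ring

theorem par_E (h : Form F a) : Par (rhoE a) where
  mul A B := by
    unfold rhoE
    rw [rhoC_mul h, Complex.add_re]
  T := by
    unfold rhoE
    rw [rhoC_T, Complex.zero_re]
  V := by
    unfold rhoE
    rw [rhoC_V h, Complex.zero_re]

theorem par_O (h : Form F a) : Par (rhoO a) where
  mul A B := by
    unfold rhoO
    rw [rhoC_mul h, Complex.add_im]
  T := by
    unfold rhoO
    rw [rhoC_T, Complex.zero_im]
  V := by
    unfold rhoO
    rw [rhoC_V h, Complex.zero_im]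

theorem even_E (A : G) : rhoE a (cG A) = 1 * rhoE a A := by
  unfold rhoE
  rw [rhoC_cG, Complex.conj_re, one_mul]

theorem odd_O (A : G) : rhoO a (cG A) = (-1) * rhoO a A := by
  unfold rhoO
  rw [rhoC_cG, Complex.conj_im]
  ring

section units

variable {d : ℕ} [NeZero d]

lemma rho_gam_neg {ρ : G → ℝ} (h : Par ρ) {ε : ℝ} (hε : ∀ A, ρ (cG A) = ε * ρ A)
    (hd : Nat.Coprime 17 d) (x : (ZMod d)ˣ) : ρ (gam hd (-x)) = ε * ρ (gam hd x) := by
  obtain ⟨k, hk⟩ := bz_neg x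
  have h1 : ρ (gam hd (-x)) = ρ (tz k * cG (gam hd x)) := by
    apply h.eq_of_col2
    · rw [G.mul_val, M4.mul_Y]
      simp only [tz, cG, cn, gam]
      linarith
    · rw [G.mul_val, M4.mul_v]
      simp only [tz, cG, cn, gam]
      ring
  rw [h1, h.mul, h.tz, zero_add, hε]

/-- the wrong parity gives zero -/
lemma ell_zero {ρ : G → ℝ} (h : Par ρ) {ε : ℝ} (hε : ∀ A, ρ (cG A) = ε * ρ A)
    (hd : Nat.Coprime 17 d) (hs : ((jacobiSym (-1) d : ℤ) : ℝ) * ε = -1) : ell ρ d = 0 := by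
  have h1 := ell_units h hd
  have h2 : ell ρ d = ∑ x : (ZMod d)ˣ, ((chi (-x) : ℤ) : ℝ) * ρ (gam hd (-x)) := by
    rw [h1]
    exact (Equiv.sum_comp (Equiv.neg _) (fun y : (ZMod d)ˣ => ((chi y : ℤ) : ℝ) * ρ (gam hd y))).symm
  have h3 : ell ρ d = - ell ρ d := by
    rw [h2]
    conv_rhs => rw [← h2, h1]
    rw [← Finset.sum_neg_distrib]
    refine Finset.sum_congr rfl fun x _ => ?_
    rw [chi_neg, rho_gam_neg h hε]
    push_cast
    linear_combination ((chi x : ℤ) : ℝ) * ρ (gam hd x) * hs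
  linarith

/-- the periods occurring in Birch's formula -/
lemma psi_gam (h : Form F a) (hd : Nat.Coprime 17 d) (u : (ZMod d)ˣ) (V t : ℤ)
    (ht : 17 * ((u : ZMod d).val : ℤ) * V + 1 = d * t) :
    psi a t ((u : ZMod d).val : ℤ) (17 * V) d = rhoC a (gam hd u) := by
  let γ : G := ⟨⟨t, ((u : ZMod d).val : ℤ), V, d⟩, by
    simp only [M4.det]
    linarith⟩
  have h1 : rhoE a γ = rhoE a (gam hd u) := (par_E h).eq_of_col2 rfl rfl
  have h2 : rhoO a γ = rhoO a (gam hd u) := (par_O h).eq_of_col2 rfl rfl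
  exact Complex.ext h1 h2

lemma sum_rhoC (h : Form F a) (hd : Nat.Coprime 17 d) :
    ∑ u : (ZMod d)ˣ, ((jacobiSym (((u : ZMod d).val : ℕ) : ℤ) d : ℤ) : ℂ) * rhoC a (gam hd u) =
      (ell (rhoE a) d : ℂ) + (ell (rhoO a) d : ℂ) * I := by
  rw [ell_units (par_E h) hd, ell_units (par_O h) hd]
  push_cast
  rw [Finset.sum_mul, ← Finset.sum_add_distrib]
  refine Finset.sum_congr rfl fun u _ => ?_
  have h1 : rhoC a (gam hd u) = (rhoE a (gam hd u) : ℂ) + (rhoO a (gam hd u) : ℂ) * I :=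
    (Complex.re_add_im _).symm
  rw [h1]
  unfold H74.chi bz
  ring

end units

/-- the coefficients of the twist -/
def AT (a : ℕ → ℤ) (n m : ℕ) : ℤ := jacobiSym m n * a m

lemma EA_eq (n : ℕ) (y : ℝ) : EA (AT a n) y = eD a (fun x => jacobiSym x n) y := by
  unfold EA eD AT
  refine tsum_congr fun m => ?_
  rw [mul_comm (jacobiSym (m : ℤ) n)]

lemma TH_eq (n : ℕ) (u : ℝ) : TH (AT a n) u = 4 * fD a (fun x => jacobiSym x n) (u / 2) := by
  unfold TH fD AT
  congr 1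
  refine tsum_congr fun m => ?_
  rw [mul_comm (jacobiSym (m : ℤ) n)]
  congr 2
  ring

/-- the functional equation of the twist -/
theorem FEq_tw (h : Form F a) {n : ℕ} (hn : Odd n) (hsq : Squarefree n) (h17 : Nat.Coprime 17 n) :
    FEq (AT a n) (17 * (n : ℝ) ^ 2 / 4) (jacobiSym (-17) n) := by
  have : NeZero n := ⟨hsq.ne_zero⟩
  have hc : RC n (fun x => jacobiSym x n) := rc_odd n _ hsq hn
  have hn0 : (0 : ℝ) < n := by exact_mod_cast Nat.pos_of_ne_zero (NeZero.ne n)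
  have hs : jacobiSym (-17) n * jacobiSym (-17) n = 1 := hc.sq (unit17 h17.symm)
  refine ⟨by positivity, ?_, fun u hu => ?_⟩
  · have h1 : jacobiSym (-17) n = 1 ∨ jacobiSym (-17) n = -1 := by
      have h2 : (jacobiSym (-17) n - 1) * (jacobiSym (-17) n + 1) = 0 := by linarith
      rcases mul_eq_zero.1 h2 with h3 | h3
      · left
        linarith
      · right
        linarith
    rcases h1 with h1 | h1
    · left
      rw [h1]
      norm_num
    · right
      rw [h1]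
      norm_num
  · rw [TH_eq, TH_eq]
    have h1 := fe_tw h hc h17.symm (y := u / 2) (by positivity)
    have e : 1 / (17 * (n : ℝ) ^ 2 / 4 * u) / 2 = 1 / (17 * (n : ℝ) ^ 2 * (u / 2)) := by
      field_simp
      norm_num
    rw [e, h1]
    have hs' : ((jacobiSym (-17) n : ℤ) : ℝ) * ((jacobiSym (-17) n : ℤ) : ℝ) = 1 := by
      exact_mod_cast hs
    field_simp
    linear_combination (-4 * fD a (fun x => jacobiSym x n) (u / 2)) * hs'

/-- **the `L`-value of a twist**, general form -/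
theorem L_tw (h : Form F a) {n : ℕ} (hn : Odd n) (h1n : 1 < n) (hsq : Squarefree n)
    (h17 : Nat.Coprime 17 n) (hA : LD (AT a n)) :
    ∃ L : ℂ → ℂ, Differentiable ℂ L ∧
      (∀ s : ℂ, 3 / 2 < s.re → LSeriesHasSum (fun m => (AT a n m : ℂ)) s (L s)) ∧
      ∃ g : ℂ, g ≠ 0 ∧ g ^ 2 = jacobiSym (-1) n * n ∧
        g * L 1 = (ell (rhoE a) n : ℂ) + (ell (rhoO a) n : ℂ) * I := by
  have : NeZero n := ⟨hsq.ne_zero⟩
  have hc : RC n (fun x => jacobiSym x n) := rc_odd n _ hsq hn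
  obtain ⟨g, hg, hg2⟩ := hc.gauss
  have hsq' := gauss_sq hc hg2
  have hb := birch h hc h17.symm h1n hg hg2 (fun u => rhoC a (gam h17 u))
    (fun u V t ht => psi_gam h h17 u V t ht)
  have hsum := sum_rhoC h h17
  simp only [hsum] at hb
  set w : ℂ := g⁻¹ * ((ell (rhoE a) n : ℂ) + (ell (rhoO a) n : ℂ) * I) with hw
  have hre : Tendsto (fun y : ℝ => eD a (fun x => jacobiSym x n) y) (𝓝[>] 0) (𝓝 w.re) := by
    have := (Complex.continuous_re.tendsto w).comp hb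
    simpa [Function.comp_def] using this
  have hwr : w = ((w.re : ℝ) : ℂ) := by
    have h5 : Tendsto (fun y : ℝ => ((eD a (fun x => jacobiSym x n) y : ℝ) : ℂ)) (𝓝[>] 0)
        (𝓝 ((w.re : ℝ) : ℂ)) := (Complex.continuous_ofReal.tendsto _).comp hre
    exact tendsto_nhds_unique hb h5
  have h0 : Tendsto (EA (AT a n)) (𝓝[>] 0) (𝓝 w.re) := by
    refine hre.congr fun y => ?_
    rw [EA_eq]
  have h1 : Tendsto (EA (AT a n)) atTop (𝓝 0) := by
    refine (eD_tendsto h hc).congr fun y => ?_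
    rw [EA_eq]
  obtain ⟨L, hL1, hL2, hL3⟩ := L_one hA (FEq_tw h hn hsq h17) h0 h1
  refine ⟨L, hL1, hL2, g, hg, hsq', ?_⟩
  rw [hL3, ← hwr, hw, mul_inv_cancel_left₀ hg]

/-- **the `L`-value of an odd twist** -/
theorem L_odd (h : Form F a) {n : ℕ} (h4 : n % 4 = 3) (hsq : Squarefree n)
    (h17 : Nat.Coprime 17 n) (hA : LD (AT a n)) :
    ∃ L : ℂ → ℂ, Differentiable ℂ L ∧
      (∀ s : ℂ, 3 / 2 < s.re → LSeriesHasSum (fun m => (AT a n m : ℂ)) s (L s)) ∧
      ∃ ε : ℝ, (ε = 1 ∨ ε = -1) ∧ L 1 = ((ε * (ell (rhoO a) n / √(n : ℝ)) : ℝ) : ℂ) := by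
  have : NeZero n := ⟨hsq.ne_zero⟩
  have hn : Odd n := Nat.odd_iff.2 (by omega)
  have hneg : jacobiSym (-1) n = -1 := by
    rw [jacobiSym.at_neg_one hn, ZMod.χ₄_nat_three_mod_four h4]
  obtain ⟨L, hL1, hL2, g, hg, hg2, hL3⟩ := L_tw h hn (by omega) hsq h17 hA
  refine ⟨L, hL1, hL2, ?_⟩
  have hz : ell (rhoE a) n = 0 := ell_zero (par_E h) (even_E (a := a)) h17 (by rw [hneg]; norm_num)
  rw [hz, Complex.ofReal_zero, zero_add] at hL3
  rw [hneg] at hg2
  have hn0 : (0 : ℝ) < n := by exact_mod_cast Nat.pos_of_ne_zero (NeZero.ne n)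
  have hsn : (0 : ℝ) < √(n : ℝ) := Real.sqrt_pos.2 hn0
  have hsn' : ((√(n : ℝ) : ℝ) : ℂ) ≠ 0 := by exact_mod_cast hsn.ne'
  have hss : ((√(n : ℝ) : ℝ) : ℂ) ^ 2 = n := by
    rw [← Complex.ofReal_pow, Real.sq_sqrt hn0.le]
    simp
  have h5 : (g - ((√(n : ℝ) : ℝ) : ℂ) * I) * (g + ((√(n : ℝ) : ℝ) : ℂ) * I) = 0 := by
    push_cast at hg2
    linear_combination hg2 + hss - ((√(n : ℝ) : ℝ) : ℂ) ^ 2 * Complex.I_sq
  rcases mul_eq_zero.1 h5 with h6 | h6
  · refine ⟨1, Or.inl rfl, ?_⟩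
    have h7 : g = ((√(n : ℝ) : ℝ) : ℂ) * I := by linear_combination h6
    rw [h7] at hL3
    have h8 : ((√(n : ℝ) : ℝ) : ℂ) * L 1 = (ell (rhoO a) n : ℂ) := by
      apply mul_left_cancel₀ Complex.I_ne_zero
      linear_combination hL3
    push_cast
    rw [one_mul, eq_div_iff hsn']
    linear_combination h8
  · refine ⟨-1, Or.inr rfl, ?_⟩
    have h7 : g = -(((√(n : ℝ) : ℝ) : ℂ) * I) := by linear_combination h6
    rw [h7] at hL3
    have h8 : ((√(n : ℝ) : ℝ) : ℂ) * L 1 = -(ell (rhoO a) n : ℂ) := by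
      apply mul_left_cancel₀ Complex.I_ne_zero
      linear_combination -hL3
    push_cast
    rw [neg_one_mul, ← neg_div, eq_div_iff hsn']
    linear_combination h8

/-- **the `L`-value of an even twist** -/
theorem L_even (h : Form F a) {n : ℕ} (h4 : n % 4 = 1) (h1n : 1 < n) (hsq : Squarefree n)
    (h17 : Nat.Coprime 17 n) (hA : LD (AT a n)) :
    ∃ L : ℂ → ℂ, Differentiable ℂ L ∧
      (∀ s : ℂ, 3 / 2 < s.re → LSeriesHasSum (fun m => (AT a n m : ℂ)) s (L s)) ∧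
      ∃ ε : ℝ, (ε = 1 ∨ ε = -1) ∧ L 1 = ((ε * (ell (rhoE a) n / √(n : ℝ)) : ℝ) : ℂ) := by
  have : NeZero n := ⟨hsq.ne_zero⟩
  have hn : Odd n := Nat.odd_iff.2 (by omega)
  have hneg : jacobiSym (-1) n = 1 := by
    rw [jacobiSym.at_neg_one hn, ZMod.χ₄_nat_one_mod_four h4]
  obtain ⟨L, hL1, hL2, g, hg, hg2, hL3⟩ := L_tw h hn h1n hsq h17 hA
  refine ⟨L, hL1, hL2, ?_⟩
  have hz : ell (rhoO a) n = 0 := ell_zero (par_O h) (odd_O (a := a)) h17 (by rw [hneg]; norm_num)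
  rw [hz, Complex.ofReal_zero, zero_mul, add_zero] at hL3
  rw [hneg] at hg2
  have hn0 : (0 : ℝ) < n := by exact_mod_cast Nat.pos_of_ne_zero (NeZero.ne n)
  have hsn : (0 : ℝ) < √(n : ℝ) := Real.sqrt_pos.2 hn0
  have hsn' : ((√(n : ℝ) : ℝ) : ℂ) ≠ 0 := by exact_mod_cast hsn.ne'
  have hss : ((√(n : ℝ) : ℝ) : ℂ) ^ 2 = n := by
    rw [← Complex.ofReal_pow, Real.sq_sqrt hn0.le]
    simp
  have h5 : (g - ((√(n : ℝ) : ℝ) : ℂ)) * (g + ((√(n : ℝ) : ℝ) : ℂ)) = 0 := by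
    push_cast at hg2
    linear_combination hg2 - hss
  rcases mul_eq_zero.1 h5 with h6 | h6
  · refine ⟨1, Or.inl rfl, ?_⟩
    have h7 : g = ((√(n : ℝ) : ℝ) : ℂ) := by linear_combination h6
    rw [h7] at hL3
    push_cast
    rw [one_mul, eq_div_iff hsn']
    linear_combination hL3
  · refine ⟨-1, Or.inr rfl, ?_⟩
    have h7 : g = -((√(n : ℝ) : ℝ) : ℂ) := by linear_combination h6
    rw [h7] at hL3
    push_cast
    rw [neg_one_mul, ← neg_div, eq_div_iff hsn']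
    linear_combination -hL3

end Vale.Agent.P014.H483
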