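import Vale.Agent.P014.H483.Line
import Vale.Agent.P014.H483.Ode
import Vale.Agent.P014.H483.Tw

/-!
# P014, module P: the calibration at the twist by `-3`
-/

namespace Vale.Agent.P014.H483

open Complex Filter Topology MeasureTheory
open Vale.Agent.P014.H74

variable {F e dF de : ℂ → ℂ} {a b : ℕ → ℤ}

/-! ### limits -/

lemma F_ev (h : Cal F e dF de a b) :
    Tendsto (fun y : ℝ => F (zl y) * cexp (-(2 * Real.pi * I * zl y))) atTop (𝓝 1) := by
  have h1 := tendsto_coeff1 h.form.qexp h.form.zero (1 / 3)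
  rw [h.a1] at h1
  simpa [zl] using h1

lemma F_ev0 (h : Cal F e dF de a b) : Tendsto (fun y : ℝ => F (zl y)) atTop (𝓝 0) := by
  have h1 := tendsto_coeff h.form.qexp (1 / 3)
  rw [h.form.zero] at h1
  simpa [zl] using h1

lemma e_ev (h : Cal F e dF de a b) : Tendsto (fun y : ℝ => e (zl y)) atTop (𝓝 2) := by
  have h1 := tendsto_coeff h.eqexp (1 / 3)
  rw [h.b0] at h1
  simpa [zl] using h1

lemma BB_ne (h : Cal F e dF de a b) : ∃ z : ℂ, 0 < z.im ∧ BB F e dF de z ≠ 0 := by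
  have h1 : ∀ᶠ y : ℝ in atTop, F (zl y) ≠ 0 := by
    filter_upwards [(F_ev h).eventually_ne one_ne_zero] with y hy h0
    apply hy
    rw [h0, zero_mul]
  have h2 : Tendsto (fun y : ℝ => e (zl y) ^ 4 - 16 * e (zl y) ^ 3 * F (zl y) -
      66 * e (zl y) ^ 2 * F (zl y) ^ 2 - 48 * e (zl y) * F (zl y) ^ 3 - 127 * F (zl y) ^ 4) atTop
      (𝓝 (2 ^ 4 - 16 * 2 ^ 3 * 0 - 66 * 2 ^ 2 * 0 ^ 2 - 48 * 2 * 0 ^ 3 - 127 * 0 ^ 4)) := by
    have he := e_ev h
    have hF := F_ev0 h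
    exact (((((he.pow 4)).sub (((he.pow 3).const_mul 16).mul hF)).sub
      (((he.pow 2).const_mul 66).mul (hF.pow 2))).sub ((he.const_mul 48).mul (hF.pow 3))).sub
      ((hF.pow 4).const_mul 127)
  have h3 := h2.eventually_ne (show (2 ^ 4 - 16 * 2 ^ 3 * 0 - 66 * 2 ^ 2 * 0 ^ 2 - 48 * 2 * 0 ^ 3 -
    127 * 0 ^ 4 : ℂ) ≠ 0 by norm_num)
  obtain ⟨y, hy1, hy2, hy3⟩ := (h1.and (h3.and (eventually_gt_atTop 0))).exists
  have hz : 0 < (zl y).im := by rw [zl_im]; exact hy3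
  refine ⟨zl y, hz, fun h0 => ?_⟩
  have h4 := h.quartic _ hz
  have h5 : e (zl y) * dF (zl y) - F (zl y) * de (zl y) = 0 := h0
  rw [h5] at h4
  have h6 := mul_ne_zero (pow_ne_zero 2 hy1) hy2
  apply h6
  rw [← h4]
  ring

lemma zeta_re : (cexp (-(2 * Real.pi * I * ((1 / 3 : ℝ) : ℂ)))).re = -(1 / 2) := by
  have h1 : -(2 * Real.pi * I * ((1 / 3 : ℝ) : ℂ)) = ((-(Real.pi - Real.pi / 3) : ℝ) : ℂ) * I := by
    push_cast
    ring
  rw [h1, Complex.exp_ofReal_mul_I_re, Real.cos_neg, Real.cos_pi_sub, Real.cos_pi_div_three]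

lemma alpha_tendsto (h : Cal F e dF de a b) :
    Tendsto (fun y : ℝ => (uu F e y).re) atTop atBot := by
  set ζ : ℂ := cexp (-(2 * Real.pi * I * ((1 / 3 : ℝ) : ℂ))) with hζ
  have h1 : Tendsto (fun y : ℝ => e (zl y) / (F (zl y) * cexp (-(2 * Real.pi * I * zl y)))) atTop
      (𝓝 (2 / 1)) := (e_ev h).div (F_ev h) one_ne_zero
  have h2 : Tendsto (fun y : ℝ => (e (zl y) / (F (zl y) * cexp (-(2 * Real.pi * I * zl y))) *
      ζ).re) atTop (𝓝 (-1)) := by
    have h3 := (Complex.continuous_re.tendsto _).comp (h1.mul_const ζ)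
    have h4 : ((2 / 1 : ℂ) * ζ).re = -1 := by
      rw [div_one, show (2 : ℂ) * ζ = ((2 : ℝ) : ℂ) * ζ by push_cast; rfl,
        Complex.re_ofReal_mul, hζ, zeta_re]
      norm_num
    rw [h4] at h3
    exact h3
  have h5 : Tendsto (fun y : ℝ => Real.exp (2 * Real.pi * y)) atTop atTop := by
    apply Real.tendsto_exp_atTop.comp
    exact tendsto_id.const_mul_atTop (by positivity)
  have h6 := h5.atTop_mul_neg (by norm_num : (-1 : ℝ) < 0) h2
  refine h6.congr fun y => ?_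
  have h7 : uu F e y = ((Real.exp (2 * Real.pi * y) : ℝ) : ℂ) *
      (e (zl y) / (F (zl y) * cexp (-(2 * Real.pi * I * zl y))) * ζ) := by
    have h8 : cexp (-(2 * Real.pi * I * zl y)) = ζ * ((Real.exp (2 * Real.pi * y) : ℝ) : ℂ) := by
      rw [hζ, Complex.ofReal_exp, ← Complex.exp_add]
      congr 1
      unfold zl
      push_cast
      linear_combination (-2 * Real.pi * y : ℂ) * Complex.I_sq
    have h9 : cexp (-(2 * Real.pi * I * zl y)) ≠ 0 := Complex.exp_ne_zero _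
    unfold uu
    by_cases h10 : F (zl y) = 0
    · rw [h10]
      simp
    · have h11 : ((Real.exp (2 * Real.pi * y) : ℝ) : ℂ) * ζ = cexp (-(2 * Real.pi * I * zl y)) := by
        rw [h8]
        ring
      have h12 : ((Real.exp (2 * Real.pi * y) : ℝ) : ℂ) *
        (e (zl y) / (F (zl y) * cexp (-(2 * Real.pi * I * zl y))) * ζ) =
        e (zl y) / (F (zl y) * cexp (-(2 * Real.pi * I * zl y))) *
          (((Real.exp (2 * Real.pi * y) : ℝ) : ℂ) * ζ) := by ring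
      rw [h12, h11]
      field_simp
  rw [h7, Complex.re_ofReal_mul]

lemma KK_tendsto (h : Cal F e dF de a b) :
    Tendsto (fun y : ℝ => KK (uu F e y) (vv F e dF de y)) atTop atBot := by
  have h1 := alpha_tendsto h
  have h2 : Tendsto (fun y : ℝ => 32 * (uu F e y).re) atTop atBot :=
    h1.const_mul_atBot (by norm_num)
  refine tendsto_atBot_mono (fun y => ?_) h2
  unfold KK
  have h3 : 0 ≤ (vv F e dF de y).re ^ 2 / (uu F e y).im ^ 2 := by positivity
  nlinarith [sq_nonneg (uu F e y).re]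

/-! ### the fixed point -/

/-- the fixed point of the involution of the line -/
noncomputable def y0 : ℝ := 1 / √153

lemma y0_pos : 0 < y0 := by
  unfold y0
  positivity

lemma y0_sq : 153 * y0 ^ 2 = 1 := by
  unfold y0
  rw [div_pow, Real.sq_sqrt (by norm_num)]
  norm_num

/-- `3 γ W (1, 1/3; 0, 1)`, `γ = (6, 1; 17, 3)` -/
lemma key3 {G : ℂ → ℂ} (hs : ∀ p q r s : ℤ, p * s - q * r = 1 → 17 ∣ r → ∀ z : ℂ, 0 < z.im →
    G ((p * z + q) / (r * z + s)) = (r * z + s) ^ 2 * G z)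
    (hf : ∀ z : ℂ, 0 < z.im → G (-1 / (17 * z)) = -17 * z ^ 2 * G z) {y : ℝ} (hy : 0 < y) :
    G (zl (1 / (153 * y))) = 153 * (y : ℂ) ^ 2 * G (zl y) := by
  have hz : 0 < ((y : ℂ) * I).im := by simpa using hy
  have hm : 0 < (3 : ℕ) := by norm_num
  have ht : 17 * (1 : ℤ) * 1 + 1 = ((3 : ℕ) : ℤ) * 6 := by norm_num
  have hx := im_add_div hz 1 3
  have hx0 := ne_zero_of_im hx
  obtain ⟨e2, e1⟩ := mob_key hm ht hz
  have h1 := hs 6 1 (17 * 1) 3 (by norm_num) (by norm_num) _ (im_fricke hx)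
  rw [hf _ hx] at h1
  have e1' : (((17 * 1 : ℤ)) : ℂ) * (-1 / (17 * ((y : ℂ) * I + ((1 : ℤ) : ℂ) / ((3 : ℕ) : ℂ)))) +
      ((3 : ℤ) : ℂ) = ((3 : ℕ) : ℂ) * ((y : ℂ) * I) / ((y : ℂ) * I + ((1 : ℤ) : ℂ) / ((3 : ℕ) : ℂ)) := by
    exact_mod_cast e1
  unfold mob at e2
  have e2' : (((6 : ℤ) : ℂ) * (-1 / (17 * ((y : ℂ) * I + ((1 : ℤ) : ℂ) / ((3 : ℕ) : ℂ)))) +
      ((1 : ℤ) : ℂ)) / (((17 * 1 : ℤ) : ℂ) * (-1 / (17 * ((y : ℂ) * I + ((1 : ℤ) : ℂ) /
      ((3 : ℕ) : ℂ)))) + ((3 : ℤ) : ℂ)) = -1 / (17 * ((3 : ℕ) : ℂ) ^ 2 * ((y : ℂ) * I)) +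
      ((1 : ℤ) : ℂ) / ((3 : ℕ) : ℂ) := by
    exact_mod_cast e2
  rw [e2', e1'] at h1
  have hy0 : (y : ℂ) ≠ 0 := by exact_mod_cast hy.ne'
  have f1 : -1 / (17 * ((3 : ℕ) : ℂ) ^ 2 * ((y : ℂ) * I)) + ((1 : ℤ) : ℂ) / ((3 : ℕ) : ℂ) =
      zl (1 / (153 * y)) := by
    unfold zl
    push_cast
    have hI := Complex.I_sq
    have hI0 := Complex.I_ne_zero
    field_simp
    linear_combination (-153 : ℂ) * hI
  have f2 : (y : ℂ) * I + ((1 : ℤ) : ℂ) / ((3 : ℕ) : ℂ) = zl y := by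
    unfold zl
    push_cast
    ring
  rw [f1] at h1
  rw [f2] at h1 hx0
  rw [h1]
  field_simp
  push_cast
  linear_combination (-153 * G (zl y)) * Complex.I_sq

/-- the derivative of `e / F` vanishes at the fixed point -/
lemma vv_y0 (h : Cal F e dF de a b) (h0 : F (zl y0) ≠ 0) : vv F e dF de y0 = 0 := by
  have hy := y0_pos
  have hU := hasDerivAt_uu h hy h0
  set D : ℂ := Real.pi * vv F e dF de y0 * F (zl y0) with hD
  have hinv : 1 / (153 * y0) = y0 := by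
    have := y0_sq
    field_simp
    linarith
  have hφ : HasDerivAt (fun y : ℝ => 1 / (153 * y)) (-1) y0 := by
    have h1 : HasDerivAt (fun y : ℝ => 153 * y) 153 y0 := by
      simpa using (hasDerivAt_id y0).const_mul (153 : ℝ)
    refine ((hasDerivAt_const y0 (1 : ℝ)).div h1 (by positivity)).congr_deriv ?_
    have h2 : (153 * y0) ^ 2 = 153 := by
      have := y0_sq
      calc (153 * y0) ^ 2 = 153 * (153 * y0 ^ 2) := by ring
        _ = 153 := by rw [this]; norm_num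
    rw [h2]
    norm_num
  have hU' : HasDerivAt (uu F e) D (1 / (153 * y0)) := by rw [hinv]; exact hU
  have h1 : HasDerivAt (fun y : ℝ => uu F e (1 / (153 * y))) ((-1 : ℝ) • D) y0 :=
    HasDerivAt.scomp (g₁ := uu F e) (h := fun y : ℝ => 1 / (153 * y)) y0 hU' hφ
  have h2 : (fun y : ℝ => uu F e (1 / (153 * y))) =ᶠ[𝓝 y0] uu F e := by
    filter_upwards [lt_mem_nhds hy] with y hy'
    have hy0 : (y : ℂ) ≠ 0 := by exact_mod_cast hy'.ne'
    unfold uu
    rw [key3 h.eslash h.efricke hy', key3 h.form.slash h.form.fricke hy']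
    rw [mul_div_mul_left]
    exact mul_ne_zero (by norm_num) (pow_ne_zero 2 hy0)
  have h3 := (h1.congr_of_eventuallyEq h2.symm).unique hU
  have h4 : D = 0 := by
    rw [neg_one_smul] at h3
    have : (2 : ℂ) * D = 0 := by linear_combination -h3
    simpa using this
  rw [hD] at h4
  have hpi : (Real.pi : ℂ) ≠ 0 := by exact_mod_cast Real.pi_pos.ne'
  rcases mul_eq_zero.1 h4 with h5 | h5
  · exact (mul_eq_zero.1 h5).resolve_left hpi
  · exact absurd h5 h0

/-- **calibration**, first form -/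
theorem calib (h : Cal F e dF de a b) (n1 : ∀ y, y0 ≤ y → 0 < (F (zl y)).im)
    (n2 : ∀ y, y0 ≤ y → (uu F e y).im ≠ 0) :
    IntegrableOn GG (Set.Ioi (5 / 4)) ∧ ∫ x in Set.Ioi (5 / 4), GG x = 2 * (Ei a (zl y0)).im := by
  have hne := BB_ne h
  have hF0 : ∀ y, y0 ≤ y → F (zl y) ≠ 0 := by
    intro y hy h0
    have := n1 y hy
    rw [h0] at this
    simp at this
  have hpos : ∀ y, y0 ≤ y → 0 < y := fun y hy => y0_pos.trans_le hy
  refine ode_int (K := fun y => KK (uu F e y) (vv F e dF de y))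
    (m := fun y => mm (uu F e y) (vv F e dF de y)) (χ := fun y => (F (zl y)).im)
    (t := fun y => 2 * (Ei a (zl y)).im) (y0 := y0) ?_ ?_ ?_ n1 ?_ (KK_tendsto h) ?_ ?_
  · intro y hy
    exact hasDerivAt_KK (hasDerivAt_uu h (hpos y hy) (hF0 y hy))
      (hasDerivAt_vv h hne (hpos y hy) (hF0 y hy)) (vv_sq h (hpos y hy) (hF0 y hy)) (n2 y hy)
  · intro y hy
    exact hasDerivAt_mm (hasDerivAt_uu h (hpos y hy) (hF0 y hy))
      (hasDerivAt_vv h hne (hpos y hy) (hF0 y hy)) (vv_sq h (hpos y hy) (hF0 y hy)) (n2 y hy)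
  · intro y hy
    exact mm_sq (vv_sq h (hpos y hy) (hF0 y hy)) (n2 y hy)
  · have h1 := vv_y0 h (hF0 y0 le_rfl)
    simp only [mm, h1]
    simp
  · intro y hy
    have hz : 0 < (zl y).im := by rw [zl_im]; exact hpos y hy
    have h1 : HasDerivAt (fun y : ℝ => Ei a (zl y)) (2 * Real.pi * I * F (zl y) * I) y :=
      HasDerivAt.comp y (hasDerivAt_Ei h.form hz) (hasDerivAt_zl y)
    refine ((hasDerivAt_im h1).const_mul 2).congr_deriv ?_
    have h2 : 2 * Real.pi * I * F (zl y) * I = ((-2 * Real.pi : ℝ) : ℂ) * F (zl y) := by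
      push_cast
      linear_combination (2 * Real.pi * F (zl y)) * Complex.I_sq
    rw [h2, Complex.im_ofReal_mul]
    ring
  · have h1 : Tendsto (fun y : ℝ => Ei a (zl y)) atTop (𝓝 0) := Ei_tendsto h.form (1 / 3)
    have h2 := ((Complex.continuous_im.tendsto _).comp h1).const_mul 2
    simpa using h2

/-! ### the value of `ell` at `3` -/

open ComplexConjugate in
lemma Ei_axis_im {y : ℝ} : (Ei a (y * I)).im = 0 := by
  have h1 := Ei_conj (a := a) (y * I)
  have h2 : -conj ((y : ℂ) * I) = y * I := by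
    rw [map_mul, Complex.conj_I, Complex.conj_ofReal]
    ring
  rw [h2] at h1
  have h3 := congrArg Complex.im h1
  rw [Complex.conj_im] at h3
  linarith

lemma Ei0_im : (Ei0 a).im = 0 := by
  unfold Ei0
  have h1 : -1 / (17 * I) = ((1 / 17 : ℝ) : ℂ) * I := by
    have hI := Complex.I_sq
    have hI0 := Complex.I_ne_zero
    push_cast
    field_simp
    linear_combination -hI
  have h2 := Ei_axis_im (a := a) (y := 1)
  rw [Complex.ofReal_one, one_mul] at h2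
  rw [h1, Complex.add_im, Ei_axis_im, h2, add_zero]

lemma psi_three (h : Form F a) : (psi a 6 1 17 3).im = 2 * (Ei a (zl y0)).im := by
  have hz : 0 < ((y0 : ℂ) * I).im := by simpa using y0_pos
  have h1 := key1E h (m := 3) (by norm_num) (U := 1) (V := 1) (t := 6) (by norm_num) hz
  have hy0 : (y0 : ℂ) ≠ 0 := by exact_mod_cast y0_pos.ne'
  have hsq : 153 * (y0 : ℂ) ^ 2 = 1 := by exact_mod_cast y0_sq
  have f1 : -1 / (17 * ((3 : ℕ) : ℂ) ^ 2 * ((y0 : ℂ) * I)) + ((1 : ℤ) : ℂ) / ((3 : ℕ) : ℂ) =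
      zl y0 := by
    unfold zl
    push_cast
    have hI := Complex.I_sq
    have hI0 := Complex.I_ne_zero
    have h2 : -1 / (17 * 3 ^ 2 * ((y0 : ℂ) * I)) = (y0 : ℂ) * I := by
      rw [div_eq_iff (by simp [hy0])]
      linear_combination (-153 * (y0 : ℂ) ^ 2) * hI + hsq
    rw [h2]
    ring
  have f2 : (y0 : ℂ) * I + ((1 : ℤ) : ℂ) / ((3 : ℕ) : ℂ) = zl y0 := by
    unfold zl
    push_cast
    ring
  rw [f1, f2] at h1
  have h2 := congrArg Complex.im h1
  rw [Complex.add_im, Complex.add_im, Ei0_im, zero_add] at h2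
  have h3 : psi a 6 1 (17 * 1) ((3 : ℕ) : ℤ) = psi a 6 1 17 3 := by norm_num
  rw [h3] at h2
  linarith

lemma cop3 : Nat.Coprime 17 3 := by norm_num

lemma ell_three (h : Form F a) : ell (rhoO a) 3 = 4 * (Ei a (zl y0)).im := by
  have hP := par_O h
  have h1 := ell_units hP cop3
  have huniv : (Finset.univ : Finset (ZMod 3)ˣ) = {1, -1} := by decide
  rw [huniv, Finset.sum_pair (by decide)] at h1
  rw [rho_gam_neg hP (odd_O (a := a)) cop3, chi_neg, chi_one] at h1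
  have h2 : jacobiSym (-1) 3 = -1 := by norm_num
  rw [h2] at h1
  have h3 : rhoO a (gam cop3 1) = (psi a 6 1 17 3).im := by
    have h4 : rhoO a (gam cop3 1) = rhoO a ⟨⟨6, 1, 1, 3⟩, by simp [M4.det]⟩ := by
      apply hP.eq_of_col2
      · rfl
      · rfl
    rw [h4]
    unfold rhoO rhoC
    norm_num
  rw [h3, psi_three h] at h1
  rw [h1]
  push_cast
  ring

/-- **calibration**: the value at the twist by `-3` -/
theorem ell_three_eq (h : Cal F e dF de a b) (n1 : ∀ y, y0 ≤ y → 0 < (F (zl y)).im)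
    (n2 : ∀ y, y0 ≤ y → (uu F e y).im ≠ 0) :
    2 * ell (rhoO a) 3 = ∫ x in {x : ℝ | 0 < (x - 1) * (x + 3) * (4 * x - 5)},
      2 / √((x - 1) * (x + 3) * (4 * x - 5)) := by
  obtain ⟨h1, h2⟩ := calib h n1 n2
  rw [Omega_eq h1, h2, ell_three h.form]
  ring

end Vale.Agent.P014.H483
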