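import Mathlib

/-!
# P014, module P: the Eichler integral of a form of weight 2 and level 17
-/

namespace Vale.Agent.P014.H483

open Complex Filter Topology

/-- what is used of the form `F` of weight 2 and level 17 with coefficients `a` -/
structure Form (F : ℂ → ℂ) (a : ℕ → ℤ) : Prop where
  slash : ∀ p q r s : ℤ, p * s - q * r = 1 → 17 ∣ r → ∀ z : ℂ, 0 < z.im →
    F ((p * z + q) / (r * z + s)) = (r * z + s) ^ 2 * F z
  fricke : ∀ z : ℂ, 0 < z.im → F (-1 / (17 * z)) = -17 * z ^ 2 * F z
  qexp : ∀ z : ℂ, 0 < z.im →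
    HasSum (fun n : ℕ => (a n : ℂ) * cexp (2 * Real.pi * I * (n * z))) (F z)
  zero : a 0 = 0

/-- the Eichler integral -/
noncomputable def Ei (a : ℕ → ℤ) (z : ℂ) : ℂ :=
  ∑' n : ℕ, ((a n : ℂ) / n) * cexp (2 * Real.pi * I * (n * z))

lemma norm_e (n : ℕ) (z : ℂ) : ‖cexp (2 * Real.pi * I * (n * z))‖ =
    Real.exp (-2 * Real.pi * n * z.im) := by
  rw [Complex.norm_exp]
  congr 1
  have : (2 * Real.pi * I * (n * z) : ℂ) = ((2 * Real.pi * n : ℝ) : ℂ) * (I * z) := by
    push_cast; ring
  rw [this, Complex.re_ofReal_mul, Complex.I_mul_re]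
  ring

variable {F : ℂ → ℂ} {a : ℕ → ℤ}

/-- absolute convergence on horizontal lines -/
lemma summable_abs (h : Form F a) {y : ℝ} (hy : 0 < y) :
    Summable (fun n : ℕ => |(a n : ℝ)| * Real.exp (-2 * Real.pi * n * y)) := by
  have h1 := (h.qexp (y * I) (by simpa using hy)).summable.norm
  refine h1.congr fun n => ?_
  rw [norm_mul, norm_e, Complex.norm_intCast]
  simp

lemma summable_div (h : Form F a) {y : ℝ} (hy : 0 < y) :
    Summable (fun n : ℕ => |(a n : ℝ) / n| * Real.exp (-2 * Real.pi * n * y)) := by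
  refine (summable_abs h hy).of_nonneg_of_le (fun n => by positivity) fun n => ?_
  refine mul_le_mul_of_nonneg_right ?_ (Real.exp_pos _).le
  rcases Nat.eq_zero_or_pos n with rfl | hn
  · simp
  · have hn1 : (1 : ℝ) ≤ n := by exact_mod_cast hn
    rw [abs_div, Nat.abs_cast]
    exact div_le_self (abs_nonneg _) hn1

lemma summable_Ei (h : Form F a) {z : ℂ} (hz : 0 < z.im) :
    Summable (fun n : ℕ => ((a n : ℂ) / n) * cexp (2 * Real.pi * I * (n * z))) := by
  refine Summable.of_norm ((summable_div h hz).congr fun n => ?_)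
  rw [norm_mul, norm_e, norm_div, Complex.norm_intCast, Complex.norm_natCast, abs_div, Nat.abs_cast]

/-- the derivative of the Eichler integral -/
theorem hasDerivAt_Ei (h : Form F a) {z : ℂ} (hz : 0 < z.im) :
    HasDerivAt (Ei a) (2 * Real.pi * I * F z) z := by
  set c : ℝ := z.im / 2 with hc
  have hc0 : 0 < c := by positivity
  have hcz : c < z.im := by rw [hc]; linarith
  have key := hasDerivAt_tsum_of_isPreconnected (𝕜 := ℂ)
    (g := fun (n : ℕ) (w : ℂ) => ((a n : ℂ) / n) * cexp (2 * Real.pi * I * (n * w)))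
    (g' := fun (n : ℕ) (w : ℂ) => 2 * Real.pi * I * ((a n : ℂ) * cexp (2 * Real.pi * I * (n * w))))
    (u := fun n : ℕ => 2 * Real.pi * (|(a n : ℝ)| * Real.exp (-2 * Real.pi * n * c)))
    (t := {w : ℂ | c < w.im}) (y₀ := z) (y := z)
    ((summable_abs h hc0).mul_left _) (isOpen_lt continuous_const Complex.continuous_im)
    ((convex_halfSpace_im_gt c).isPreconnected) ?_ ?_ hcz (summable_Ei h hz) hcz
  · rw [tsum_mul_left, (h.qexp z hz).tsum_eq] at key
    exact key
  · intro n w _
    have h1 : HasDerivAt (fun w : ℂ => 2 * Real.pi * I * (n * w)) (2 * Real.pi * I * n) w := by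
      have := ((hasDerivAt_id w).const_mul (n : ℂ)).const_mul (2 * Real.pi * I)
      simpa using this
    have h2 := (h1.cexp).const_mul ((a n : ℂ) / n)
    refine h2.congr_deriv ?_
    rcases Nat.eq_zero_or_pos n with rfl | hn
    · simp [h.zero]
    · have hn0 : (n : ℂ) ≠ 0 := by exact_mod_cast hn.ne'
      field_simp
  · intro n w hw
    have hw' : c < w.im := hw
    have h1 : ‖(2 * Real.pi * I : ℂ)‖ = 2 * Real.pi := by
      rw [norm_mul, norm_mul, Complex.norm_I, Complex.norm_real, Real.norm_of_nonneg Real.pi_pos.le]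
      simp
    rw [norm_mul (2 * Real.pi * I : ℂ), h1, norm_mul, norm_e, Complex.norm_intCast]
    refine mul_le_mul_of_nonneg_left (mul_le_mul_of_nonneg_left (Real.exp_le_exp.2 ?_)
      (abs_nonneg _)) (by positivity)
    have h2 : 0 ≤ Real.pi * n := by positivity
    nlinarith

lemma isOpen_H : IsOpen {w : ℂ | 0 < w.im} := isOpen_lt continuous_const Complex.continuous_im

lemma preconn_H : IsPreconnected {w : ℂ | 0 < w.im} := (convex_halfSpace_im_gt 0).isPreconnected

/-- a function with derivative zero on the upper half plane is constant -/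
lemma const_H {g : ℂ → ℂ} (hg : ∀ z : ℂ, 0 < z.im → HasDerivAt g 0 z) {z w : ℂ} (hz : 0 < z.im)
    (hw : 0 < w.im) : g z = g w := by
  refine isOpen_H.is_const_of_deriv_eq_zero preconn_H
    (fun x hx => (hg x hx).differentiableAt.differentiableWithinAt) ?_ hz hw
  intro x hx
  exact (hg x hx).deriv

lemma mob_im {p q r s : ℤ} (hd : p * s - q * r = 1) {z : ℂ} (hz : 0 < z.im) :
    0 < (((p : ℂ) * z + q) / (r * z + s)).im ∧ (r : ℂ) * z + s ≠ 0 := by
  have hne : (r : ℂ) * z + s ≠ 0 := by
    intro h0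
    have him : (r : ℝ) * z.im = 0 := by
      have := congrArg Complex.im h0
      simpa using this
    have hr : (r : ℝ) = 0 := by
      rcases mul_eq_zero.1 him with h | h
      · exact h
      · exact absurd h hz.ne'
    have hr' : r = 0 := by exact_mod_cast hr
    have hs : (s : ℂ) = 0 := by
      rw [hr'] at h0
      simpa using h0
    have hs' : s = 0 := by exact_mod_cast hs
    rw [hr', hs'] at hd
    simp at hd
  refine ⟨?_, hne⟩
  have h2 : 0 < Complex.normSq ((r : ℂ) * z + s) := Complex.normSq_pos.2 hne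
  rw [Complex.div_im]
  have e1 : ((p : ℂ) * z + q).im = p * z.im := by simp
  have e2 : ((p : ℂ) * z + q).re = p * z.re + q := by simp
  have e3 : ((r : ℂ) * z + s).im = r * z.im := by simp
  have e4 : ((r : ℂ) * z + s).re = r * z.re + s := by simp
  rw [e1, e2, e3, e4, div_sub_div_same]
  apply div_pos _ h2
  have h3 : (p : ℝ) * s - q * r = 1 := by exact_mod_cast hd
  have : (p : ℝ) * z.im * (r * z.re + s) - (p * z.re + q) * (r * z.im) = z.im := by
    linear_combination z.im * h3
  rw [this]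
  exact hz

/-- `γ z` -/
noncomputable def mob (p q r s : ℤ) (z : ℂ) : ℂ := ((p : ℂ) * z + q) / (r * z + s)

/-- the period `Ei (γ z) - Ei z` -/
noncomputable def psi (a : ℕ → ℤ) (p q r s : ℤ) : ℂ := Ei a (mob p q r s I) - Ei a I

theorem Ei_mob (h : Form F a) {p q r s : ℤ} (hd : p * s - q * r = 1) (hr : 17 ∣ r) {z : ℂ}
    (hz : 0 < z.im) : Ei a (mob p q r s z) = Ei a z + psi a p q r s := by
  have key : ∀ w : ℂ, 0 < w.im → HasDerivAt (fun w => Ei a (mob p q r s w) - Ei a w) 0 w := by
    intro w hw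
    obtain ⟨h1, h2⟩ := mob_im hd hw
    have h3 : HasDerivAt (mob p q r s) (1 / ((r : ℂ) * w + s) ^ 2) w := by
      have hn : HasDerivAt (fun w : ℂ => (p : ℂ) * w + q) p w := by
        simpa using ((hasDerivAt_id w).const_mul (p : ℂ)).add_const (q : ℂ)
      have hdn : HasDerivAt (fun w : ℂ => (r : ℂ) * w + s) r w := by
        simpa using ((hasDerivAt_id w).const_mul (r : ℂ)).add_const (s : ℂ)
      refine (hn.div hdn h2).congr_deriv ?_
      have h4 : (p : ℂ) * s - q * r = 1 := by exact_mod_cast hd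
      congr 1
      linear_combination h4
    have h5 : HasDerivAt (fun w => Ei a (mob p q r s w))
        (2 * Real.pi * I * F (mob p q r s w) * (1 / ((r : ℂ) * w + s) ^ 2)) w :=
      HasDerivAt.comp w (hasDerivAt_Ei h (z := mob p q r s w) h1) h3
    refine (h5.sub (hasDerivAt_Ei h hw)).congr_deriv ?_
    have h6 : F (mob p q r s w) = (r * w + s) ^ 2 * F w := h.slash p q r s hd hr w hw
    rw [h6]
    field_simp
    ring
  have h7 := const_H key hz (w := I) (by simp)
  unfold psi
  linear_combination h7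

lemma im_fricke {x : ℂ} (hx : 0 < x.im) : 0 < (-1 / (17 * x)).im := by
  have hx0 : x ≠ 0 := by rintro rfl; simp at hx
  have h1 : -1 / (17 * x) = ((1 / 17 : ℝ) : ℂ) * (-x⁻¹) := by
    push_cast
    field_simp
  rw [h1, Complex.im_ofReal_mul, Complex.neg_im, Complex.inv_im]
  have h2 : 0 < Complex.normSq x := Complex.normSq_pos.2 hx0
  have h3 : 0 < x.im / Complex.normSq x := div_pos hx h2
  have h4 : -(-x.im / Complex.normSq x) = x.im / Complex.normSq x := by ring
  rw [h4]
  positivity

/-- the value at the cusp `0` -/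
noncomputable def Ei0 (a : ℕ → ℤ) : ℂ := Ei a (-1 / (17 * I)) + Ei a I

theorem Ei_fricke (h : Form F a) {z : ℂ} (hz : 0 < z.im) :
    Ei a (-1 / (17 * z)) = Ei0 a - Ei a z := by
  have key : ∀ w : ℂ, 0 < w.im → HasDerivAt (fun w => Ei a (-1 / (17 * w)) + Ei a w) 0 w := by
    intro w hw
    have hw0 : w ≠ 0 := by rintro rfl; simp at hw
    have h3 : HasDerivAt (fun w : ℂ => -1 / (17 * w)) (1 / (17 * w ^ 2)) w := by
      have hdn : HasDerivAt (fun w : ℂ => 17 * w) 17 w := by
        simpa using (hasDerivAt_id w).const_mul (17 : ℂ)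
      refine ((hasDerivAt_const w (-1 : ℂ)).div hdn (by simpa using hw0)).congr_deriv ?_
      field_simp
      ring
    have h5 : HasDerivAt (fun w => Ei a (-1 / (17 * w)))
        (2 * Real.pi * I * F (-1 / (17 * w)) * (1 / (17 * w ^ 2))) w :=
      HasDerivAt.comp w (hasDerivAt_Ei h (im_fricke hw)) h3
    refine (h5.add (hasDerivAt_Ei h hw)).congr_deriv ?_
    rw [h.fricke w hw]
    field_simp
    ring
  have h7 := const_H key hz (w := I) (by simp)
  unfold Ei0
  linear_combination h7

/-- decay at the cusp `∞` -/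
theorem Ei_tendsto (h : Form F a) (x : ℝ) :
    Tendsto (fun y : ℝ => Ei a (x + y * I)) atTop (𝓝 0) := by
  -- |Ei (x + y i)| ≤ e^{-2π(y - 1)} C
  set C : ℝ := ∑' n : ℕ, |(a n : ℝ) / n| * Real.exp (-2 * Real.pi * n * 1) with hC
  have hb : ∀ y : ℝ, 1 ≤ y → ‖Ei a (x + y * I)‖ ≤ C * Real.exp (-2 * Real.pi * (y - 1)) := by
    intro y hy
    have hS := (summable_div h one_pos).hasSum.mul_right (Real.exp (-2 * Real.pi * (y - 1)))
    refine tsum_of_norm_bounded hS fun n => ?_
    rw [norm_mul, norm_e, norm_div, Complex.norm_intCast, Complex.norm_natCast, abs_div,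
      Nat.abs_cast]
    have him : ((x : ℂ) + y * I).im = y := by simp
    rw [him]
    rcases Nat.eq_zero_or_pos n with rfl | hn
    · simp
    · have hn1 : (1 : ℝ) ≤ n := by exact_mod_cast hn
      rw [mul_assoc (|(a n : ℝ)| / (n : ℝ)) (Real.exp (-2 * Real.pi * n * 1)), ← Real.exp_add]
      refine mul_le_mul_of_nonneg_left (Real.exp_le_exp.2 ?_) (by positivity)
      have h1 : 0 ≤ 2 * Real.pi * ((n - 1) * (y - 1)) := by
        have := Real.pi_pos
        have h2 : 0 ≤ (n : ℝ) - 1 := by linarith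
        have h3 : 0 ≤ y - 1 := by linarith
        positivity
      nlinarith
  have h0 : Tendsto (fun y : ℝ => C * Real.exp (-2 * Real.pi * (y - 1))) atTop (𝓝 0) := by
    have h1 : Tendsto (fun y : ℝ => -2 * Real.pi * (y - 1)) atTop atBot := by
      have h2 : Tendsto (fun y : ℝ => y - 1) atTop atTop := tendsto_atTop_add_const_right _ _ tendsto_id
      exact h2.const_mul_atTop_of_neg (by have := Real.pi_pos; linarith)
    simpa using (Real.tendsto_exp_atBot.comp h1).const_mul C
  refine squeeze_zero_norm' ?_ h0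
  filter_upwards [eventually_ge_atTop (1 : ℝ)] with y hy
  exact hb y hy

end Vale.Agent.P014.H483
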