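import Mathlib

/-!
# P014, module P, even twists: real variable part
-/

namespace Vale.Agent.P014.H483

open Filter Topology MeasureTheory Set

/-- the invariant differential of `y² = (4 x + 5) (x + 1) (x - 3)` -/
noncomputable def HH (x : ℝ) : ℝ := 1 / √((4 * x + 5) * (x + 1) * (x - 3))

/-- auxiliary functions -/
noncomputable def gE (u : ℝ) : ℝ := u + 4 + 17 / (u + 4) - 8

/-- auxiliary functions -/
noncomputable def tE (u : ℝ) : ℝ := (gE u ^ 2 - 132) / 16

/-- auxiliary functions -/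
noncomputable def dE (u v : ℝ) : ℝ := (1 - 17 / (u + 4) ^ 2) * v / 16

/-- auxiliary functions -/
noncomputable def YE (u v : ℝ) : ℝ := (tE u + dE u v) / 2

section alg

variable {u v : ℝ}

lemma dE_sq (hu : 19 < u) (h : v ^ 2 = u ^ 4 - 16 * u ^ 3 - 66 * u ^ 2 - 48 * u - 127) :
    dE u v ^ 2 = tE u ^ 2 - 68 := by
  have hs : u + 4 ≠ 0 := by linarith
  unfold dE tE gE
  rw [div_pow, mul_pow, h]
  field_simp
  ring

lemma YE_rel (hu : 19 < u) (h : v ^ 2 = u ^ 4 - 16 * u ^ 3 - 66 * u ^ 2 - 48 * u - 127) :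
    YE u v ^ 2 + 17 = tE u * YE u v := by
  have := dE_sq hu h
  unfold YE
  linear_combination this / 4

lemma gE_pos (hu : 19 < u) : 15 < gE u := by
  have hs : 0 < u + 4 := by linarith
  have : 0 < 17 / (u + 4) := by positivity
  unfold gE
  linarith

lemma tE_pos (hu : 19 < u) : 0 < tE u := by
  have := gE_pos hu
  unfold tE
  have : 0 < gE u ^ 2 - 132 := by nlinarith
  positivity

lemma YE_pos (hu : 19 < u) (h : v ^ 2 = u ^ 4 - 16 * u ^ 3 - 66 * u ^ 2 - 48 * u - 127) :
    0 < YE u v := by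
  have h1 := YE_rel hu h
  have h2 := tE_pos hu
  by_contra hc
  push Not at hc
  nlinarith [sq_nonneg (YE u v), mul_nonneg h2.le (neg_nonneg.2 hc)]

lemma P_eq (hu : 19 < u) (h : v ^ 2 = u ^ 4 - 16 * u ^ 3 - 66 * u ^ 2 - 48 * u - 127) :
    (4 * (3 + YE u v) + 5) * (3 + YE u v + 1) * (3 + YE u v - 3) = (YE u v * gE u / 2) ^ 2 := by
  have h1 := YE_rel hu h
  have h2 : gE u ^ 2 = 16 * tE u + 132 := by
    unfold tE
    ring
  linear_combination (4 * YE u v) * h1 - YE u v ^ 2 / 4 * h2

end alg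

section ode

variable {u v χ t : ℝ → ℝ} {y0 : ℝ}

lemma u_gt (hu : ∀ y, y0 ≤ y → HasDerivAt u (Real.pi * v y * χ y) y)
    (hq : ∀ y, y0 ≤ y → v y ^ 2 = u y ^ 4 - 16 * u y ^ 3 - 66 * u y ^ 2 - 48 * u y - 127)
    (hinf : Tendsto u atTop atTop) {y : ℝ} (hy : y0 ≤ y) : 19 < u y := by
  by_contra hc
  push Not at hc
  obtain ⟨Y, hY1, hY2⟩ := ((hinf.eventually (eventually_gt_atTop 19)).and
    (eventually_ge_atTop y)).exists
  have hcont : ContinuousOn u (Icc y Y) := fun w hw =>
    (hu w (hy.trans hw.1)).continuousAt.continuousWithinAt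
  obtain ⟨w, hw, hw1⟩ := intermediate_value_Icc hY2 hcont (show (19 : ℝ) ∈ Icc (u y) (u Y) from
    ⟨hc, hY1.le⟩)
  have h1 := hq w (hy.trans hw.1)
  rw [hw1] at h1
  have h2 := sq_nonneg (v w)
  rw [h1] at h2
  norm_num at h2

lemma hasDerivAt_YE (hu : ∀ y, y0 ≤ y → HasDerivAt u (Real.pi * v y * χ y) y)
    (hv : ∀ y, y0 ≤ y → HasDerivAt v
      (Real.pi / 2 * (4 * u y ^ 3 - 48 * u y ^ 2 - 132 * u y - 48) * χ y) y)
    (hq : ∀ y, y0 ≤ y → v y ^ 2 = u y ^ 4 - 16 * u y ^ 3 - 66 * u y ^ 2 - 48 * u y - 127)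
    {y : ℝ} (hy : y0 ≤ y) (h19 : 19 < u y) :
    HasDerivAt (fun y => YE (u y) (v y)) (2 * Real.pi * χ y * (YE (u y) (v y) * gE (u y))) y := by
  have hs : u y + 4 ≠ 0 := by linarith
  have h1 := (hu y hy).add_const (4 : ℝ)
  have h2 : HasDerivAt (fun y => gE (u y)) (Real.pi * v y * χ y * (1 - 17 / (u y + 4) ^ 2)) y := by
    have h3 := (h1.add ((hasDerivAt_const y (17 : ℝ)).div h1 hs)).sub_const 8
    refine h3.congr_deriv ?_
    field_simp
    ring
  have h4 : HasDerivAt (fun y => tE (u y)) (2 * Real.pi * χ y * (gE (u y) * dE (u y) (v y))) y := by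
    refine (((h2.pow 2).sub_const 132).div_const 16).congr_deriv ?_
    unfold dE
    push_cast
    ring
  have h5 : HasDerivAt (fun y => dE (u y) (v y)) (2 * Real.pi * χ y * (gE (u y) * tE (u y))) y := by
    have h6 := ((((hasDerivAt_const y (17 : ℝ)).div (h1.pow 2) (pow_ne_zero 2 hs)).const_sub 1).mul
      (hv y hy)).div_const 16
    refine h6.congr_deriv ?_
    have hq' := hq y hy
    simp only [Pi.pow_apply, Pi.div_apply]
    unfold tE gE
    generalize u y = U at *
    generalize v y = V at *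
    generalize χ y = c
    field_simp
    push_cast
    linear_combination (68 * Real.pi * c * (U + 4)) * hq'
  refine ((h4.add h5).div_const 2).congr_deriv ?_
  unfold YE
  ring

lemma YE_ge (h19 : 19 < u y0)
    (h : v y0 ^ 2 = u y0 ^ 4 - 16 * u y0 ^ 3 - 66 * u y0 ^ 2 - 48 * u y0 - 127) (h0 : v y0 = 0) :
    YE (u y0) (v y0) = √17 := by
  have h1 := dE_sq h19 h
  have h2 := tE_pos h19
  have h3 : dE (u y0) (v y0) = 0 := by
    unfold dE
    rw [h0]
    ring
  rw [h3] at h1
  have h4 : (tE (u y0) / 2) ^ 2 = 17 := by linear_combination -h1 / 4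
  unfold YE
  rw [h3, add_zero, ← h4, Real.sqrt_sq (by positivity)]

/-- **the integral**: value of `t` at the initial point -/
theorem even_int (hu : ∀ y, y0 ≤ y → HasDerivAt u (Real.pi * v y * χ y) y)
    (hv : ∀ y, y0 ≤ y → HasDerivAt v
      (Real.pi / 2 * (4 * u y ^ 3 - 48 * u y ^ 2 - 132 * u y - 48) * χ y) y)
    (hq : ∀ y, y0 ≤ y → v y ^ 2 = u y ^ 4 - 16 * u y ^ 3 - 66 * u y ^ 2 - 48 * u y - 127)
    (hχ : ∀ y, y0 ≤ y → 0 < χ y) (h0 : v y0 = 0) (hinf : Tendsto u atTop atTop)
    (ht : ∀ y, y0 ≤ y → HasDerivAt t (-2 * Real.pi * χ y) y) (htinf : Tendsto t atTop (𝓝 0)) :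
    IntegrableOn HH (Ioi (3 + √17)) ∧ ∫ x in Ioi (3 + √17), HH x = 2 * t y0 := by
  have h19 : ∀ y, y0 ≤ y → 19 < u y := fun y hy => u_gt hu hq hinf hy
  set X : ℝ → ℝ := fun y => 3 + YE (u y) (v y) with hX
  set X' : ℝ → ℝ := fun y => 2 * Real.pi * χ y * (YE (u y) (v y) * gE (u y)) with hX'
  have hder : ∀ y, y0 ≤ y → HasDerivAt X (X' y) y := fun y hy =>
    (hasDerivAt_YE hu hv hq hy (h19 y hy)).const_add 3
  have hX0 : X y0 = 3 + √17 := by
    rw [hX]
    simp only
    rw [YE_ge (h19 y0 le_rfl) (hq y0 le_rfl) h0]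
  have hpos : ∀ y, y0 ≤ y → 0 < X' y := by
    intro y hy
    have h1 := YE_pos (h19 y hy) (hq y hy)
    have h2 := gE_pos (h19 y hy)
    have h3 := hχ y hy
    have h4 := Real.pi_pos
    have h5 : 0 < gE (u y) := by linarith
    rw [hX']
    positivity
  have hstrict : StrictMonoOn X (Ici y0) := by
    refine strictMonoOn_of_deriv_pos (convex_Ici y0) ?_ ?_
    · intro w hw
      exact (hder w hw).continuousAt.continuousWithinAt
    · intro w hw
      rw [interior_Ici] at hw
      rw [(hder w (le_of_lt hw)).deriv]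
      exact hpos w (le_of_lt hw)
  have htend : Tendsto X atTop atTop := by
    have h1 : Tendsto (fun y => u y / 32) atTop atTop := hinf.atTop_div_const (by norm_num)
    refine tendsto_atTop_mono' atTop ?_ h1
    filter_upwards [eventually_ge_atTop y0] with y hy
    have a1 := h19 y hy
    have a2 := YE_rel a1 (hq y hy)
    have a3 := YE_pos a1 (hq y hy)
    have a4 := gE_pos a1
    have a5 : √17 ≤ YE (u y) (v y) := by
      have := hstrict.monotoneOn self_mem_Ici (mem_Ici.2 hy) hy
      rw [hX0] at this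
      have h2 : X y = 3 + YE (u y) (v y) := rfl
      linarith
    have a6 : (17 : ℝ) ≤ YE (u y) (v y) ^ 2 := by
      have h3 := Real.sq_sqrt (show (0 : ℝ) ≤ 17 by norm_num)
      have h4 := Real.sqrt_nonneg (17 : ℝ)
      nlinarith
    -- `t ≤ 2 Y`
    have a7 : tE (u y) ≤ 2 * YE (u y) (v y) := by
      by_contra hc
      push Not at hc
      nlinarith
    have a8 : u y - 4 < gE (u y) := by
      have : 0 < 17 / (u y + 4) := by
        have : 0 < u y + 4 := by linarith
        positivity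
      unfold gE
      linarith
    have a9 : u y / 32 ≤ tE (u y) / 2 := by
      unfold tE
      nlinarith
    rw [hX]
    simp only
    linarith
  have himg : X '' Ioi y0 = Ioi (3 + √17) := by
    ext x
    constructor
    · rintro ⟨y, hy, rfl⟩
      rw [mem_Ioi, ← hX0]
      exact hstrict self_mem_Ici (mem_Ici.2 (le_of_lt hy)) hy
    · intro hx
      obtain ⟨Y, hY1, hY2⟩ := ((htend.eventually (eventually_gt_atTop x)).and
        (eventually_gt_atTop y0)).exists
      have hcont : ContinuousOn X (Icc y0 Y) := fun w hw =>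
        (hder w hw.1).continuousAt.continuousWithinAt
      have h1 := intermediate_value_Icc hY2.le hcont
      have hx' : 3 + √17 < x := hx
      obtain ⟨w, hw, hwx⟩ := h1 (show x ∈ Icc (X y0) (X Y) from ⟨by rw [hX0]; exact hx'.le, hY1.le⟩)
      refine ⟨w, ?_, hwx⟩
      rcases eq_or_lt_of_le hw.1 with h2 | h2
      · exfalso
        rw [← h2, hX0] at hwx
        linarith
      · exact h2
  -- the integrand
  have hint : ∀ y ∈ Ioi y0, |X' y| • HH (X y) = 4 * Real.pi * χ y := by
    intro y hy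
    have hy' : y0 ≤ y := le_of_lt hy
    rw [abs_of_pos (hpos y hy'), smul_eq_mul]
    have h1 := YE_pos (h19 y hy') (hq y hy')
    have h2 := gE_pos (h19 y hy')
    have h5 : 0 < gE (u y) := by linarith
    have h3 := P_eq (h19 y hy') (hq y hy')
    unfold HH
    rw [hX, hX']
    simp only
    rw [h3, Real.sqrt_sq (by positivity)]
    field_simp
    ring
  have hcw : ContinuousWithinAt t (Ici y0) y0 := (ht y0 le_rfl).continuousAt.continuousWithinAt
  have hnp : ∀ y ∈ Ioi y0, -2 * Real.pi * χ y ≤ 0 := by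
    intro y hy
    have := hχ y (le_of_lt hy)
    have h2 := Real.pi_pos
    have h3 : 0 < Real.pi * χ y := by positivity
    linarith
  have hI := integral_Ioi_of_hasDerivAt_of_nonpos hcw (fun y hy => ht y (le_of_lt hy)) hnp htinf
  have hI' := integrableOn_Ioi_deriv_of_nonpos hcw (fun y hy => ht y (le_of_lt hy)) hnp htinf
  have hinj : InjOn X (Ioi y0) := hstrict.injOn.mono Ioi_subset_Ici_self
  have hdw : ∀ y ∈ Ioi y0, HasDerivWithinAt X (X' y) (Ioi y0) y := fun y hy =>
    (hder y (le_of_lt hy)).hasDerivWithinAt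
  have hchange := integral_image_eq_integral_abs_deriv_smul measurableSet_Ioi hdw hinj HH
  have hchange' := integrableOn_image_iff_integrableOn_abs_deriv_smul measurableSet_Ioi hdw hinj HH
  rw [himg] at hchange hchange'
  constructor
  · rw [hchange']
    have h9 : IntegrableOn (fun y => -2 * (-2 * Real.pi * χ y)) (Ioi y0) := hI'.const_mul (-2)
    refine h9.congr_fun (fun y hy => ?_) measurableSet_Ioi
    rw [hint y hy]
    ring
  · rw [hchange, setIntegral_congr_fun measurableSet_Ioi hint]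
    have h1 : ∫ y in Ioi y0, 4 * Real.pi * χ y = -2 * ∫ y in Ioi y0, -2 * Real.pi * χ y := by
      rw [← integral_const_mul]
      refine integral_congr_ae (Eventually.of_forall fun y => ?_)
      simp only
      ring
    rw [h1, hI]
    ring

end ode

end Vale.Agent.P014.H483
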