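import Vale.Agent.P014.H483.Line
import Vale.Agent.P014.H483.EvB

/-!
# P014, module P, even twists: the imaginary axis
-/

namespace Vale.Agent.P014.H483

open Complex Filter Topology

variable {F e dF de : ℂ → ℂ} {a b : ℕ → ℤ}

/-- the axis -/
noncomputable def zi (y : ℝ) : ℂ := y * I

lemma zi_im (y : ℝ) : (zi y).im = y := by
  unfold zi
  simp

lemma hasDerivAt_zi (y : ℝ) : HasDerivAt zi I y := by
  have h1 : HasDerivAt (fun y : ℝ => (y : ℂ)) 1 y := Complex.ofRealCLM.hasDerivAt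
  have h2 := h1.mul_const I
  rw [one_mul] at h2
  exact h2

/-- composition with the axis -/
lemma hasDerivAt_axis {G dG : ℂ → ℂ}
    (hG : ∀ z : ℂ, 0 < z.im → HasDerivAt G (2 * Real.pi * I * dG z) z) {y : ℝ} (hy : 0 < y) :
    HasDerivAt (fun y : ℝ => G (zi y)) (-(2 * Real.pi * dG (zi y))) y := by
  have h1 := hG (zi y) (by rw [zi_im]; exact hy)
  have h2 : HasDerivAt (fun y : ℝ => G (zi y)) (2 * Real.pi * I * dG (zi y) * I) y :=
    HasDerivAt.comp y h1 (hasDerivAt_zi y)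
  refine h2.congr_deriv ?_
  linear_combination (2 * Real.pi * dG (zi y)) * Complex.I_sq

lemma exp_zi (n : ℕ) (y : ℝ) : cexp (2 * Real.pi * I * (n * zi y)) =
    ((Real.exp (-(2 * Real.pi * y)) ^ n : ℝ) : ℂ) := by
  unfold zi
  rw [← Real.exp_nat_mul, Complex.ofReal_exp]
  congr 1
  push_cast
  linear_combination (2 * Real.pi * n * y : ℂ) * Complex.I_sq

/-- the series on the axis -/
lemma axis_sum {G : ℂ → ℂ} {c : ℕ → ℤ} (h : ∀ z : ℂ, 0 < z.im →
    HasSum (fun n : ℕ => (c n : ℂ) * cexp (2 * Real.pi * I * (n * z))) (G z)) {y : ℝ}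
    (hy : 0 < y) : HasSum (fun n : ℕ => (c n : ℝ) * Real.exp (-(2 * Real.pi * y)) ^ n)
      (G (zi y)).re ∧ (G (zi y)).im = 0 := by
  have h1 := h (zi y) (by rw [zi_im]; exact hy)
  simp_rw [exp_zi] at h1
  have h2 : HasSum (fun n : ℕ => (((c n : ℝ) * Real.exp (-(2 * Real.pi * y)) ^ n : ℝ) : ℂ))
      (G (zi y)) := by
    refine h1.congr_fun fun n => ?_
    push_cast
    rfl
  constructor
  · exact (Complex.hasSum_re h2).congr_fun fun n => (Complex.ofReal_re _)
  · have h3 := Complex.hasSum_im h2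
    have h4 : (fun n : ℕ => ((((c n : ℝ) * Real.exp (-(2 * Real.pi * y)) ^ n : ℝ) : ℂ)).im) =
        fun _ => 0 := funext fun n => Complex.ofReal_im _
    rw [h4] at h3
    exact h3.unique hasSum_zero

/-- a function real on the axis has a real derivative -/
lemma axis_dim {G dG : ℂ → ℂ}
    (hG : ∀ z : ℂ, 0 < z.im → HasDerivAt G (2 * Real.pi * I * dG z) z)
    (h0 : ∀ y : ℝ, 0 < y → (G (zi y)).im = 0) {y : ℝ} (hy : 0 < y) : (dG (zi y)).im = 0 := by
  have h1 := hasDerivAt_im (hasDerivAt_axis hG hy)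
  have h2 : (fun y : ℝ => (G (zi y)).im) =ᶠ[𝓝 y] fun _ => 0 := by
    filter_upwards [lt_mem_nhds hy] with w hw
    exact h0 w hw
  have h3 := h1.unique ((hasDerivAt_const y (0 : ℝ)).congr_of_eventuallyEq h2)
  have h4 : (-(2 * Real.pi * dG (zi y))).im = -(2 * Real.pi * (dG (zi y)).im) := by
    rw [Complex.neg_im]
    congr 1
    have : (2 * Real.pi * dG (zi y) : ℂ) = ((2 * Real.pi : ℝ) : ℂ) * dG (zi y) := by push_cast; ring
    rw [this, Complex.im_ofReal_mul]
  rw [h4] at h3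
  have := Real.pi_pos
  rcases mul_eq_zero.1 (neg_eq_zero.1 h3) with h5 | h5
  · linarith
  · exact h5

lemma axis_re {G dG : ℂ → ℂ}
    (hG : ∀ z : ℂ, 0 < z.im → HasDerivAt G (2 * Real.pi * I * dG z) z) {y : ℝ} (hy : 0 < y) :
    HasDerivAt (fun y : ℝ => (G (zi y)).re) (-(2 * Real.pi * (dG (zi y)).re)) y := by
  refine (hasDerivAt_re (hasDerivAt_axis hG hy)).congr_deriv ?_
  rw [Complex.neg_re]
  congr 1
  have : (2 * Real.pi * dG (zi y) : ℂ) = ((2 * Real.pi : ℝ) : ℂ) * dG (zi y) := by push_cast; ring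
  rw [this, Complex.re_ofReal_mul]

/-- `e / F` on the axis -/
noncomputable def ui (F e : ℂ → ℂ) (y : ℝ) : ℝ := (e (zi y)).re / (F (zi y)).re

/-- `2 [e, F] / F³` on the axis -/
noncomputable def vi (F e dF de : ℂ → ℂ) (y : ℝ) : ℝ :=
  2 * (BB F e dF de (zi y)).re / (F (zi y)).re ^ 3

section real

variable (h : Cal F e dF de a b)

include h

lemma F_real {y : ℝ} (hy : 0 < y) : (F (zi y)).im = 0 := (axis_sum h.form.qexp hy).2

lemma e_real {y : ℝ} (hy : 0 < y) : (e (zi y)).im = 0 := (axis_sum h.eqexp hy).2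

lemma dF_real {y : ℝ} (hy : 0 < y) : (dF (zi y)).im = 0 :=
  axis_dim h.hF (fun _ hy => F_real h hy) hy

lemma de_real {y : ℝ} (hy : 0 < y) : (de (zi y)).im = 0 :=
  axis_dim h.he (fun _ hy => e_real h hy) hy

lemma BB_real {y : ℝ} (hy : 0 < y) : (BB F e dF de (zi y)).im = 0 ∧
    (BB F e dF de (zi y)).re = (e (zi y)).re * (dF (zi y)).re - (F (zi y)).re * (de (zi y)).re := by
  unfold BB
  rw [Complex.sub_im, Complex.sub_re, Complex.mul_im, Complex.mul_im, Complex.mul_re,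
    Complex.mul_re, F_real h hy, e_real h hy, dF_real h hy, de_real h hy]
  constructor <;> ring

lemma dB_real {y : ℝ} (hy : 0 < y) : (dB F e dF de (zi y)).im = 0 :=
  axis_dim (fun _ hz => hasDerivAt_BB h hz) (fun _ hy => (BB_real h hy).1) hy

lemma hasDerivAt_ui {y : ℝ} (hy : 0 < y) (h0 : (F (zi y)).re ≠ 0) :
    HasDerivAt (ui F e) (Real.pi * vi F e dF de y * (F (zi y)).re) y := by
  have h1 := (axis_re h.he hy).div (axis_re h.hF hy) h0
  refine h1.congr_deriv ?_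
  unfold vi
  rw [(BB_real h hy).2]
  field_simp
  ring

omit h in
/-- a complex number with zero imaginary part -/
lemma of_re' {w : ℂ} (hw : w.im = 0) : w = ((w.re : ℝ) : ℂ) := Complex.ext rfl (by simp [hw])

lemma vi_sq {y : ℝ} (hy : 0 < y) (h0 : (F (zi y)).re ≠ 0) :
    vi F e dF de y ^ 2 = ui F e y ^ 4 - 16 * ui F e y ^ 3 - 66 * ui F e y ^ 2 - 48 * ui F e y -
      127 := by
  have hq := h.quartic (zi y) (by rw [zi_im]; exact hy)
  have hB : BB F e dF de (zi y) = e (zi y) * dF (zi y) - F (zi y) * de (zi y) := rfl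
  rw [← hB, of_re' (BB_real h hy).1, of_re' (F_real h hy), of_re' (e_real h hy)] at hq
  have hq' : 4 * (BB F e dF de (zi y)).re ^ 2 = (F (zi y)).re ^ 2 * ((e (zi y)).re ^ 4 -
      16 * (e (zi y)).re ^ 3 * (F (zi y)).re - 66 * (e (zi y)).re ^ 2 * (F (zi y)).re ^ 2 -
      48 * (e (zi y)).re * (F (zi y)).re ^ 3 - 127 * (F (zi y)).re ^ 4) := by
    exact_mod_cast hq
  unfold vi ui
  field_simp
  linear_combination hq'

lemma hasDerivAt_vi (hne : ∃ z : ℂ, 0 < z.im ∧ BB F e dF de z ≠ 0)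
    {y : ℝ} (hy : 0 < y) (h0 : (F (zi y)).re ≠ 0) :
    HasDerivAt (vi F e dF de) (Real.pi / 2 * (4 * ui F e y ^ 3 - 48 * ui F e y ^ 2 -
      132 * ui F e y - 48) * (F (zi y)).re) y := by
  have hB := axis_re (G := BB F e dF de) (dG := dB F e dF de)
    (fun z hz => hasDerivAt_BB h hz) hy
  have hF := axis_re h.hF hy
  have h1 := (hB.const_mul 2).div (hF.pow 3) (pow_ne_zero 3 h0)
  have hW := WW_zero h hne (z := zi y) (by rw [zi_im]; exact hy)
  unfold WW at hW
  rw [of_re' (BB_real h hy).1, of_re' (F_real h hy), of_re' (e_real h hy), of_re' (dB_real h hy),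
    of_re' (dF_real h hy)] at hW
  have hW' : 8 * (dB F e dF de (zi y)).re * (F (zi y)).re -
      24 * (BB F e dF de (zi y)).re * (dF (zi y)).re + (F (zi y)).re ^ 2 *
      (4 * (e (zi y)).re ^ 3 - 48 * (e (zi y)).re ^ 2 * (F (zi y)).re -
      132 * (e (zi y)).re * (F (zi y)).re ^ 2 - 48 * (F (zi y)).re ^ 3) = 0 := by
    exact_mod_cast hW
  refine h1.congr_deriv ?_
  unfold ui
  simp only [Pi.pow_apply]
  push_cast
  field_simp
  linear_combination -hW'

end real

end Vale.Agent.P014.H483
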