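import Vale.Agent.P014.H483.EvB

/-!
# P014, module P, even twists: the complete period
-/

namespace Vale.Agent.P014.H483

open Filter Topology MeasureTheory Set

/-- a Möbius change of variable -/
theorem moebius_int {A c d k : ℝ} (hk : 0 < k) (hA : c < A)
    {B : ℝ} (hB : d + k / (A - c) = B)
    (hw : ∀ x, A < x → (4 * (d + k / (x - c)) + 5) * (d + k / (x - c) + 1) * (d + k / (x - c) - 3) =
      (4 * x + 5) * (x + 1) * (x - 3) * (k / (x - c) ^ 2) ^ 2)
    (hpos : ∀ x, A < x → 0 ≤ (4 * x + 5) * (x + 1) * (x - 3))
    (hG : IntegrableOn HH (Ioi A)) : IntegrableOn HH (Ioo d B) ∧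
    ∫ x in Ioo d B, HH x = ∫ x in Ioi A, HH x := by
  set w : ℝ → ℝ := fun x => d + k / (x - c) with hw'
  have hd : ∀ x ∈ Ioi A, HasDerivWithinAt w (-(k / (x - c) ^ 2)) (Ioi A) x := by
    intro x hx
    have hx' : A < x := hx
    have hx1 : (x - c) ≠ 0 := by
      intro h
      linarith
    have h1 : HasDerivAt (fun x : ℝ => x - c) 1 x := (hasDerivAt_id x).sub_const c
    have h2 := ((hasDerivAt_const x k).div h1 hx1).const_add d
    refine (h2.congr_deriv ?_).hasDerivWithinAt
    ring
  have hinj : InjOn w (Ioi A) := by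
    intro x hx y hy hxy
    have hx' : A < x := hx
    have hy' : A < y := hy
    have h1 : (x - c) ≠ 0 := by intro h; linarith
    have h2 : (y - c) ≠ 0 := by intro h; linarith
    have h3 : k / (x - c) = k / (y - c) := by
      have : d + k / (x - c) = d + k / (y - c) := hxy
      linarith
    field_simp at h3
    linarith
  have himg : w '' Ioi A = Ioo d B := by
    ext z
    constructor
    · rintro ⟨x, hx, rfl⟩
      have hx' : A < x := hx
      have h1 : 0 < x - c := by linarith
      have h3 : 0 < k / (x - c) := by positivity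
      have h4 : k / (x - c) < k / (A - c) := by
        apply div_lt_div_of_pos_left hk (by linarith) (by linarith)
      exact ⟨by simp only [hw']; linarith, by simp only [hw']; rw [← hB]; linarith⟩
    · rintro ⟨h1, h2⟩
      have h3 : 0 < z - d := by linarith
      have h4 : 0 < A - c := by linarith
      refine ⟨c + k / (z - d), ?_, ?_⟩
      · rw [mem_Ioi]
        have h5 : z - d < k / (A - c) := by linarith
        have h6 : A - c < k / (z - d) := by
          rw [lt_div_iff₀ h3]
          rw [lt_div_iff₀ h4] at h5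
          linarith
        linarith
      · simp only [hw']
        have : z - d ≠ 0 := h3.ne'
        have hk' := hk.ne'
        rw [add_sub_cancel_left, div_div_cancel₀ hk']
        ring
  have hint : ∀ x ∈ Ioi A, |(-(k / (x - c) ^ 2))| • HH (w x) = HH x := by
    intro x hx
    have hx' : A < x := hx
    have h1 : 0 < x - c := by linarith
    rw [abs_neg, abs_of_pos (by positivity), smul_eq_mul]
    unfold HH
    simp only [hw']
    rw [hw x hx', Real.sqrt_mul (hpos x hx'), Real.sqrt_sq (by positivity)]
    have hk' := hk.ne'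
    field_simp
  have hc := integral_image_eq_integral_abs_deriv_smul measurableSet_Ioi hd hinj HH
  have hc' := integrableOn_image_iff_integrableOn_abs_deriv_smul measurableSet_Ioi hd hinj HH
  rw [himg] at hc hc'
  constructor
  · rw [hc']
    exact hG.congr_fun (fun x hx => (hint x hx).symm) measurableSet_Ioi
  · rw [hc, setIntegral_congr_fun measurableSet_Ioi hint]

lemma P_nonneg {x : ℝ} (hx : 3 < x) : 0 ≤ (4 * x + 5) * (x + 1) * (x - 3) := by
  have h1 : 0 < 4 * x + 5 := by linarith
  have h2 : 0 < x + 1 := by linarith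
  have h3 : 0 < x - 3 := by linarith
  positivity

/-- the unbounded component -/
theorem half_comp (hG : IntegrableOn HH (Ioi (3 + √17))) : IntegrableOn HH (Ioi 3) ∧
    ∫ x in Ioi (3 : ℝ), HH x = 2 * ∫ x in Ioi (3 + √17), HH x := by
  have hs : 0 < √17 := Real.sqrt_pos.2 (by norm_num)
  have hss : √17 * √17 = 17 := Real.mul_self_sqrt (by norm_num)
  obtain ⟨h1, h2⟩ := moebius_int (A := 3 + √17) (c := 3) (d := 3) (k := 17) (B := 3 + √17)
    (by norm_num) (by linarith) (by
      rw [add_sub_cancel_left, add_right_inj, div_eq_iff hs.ne']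
      exact hss.symm) (fun x hx => by
      have : x - 3 ≠ 0 := by intro h; linarith
      field_simp
      ring) (fun x hx => P_nonneg (by linarith)) hG
  have hset : Ioi (3 : ℝ) = Ioo 3 (3 + √17) ∪ Ici (3 + √17) := by
    rw [Ioo_union_Ici_eq_Ioi (by linarith)]
  have hG' : IntegrableOn HH (Ici (3 + √17)) := by
    rw [integrableOn_Ici_iff_integrableOn_Ioi]
    exact hG
  rw [hset]
  constructor
  · exact h1.union hG'
  · rw [setIntegral_union ?_ measurableSet_Ici h1 hG', h2, integral_Ici_eq_integral_Ioi]
    · ring
    · rw [Set.disjoint_left]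
      rintro x ⟨_, h3⟩ h4
      have : 3 + √17 ≤ x := h4
      linarith

/-- the real period of `y² = (4 x + 5) (x + 1) (x - 3)` (both components) -/
noncomputable def Oms : ℝ := ∫ x in {x : ℝ | 0 < (4 * x + 5) * (x + 1) * (x - 3)},
  2 / √((4 * x + 5) * (x + 1) * (x - 3))

/-- the real period of the model -/
theorem Oms_eq (hG : IntegrableOn HH (Ioi (3 + √17))) :
    Oms = 8 * ∫ x in Ioi (3 + √17), HH x := by
  obtain ⟨g1, g2⟩ := half_comp hG
  obtain ⟨h1, h2⟩ := moebius_int (A := 3) (c := -(5 / 4)) (d := -(5 / 4)) (k := 17 / 16)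
    (B := -1) (by norm_num) (by norm_num) (by norm_num) (fun x hx => by
      obtain ⟨Y, rfl⟩ : ∃ Y, x = Y - 5 / 4 := ⟨x + 5 / 4, by ring⟩
      have hY : Y ≠ 0 := by intro h; linarith
      rw [show Y - 5 / 4 - -(5 / 4) = Y by ring]
      field_simp
      ring) (fun x hx => P_nonneg hx) g1
  have hset : {x : ℝ | 0 < (4 * x + 5) * (x + 1) * (x - 3)} = Ioo (-(5 / 4)) (-1) ∪ Ioi 3 := by
    ext x
    simp only [mem_ofPred_eq, mem_union, mem_Ioo, mem_Ioi]
    constructor
    · intro h
      by_cases hx : 3 < x
      · exact Or.inr hx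
      · left
        push Not at hx
        have h4 : (4 * x + 5) * (x + 1) < 0 := by
          by_contra hcon
          push Not at hcon
          nlinarith
        constructor
        · by_contra hcon
          push Not at hcon
          nlinarith
        · by_contra hcon
          push Not at hcon
          nlinarith
    · rintro (⟨h3, h4⟩ | h3)
      · have h5 : 0 < (4 * x + 5) * (-1 - x) := mul_pos (by linarith) (by linarith)
        have h6 : 0 < 3 - x := by linarith
        have := mul_pos h5 h6
        nlinarith
      · have h5 : 0 < (4 * x + 5) * (x + 1) := mul_pos (by linarith) (by linarith)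
        have h6 : 0 < x - 3 := by linarith
        exact mul_pos h5 h6
  have hfun : ∀ x : ℝ, 2 / √((4 * x + 5) * (x + 1) * (x - 3)) = 2 * HH x := by
    intro x
    unfold HH
    ring
  unfold Oms
  simp_rw [hfun]
  rw [hset, integral_const_mul, setIntegral_union ?_ measurableSet_Ioi h1 g1, h2, g2]
  · ring
  · rw [Set.disjoint_left]
    rintro x ⟨_, h3⟩ h4
    have : (3 : ℝ) < x := h4
    linarith

end Vale.Agent.P014.H483
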