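import Vale.Agent.P014.H483.EvA
import Vale.Agent.P014.H483.EvC
import Vale.Agent.P014.H483.Tw

/-!
# P014, module P, even twists: the integral along the imaginary axis
-/

namespace Vale.Agent.P014.H483

open Complex Filter Topology MeasureTheory
open Vale.Agent.P014.H74

variable {F e dF de : ℂ → ℂ} {a b : ℕ → ℤ}

/-- the fixed point of the Fricke involution -/
noncomputable def y1 : ℝ := 1 / √17

lemma y1_pos : 0 < y1 := by
  unfold y1
  positivity

lemma y1_sq : 17 * y1 ^ 2 = 1 := by
  unfold y1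
  rw [div_pow, Real.sq_sqrt (by norm_num)]
  norm_num

lemma q_le {y : ℝ} (hy : y1 ≤ y) : Real.exp (-(2 * Real.pi * y)) ≤ 1 / 4 := by
  have h1 : (3 : ℝ) / 2 ≤ 2 * Real.pi * y := by
    have h2 := Real.pi_gt_d2
    have h3 : (0.24 : ℝ) ≤ y1 := by
      have := y1_sq
      have h4 := y1_pos
      by_contra hc
      push Not at hc
      nlinarith
    nlinarith
  have h2 : Real.exp (-(3 / 2)) ≤ 1 / 4 := by
    have h3 := Real.exp_one_gt_d9
    have h4 : Real.exp (3 / 2) ^ 2 = Real.exp 1 ^ 3 := by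
      rw [← Real.exp_nat_mul, ← Real.exp_nat_mul]
      norm_num
    have h5 : (16 : ℝ) < Real.exp (3 / 2) ^ 2 := by
      rw [h4]
      have : (2.718 : ℝ) ^ 3 < Real.exp 1 ^ 3 := by
        apply pow_lt_pow_left₀ (by linarith) (by norm_num) (by norm_num)
      have h6 : (16 : ℝ) < (2.718 : ℝ) ^ 3 := by norm_num
      linarith
    have h6 : 4 < Real.exp (3 / 2) := by
      have := Real.exp_pos (3 / 2)
      nlinarith
    rw [Real.exp_neg, inv_eq_one_div]
    exact one_div_le_one_div_of_le (by norm_num) h6.le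
  refine (Real.exp_le_exp.2 ?_).trans h2
  linarith

/-- positivity of the cusp form -/
lemma F_pos (h : Cal F e dF de a b) (ha2 : a 2 = -1) (hbd : ∀ n, |(a n : ℝ)| ≤ 2 * n) {y : ℝ}
    (hy : y1 ≤ y) : 0 < (F (zi y)).re := by
  have hy0 : 0 < y := y1_pos.trans_le hy
  have hs := (axis_sum h.form.qexp hy0).1
  set q : ℝ := Real.exp (-(2 * Real.pi * y)) with hq
  have hq0 : 0 < q := Real.exp_pos _
  have hq1 : q ≤ 1 / 4 := q_le hy
  have hL : HasSum (fun n : ℕ => -2 * ((n : ℝ) * q ^ n) + (if n = 1 then 3 * q else 0) +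
      (if n = 2 then 3 * q ^ 2 else 0)) (-2 * (q / (1 - q) ^ 2) + 3 * q + 3 * q ^ 2) := by
    have h1 := hasSum_coe_mul_geometric_of_norm_lt_one (r := q) (by
      rw [Real.norm_eq_abs, abs_of_pos hq0]
      linarith)
    exact ((h1.mul_left (-2)).add (hasSum_ite_eq 1 (3 * q))).add (hasSum_ite_eq 2 (3 * q ^ 2))
  have hle := hasSum_le (fun n => ?_) hL hs
  · have h2 : 0 < -2 * (q / (1 - q) ^ 2) + 3 * q + 3 * q ^ 2 := by
      have h3 : 0 < (1 - q) ^ 2 := by
        have : 0 < 1 - q := by linarith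
        positivity
      have h4 : -2 * (q / (1 - q) ^ 2) + 3 * q + 3 * q ^ 2 =
          q * (1 - 3 * q - 3 * q ^ 2 + 3 * q ^ 3) / (1 - q) ^ 2 := by
        have h1q : 1 - q ≠ 0 := by linarith
        field_simp
        ring
      rw [h4]
      have h5 : 0 < 1 - 3 * q - 3 * q ^ 2 + 3 * q ^ 3 := by nlinarith [sq_nonneg q, pow_pos hq0 3]
      positivity
    linarith
  · have hb := hbd n
    have hqn : 0 ≤ q ^ n := by positivity
    have h6 := (abs_le.1 hb).1
    by_cases hn1 : n = 1
    · subst hn1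
      rw [h.a1]
      norm_num
      linarith
    · by_cases hn2 : n = 2
      · subst hn2
        rw [ha2]
        norm_num
        ring_nf
        exact le_rfl
      · rw [if_neg hn1, if_neg hn2, add_zero, add_zero]
        nlinarith

lemma ui_tendsto (h : Cal F e dF de a b) (hF : ∀ y, y1 ≤ y → 0 < (F (zi y)).re) :
    Tendsto (ui F e) atTop atTop := by
  have h1 : Tendsto (fun y : ℝ => (e (zi y)).re) atTop (𝓝 2) := by
    have h2 := (Complex.continuous_re.tendsto _).comp (tendsto_coeff h.eqexp 0)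
    rw [h.b0] at h2
    simpa [Function.comp_def, zi] using h2
  have h3 : Tendsto (fun y : ℝ => (F (zi y)).re) atTop (𝓝 0) := by
    have h2 := (Complex.continuous_re.tendsto _).comp (tendsto_coeff h.form.qexp 0)
    rw [h.form.zero] at h2
    simpa [Function.comp_def, zi] using h2
  have h4 : Tendsto (fun y : ℝ => (F (zi y)).re) atTop (𝓝[>] 0) := by
    refine tendsto_nhdsWithin_iff.2 ⟨h3, ?_⟩
    filter_upwards [eventually_ge_atTop y1] with y hy
    exact hF y hy
  have h5 := tendsto_inv_nhdsGT_zero.comp h4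
  exact h1.pos_mul_atTop (by norm_num) h5

lemma ui_fricke (h : Cal F e dF de a b) {y : ℝ} (hy : 0 < y) :
    ui F e (1 / (17 * y)) = ui F e y := by
  have hz : 0 < (zi y).im := by rw [zi_im]; exact hy
  have hy0 : (y : ℂ) ≠ 0 := by exact_mod_cast hy.ne'
  have h1 : -1 / (17 * zi y) = zi (1 / (17 * y)) := by
    unfold zi
    have hI := Complex.I_sq
    have hI0 := Complex.I_ne_zero
    push_cast
    field_simp
    linear_combination -hI
  have h2 : ∀ G : ℂ → ℂ, (∀ z : ℂ, 0 < z.im → G (-1 / (17 * z)) = -17 * z ^ 2 * G z) →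
      (G (zi (1 / (17 * y)))).re = 17 * y ^ 2 * (G (zi y)).re := by
    intro G hG
    have h3 := hG _ hz
    rw [h1] at h3
    rw [h3]
    have h4 : -17 * zi y ^ 2 * G (zi y) = ((17 * y ^ 2 : ℝ) : ℂ) * G (zi y) := by
      unfold zi
      push_cast
      linear_combination (-17 * (y : ℂ) ^ 2 * G (y * I)) * Complex.I_sq
    rw [h4, Complex.re_ofReal_mul]
  unfold ui
  rw [h2 e h.efricke, h2 F h.form.fricke, mul_div_mul_left]
  positivity

lemma vi_y1 (h : Cal F e dF de a b) (h0 : 0 < (F (zi y1)).re) : vi F e dF de y1 = 0 := by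
  have hy := y1_pos
  have hU := hasDerivAt_ui h hy h0.ne'
  set D : ℝ := Real.pi * vi F e dF de y1 * (F (zi y1)).re with hD
  have hinv : 1 / (17 * y1) = y1 := by
    have := y1_sq
    field_simp
    linarith
  have hφ : HasDerivAt (fun y : ℝ => 1 / (17 * y)) (-1) y1 := by
    have h1 : HasDerivAt (fun y : ℝ => 17 * y) 17 y1 := by
      simpa using (hasDerivAt_id y1).const_mul (17 : ℝ)
    refine ((hasDerivAt_const y1 (1 : ℝ)).div h1 (by positivity)).congr_deriv ?_
    have h2 : (17 * y1) ^ 2 = 17 := by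
      have := y1_sq
      calc (17 * y1) ^ 2 = 17 * (17 * y1 ^ 2) := by ring
        _ = 17 := by rw [this]; norm_num
    rw [h2]
    norm_num
  have hU' : HasDerivAt (ui F e) D (1 / (17 * y1)) := by rw [hinv]; exact hU
  have h1 : HasDerivAt (fun y : ℝ => ui F e (1 / (17 * y))) (D * (-1)) y1 :=
    HasDerivAt.comp y1 (h₂ := ui F e) (h := fun y : ℝ => 1 / (17 * y)) hU' hφ
  have h2 : (fun y : ℝ => ui F e (1 / (17 * y))) =ᶠ[𝓝 y1] ui F e := by
    filter_upwards [lt_mem_nhds hy] with y hy'
    exact ui_fricke h hy'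
  have h3 := (h1.congr_of_eventuallyEq h2.symm).unique hU
  have h4 : D = 0 := by linarith
  rw [hD] at h4
  rcases mul_eq_zero.1 h4 with h5 | h5
  · exact (mul_eq_zero.1 h5).resolve_left Real.pi_pos.ne'
  · exact absurd h5 h0.ne'

lemma BB_ne' (h : Cal F e dF de a b) (hF : ∀ y, y1 ≤ y → 0 < (F (zi y)).re) :
    ∃ z : ℂ, 0 < z.im ∧ BB F e dF de z ≠ 0 := by
  obtain ⟨y, hy1, hy2⟩ := (((ui_tendsto h hF).eventually (eventually_gt_atTop 100)).and
    (eventually_ge_atTop y1)).exists
  have hy : 0 < y := y1_pos.trans_le hy2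
  refine ⟨zi y, by rw [zi_im]; exact hy, fun h0 => ?_⟩
  have h1 := vi_sq h hy (hF y hy2).ne'
  have h2 : vi F e dF de y = 0 := by
    unfold vi
    rw [h0]
    simp
  rw [h2] at h1
  set u := ui F e y
  have h3 : 0 < u ^ 4 - 16 * u ^ 3 - 66 * u ^ 2 - 48 * u - 127 := by
    have e1 : u ^ 4 - 16 * u ^ 3 - 66 * u ^ 2 - 48 * u - 127 =
      (u - 100) ^ 4 + 384 * (u - 100) ^ 3 + 55134 * (u - 100) ^ 2 + 3506752 * (u - 100) +
        83335073 := by ring
    rw [e1]
    have : 0 < u - 100 := by linarith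
    positivity
  linarith

/-- **the period**, in terms of the Eichler integral -/
theorem Oms_Ei (h : Cal F e dF de a b) (hF : ∀ y, y1 ≤ y → 0 < (F (zi y)).re) :
    Oms = 16 * (Ei a (zi y1)).re ∧ 0 < Oms := by
  have hpos : ∀ y, y1 ≤ y → 0 < y := fun y hy => y1_pos.trans_le hy
  have hne := BB_ne' h hF
  obtain ⟨h1, h2⟩ := even_int (u := ui F e) (v := vi F e dF de) (χ := fun y => (F (zi y)).re)
    (t := fun y => (Ei a (zi y)).re) (y0 := y1)
    (fun y hy => hasDerivAt_ui h (hpos y hy) (hF y hy).ne')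
    (fun y hy => hasDerivAt_vi h hne (hpos y hy) (hF y hy).ne')
    (fun y hy => vi_sq h (hpos y hy) (hF y hy).ne') hF (vi_y1 h (hF y1 le_rfl))
    (ui_tendsto h hF) (fun y hy => by
      have hz : 0 < (zi y).im := by rw [zi_im]; exact hpos y hy
      have h1 : HasDerivAt (fun y : ℝ => Ei a (zi y)) (2 * Real.pi * I * F (zi y) * I) y :=
        HasDerivAt.comp y (hasDerivAt_Ei h.form hz) (hasDerivAt_zi y)
      refine (hasDerivAt_re h1).congr_deriv ?_
      have h2 : 2 * Real.pi * I * F (zi y) * I = ((-2 * Real.pi : ℝ) : ℂ) * F (zi y) := by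
        push_cast
        linear_combination (2 * Real.pi * F (zi y)) * Complex.I_sq
      rw [h2, Complex.re_ofReal_mul]) (by
      have h1 : Tendsto (fun y : ℝ => Ei a (zi y)) atTop (𝓝 0) := by
        have := Ei_tendsto h.form 0
        simpa [zi] using this
      have h2 := (Complex.continuous_re.tendsto _).comp h1
      simpa [Function.comp_def] using h2)
  have h3 : 0 < ∫ x in Set.Ioi (3 + √17), HH x := by
    rw [setIntegral_pos_iff_support_of_nonneg_ae]
    · have h4 : Function.support HH ∩ Set.Ioi (3 + √17) = Set.Ioi (3 + √17) := by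
        rw [Set.inter_eq_right]
        intro x hx
        have hx' : 3 + √17 < x := hx
        have hs : 0 < √(17 : ℝ) := Real.sqrt_pos.2 (by norm_num)
        have h5 : 0 < (4 * x + 5) * (x + 1) * (x - 3) :=
          mul_pos (mul_pos (by linarith) (by linarith)) (by linarith)
        rw [Function.mem_support]
        unfold HH
        have : 0 < √((4 * x + 5) * (x + 1) * (x - 3)) := Real.sqrt_pos.2 h5
        positivity
      rw [h4, Real.volume_Ioi]
      exact ENNReal.zero_lt_top
    · refine Filter.Eventually.of_forall fun x => ?_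
      unfold HH
      simp only [Pi.zero_apply]
      positivity
    · exact h1
  rw [Oms_eq h1]
  constructor
  · rw [h2]
    ring
  · positivity

/-! ### the value of the even period -/

/-- the relation coming from the Hecke operator `T₂` -/
lemma Ei_T2 (h : Form F a) (hT : ∀ n : ℕ, a (2 * n) + (if 2 ∣ n then 2 * a (n / 2) else 0) = -a n)
    {z : ℂ} (hz : 0 < z.im) :
    Ei a (z / 2) + Ei a (z / 2 + 1 / 2) + Ei a (2 * z) = -Ei a z := by
  have hz2 : 0 < (z / 2).im := by
    have : (z / 2).im = z.im / 2 := by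
      have : z / 2 = ((1 / 2 : ℝ) : ℂ) * z := by push_cast; ring
      rw [this, Complex.im_ofReal_mul]
      ring
    rw [this]
    positivity
  have hz3 : 0 < (z / 2 + 1 / 2).im := by
    have : (z / 2 + 1 / 2).im = (z / 2).im := by
      rw [Complex.add_im]
      norm_num
    rw [this]
    exact hz2
  have hz4 : 0 < (2 * z).im := by
    have : (2 * z).im = 2 * z.im := by
      have : 2 * z = ((2 : ℝ) : ℂ) * z := by push_cast; ring
      rw [this, Complex.im_ofReal_mul]
    rw [this]
    positivity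
  have s1 := (summable_Ei h hz2).hasSum.add (summable_Ei h hz3).hasSum
  have s2 := (summable_Ei h hz4).hasSum
  have s3 := (summable_Ei h hz).hasSum
  have hinj : Function.Injective (fun k : ℕ => 2 * k) := fun x y hxy => by
    have : 2 * x = 2 * y := hxy
    omega
  have hodd : ∀ n : ℕ, n ∉ Set.range (fun k : ℕ => 2 * k) → ¬ 2 ∣ n := by
    intro n hn ⟨k, hk⟩
    exact hn ⟨k, hk.symm⟩
  have t1 : HasSum (fun k : ℕ => ((a (2 * k) : ℂ) / k) * cexp (2 * Real.pi * I * (k * z)))
      (Ei a (z / 2) + Ei a (z / 2 + 1 / 2)) := by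
    have h1 := (hinj.hasSum_iff (fun n hn => ?_)).2 s1
    · refine h1.congr_fun fun k => ?_
      simp only [Function.comp_apply]
      have e1 : cexp (2 * Real.pi * I * (((2 * k : ℕ) : ℂ) * (z / 2))) =
          cexp (2 * Real.pi * I * (k * z)) := by
        congr 1
        push_cast
        ring
      have e2 : cexp (2 * Real.pi * I * (((2 * k : ℕ) : ℂ) * (z / 2 + 1 / 2))) =
          cexp (2 * Real.pi * I * (k * z)) := by
        have : (2 * Real.pi * I * (((2 * k : ℕ) : ℂ) * (z / 2 + 1 / 2)) : ℂ) =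
            2 * Real.pi * I * (k * z) + k * (2 * Real.pi * I) := by
          push_cast
          ring
        rw [this, Complex.exp_add, Complex.exp_nat_mul_two_pi_mul_I, mul_one]
      rw [e1, e2]
      rcases Nat.eq_zero_or_pos k with rfl | hk
      · simp
      · have hk' : (k : ℂ) ≠ 0 := by exact_mod_cast hk.ne'
        push_cast
        field_simp
        ring
    · have hn2 := hodd n hn
      have e2 : cexp (2 * Real.pi * I * ((n : ℂ) * (z / 2 + 1 / 2))) =
          -cexp (2 * Real.pi * I * (n * (z / 2))) := by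
        obtain ⟨k, hk⟩ : ∃ k, n = 2 * k + 1 := ⟨n / 2, by omega⟩
        have : (2 * Real.pi * I * ((n : ℂ) * (z / 2 + 1 / 2)) : ℂ) =
            2 * Real.pi * I * (n * (z / 2)) + (k * (2 * Real.pi * I) + Real.pi * I) := by
          rw [hk]
          push_cast
          ring
        rw [this, Complex.exp_add, Complex.exp_add, Complex.exp_nat_mul_two_pi_mul_I,
          Complex.exp_pi_mul_I]
        ring
      rw [e2]
      ring
  have t2 : HasSum (fun n : ℕ => (if 2 ∣ n then (2 * (a (n / 2) : ℂ)) / n else 0) *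
      cexp (2 * Real.pi * I * (n * z))) (Ei a (2 * z)) := by
    refine (hinj.hasSum_iff (fun n hn => ?_)).1 ?_
    · rw [if_neg (hodd n hn), zero_mul]
    · refine s2.congr_fun fun k => ?_
      simp only [Function.comp_apply]
      rw [if_pos (Dvd.intro k rfl), Nat.mul_div_cancel_left k (by norm_num)]
      have e1 : cexp (2 * Real.pi * I * (((2 * k : ℕ) : ℂ) * z)) =
          cexp (2 * Real.pi * I * (k * (2 * z))) := by
        congr 1
        push_cast
        ring
      rw [e1]
      rcases Nat.eq_zero_or_pos k with rfl | hk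
      · simp
      · have hk' : (k : ℂ) ≠ 0 := by exact_mod_cast hk.ne'
        push_cast
        field_simp
  have t3 := (t1.add t2).add s3
  have t4 : HasSum (fun _ : ℕ => (0 : ℂ)) (Ei a (z / 2) + Ei a (z / 2 + 1 / 2) + Ei a (2 * z) +
      Ei a z) := by
    refine t3.congr_fun fun n => ?_
    have h1 := hT n
    have h2 : ((a (2 * n) : ℂ)) + (if 2 ∣ n then 2 * (a (n / 2) : ℂ) else 0) + a n = 0 := by
      have h3 : a (2 * n) + (if 2 ∣ n then 2 * a (n / 2) else 0) + a n = 0 := by linarith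
      have h4 : ((a (2 * n) + (if 2 ∣ n then 2 * a (n / 2) else 0) + a n : ℤ) : ℂ) = 0 := by
        exact_mod_cast h3
      refine Eq.trans ?_ h4
      push_cast
      split_ifs <;> rfl
    have h3 : (if 2 ∣ n then (2 * (a (n / 2) : ℂ)) / n else 0) =
        (if 2 ∣ n then 2 * (a (n / 2) : ℂ) else 0) / n := by
      split_ifs
      · rfl
      · rw [zero_div]
    rw [h3]
    linear_combination (-(cexp (2 * Real.pi * I * (n * z))) / n) * h2
  have h0 := t4.unique hasSum_zero
  linear_combination h0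

lemma Ei_y1 (h : Form F a) (hT : ∀ n : ℕ, a (2 * n) + (if 2 ∣ n then 2 * a (n / 2) else 0) = -a n) :
    psi a 9 1 17 2 = -8 * Ei a (zi y1) := by
  have hy := y1_pos
  have hyc : (y1 : ℂ) ≠ 0 := by exact_mod_cast hy.ne'
  have hsq : 17 * (y1 : ℂ) ^ 2 = 1 := by exact_mod_cast y1_sq
  have hI := Complex.I_sq
  have hz : 0 < (zi y1).im := by rw [zi_im]; exact hy
  have hz2 : 0 < (zi y1 / 2).im := by
    have : (zi y1 / 2).im = y1 / 2 := by
      unfold zi
      simp
    rw [this]
    positivity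
  have hz3 : 0 < (2 * zi y1).im := by
    have : (2 * zi y1).im = 2 * y1 := by
      unfold zi
      simp
    rw [this]
    positivity
  have h1 := key1E h (m := 2) (by norm_num) (U := 1) (V := 1) (t := 9) (by norm_num) hz2
  have f1 : -1 / (17 * ((2 : ℕ) : ℂ) ^ 2 * (zi y1 / 2)) + ((1 : ℤ) : ℂ) / ((2 : ℕ) : ℂ) =
      zi y1 / 2 + 1 / 2 := by
    have h2 : -1 / (17 * ((2 : ℕ) : ℂ) ^ 2 * (zi y1 / 2)) = zi y1 / 2 := by
      unfold zi
      rw [div_eq_iff (by simp [hyc])]
      push_cast
      linear_combination (-17 * (y1 : ℂ) ^ 2) * hI + hsq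
    rw [h2]
    push_cast
    ring
  have f2 : zi y1 / 2 + ((1 : ℤ) : ℂ) / ((2 : ℕ) : ℂ) = zi y1 / 2 + 1 / 2 := by
    push_cast
    ring
  rw [f1, f2] at h1
  have h3 : psi a 9 1 (17 * 1) ((2 : ℕ) : ℤ) = psi a 9 1 17 2 := by norm_num
  rw [h3] at h1
  have h4 := Ei_T2 h hT hz
  have h5 := Ei_fricke h hz
  have g1 : -1 / (17 * zi y1) = zi y1 := by
    unfold zi
    rw [div_eq_iff (by simp [hyc])]
    linear_combination (-17 * (y1 : ℂ) ^ 2) * hI + hsq
  rw [g1] at h5
  have h6 := Ei_fricke h hz3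
  have g2 : -1 / (17 * (2 * zi y1)) = zi y1 / 2 := by
    unfold zi
    rw [div_eq_iff (by simp [hyc])]
    linear_combination (-17 * (y1 : ℂ) ^ 2) * hI + hsq
  rw [g2] at h6
  linear_combination -h1 + 2 * h4 - 2 * h6 + 3 * h5

end Vale.Agent.P014.H483
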