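import Vale.Agent.P014.H483.CalOut
import Vale.Agent.P014.H687.HW
import Vale.Agent.P014.H71.Per

/-!
# P014, module P: the value at `1` of the Hasse-Weil `L`-function of `tw k`, `4 k + 1 = -n`
-/

namespace Vale.Agent.P014.H483

open Vale.Agent.P014.H687
open Vale.Agent.P014.H70 (r3 Th3)
open Vale.Agent.P014.H74 (ell)

/-- **the `L`-value of the twist of `17a2` by `-n`** in terms of the real period -/
theorem hw_value {k : ℤ} {n : ℕ} (h4 : n % 4 = 3) (hsq : Squarefree n) (h17 : Nat.Coprime 17 n)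
    (hk : 4 * k + 1 = -(n : ℤ)) {P : ℝ}
    (hP : ell (rhoO (an r3)) n = ell (rhoO (an r3)) 3 * P) :
    ∃ L : ℂ → ℂ, IsHasseWeil (tw k) L ∧
      ∃ ε : ℝ, (ε = 1 ∨ ε = -1) ∧ L 1 = ((ε * P / 2 * realPeriod (tw k) : ℝ) : ℂ) := by
  obtain ⟨L, hL1, ε, hε, hL2⟩ := hw_odd h4 hsq h17 hk
  refine ⟨L, hL1, ε, hε, ?_⟩
  have hn : (0 : ℝ) < n := by exact_mod_cast (Nat.pos_of_ne_zero hsq.ne_zero)
  have hs : 0 < √(n : ℝ) := Real.sqrt_pos.2 hn
  have hO : H71.omegaStar = Omst := rfl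
  rw [hL2, hP, H71.realPeriod_tw hsq.ne_zero hk, hO, ← calibration17]
  congr 1
  field_simp

/-- the real period is positive -/
theorem realPeriod_pos {k : ℤ} {n : ℕ} (hn : n ≠ 0) (hk : 4 * k + 1 = -(n : ℤ)) :
    0 < realPeriod (tw k) := by
  have hn' : (0 : ℝ) < n := by exact_mod_cast (Nat.pos_of_ne_zero hn)
  have hO : H71.omegaStar = Omst := rfl
  rw [H71.realPeriod_tw hn hk, hO]
  exact div_pos Omst_pos' (Real.sqrt_pos.2 hn')

end Vale.Agent.P014.H483
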