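import Vale.Agent.P014.H483.EvD
import Vale.Agent.P014.H483.FinL

/-!
# P014, module P: the values at `1` of the Hasse-Weil `L`-functions of `tw k`, `4 k + 1 = V > 0`
-/

namespace Vale.Agent.P014.H483

open MeasureTheory
open Vale.Agent.P014.H687
open Vale.Agent.P014.H70 (r3 Th3)
open Vale.Agent.P014.H74 (ell gh)

theorem psi_tw_even {n : ℕ} {k : ℤ} (hk : 4 * k + 1 = (n : ℤ)) (u : ℝ) :
    Vale.Agent.P014.psi (tw k) (n * u) = n ^ 3 * ((4 * u + 5) * (u + 1) * (u - 3)) := by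
  have hkQ : (k : ℝ) = ((n : ℝ) - 1) / 4 := by
    have : (4 * k + 1 : ℝ) = (n : ℝ) := by exact_mod_cast hk
    linarith
  simp only [Vale.Agent.P014.psi, tw, WeierstrassCurve.b₂, WeierstrassCurve.b₄, WeierstrassCurve.b₆]
  push_cast
  rw [hkQ]; ring

/-- **the real period of the even twists** -/
theorem realPeriod_tw_even {n : ℕ} (hn : n ≠ 0) {k : ℤ} (hk : 4 * k + 1 = (n : ℤ)) :
    realPeriod (tw k) = Oms / Real.sqrt n := by
  have hn' : (0 : ℝ) < n := by exact_mod_cast Nat.pos_of_ne_zero hn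
  have hS : MeasurableSet {x : ℝ | 0 < Vale.Agent.P014.psi (tw k) x} :=
    (isOpen_lt continuous_const (H71.continuous_psi _)).measurableSet
  have hS' : MeasurableSet {u : ℝ | 0 < (4 * u + 5) * (u + 1) * (u - 3)} :=
    (isOpen_lt continuous_const (by fun_prop)).measurableSet
  unfold realPeriod Oms
  rw [← integral_indicator hS, ← integral_indicator hS']
  set F : ℝ → ℝ := {x : ℝ | 0 < Vale.Agent.P014.psi (tw k) x}.indicator
    (fun x => 2 / Real.sqrt (Vale.Agent.P014.psi (tw k) x)) with hF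
  set G : ℝ → ℝ := {u : ℝ | 0 < (4 * u + 5) * (u + 1) * (u - 3)}.indicator
    (fun u => 2 / Real.sqrt ((4 * u + 5) * (u + 1) * (u - 3))) with hG
  have h1 : ∀ u, F (n * u) = (n * Real.sqrt n)⁻¹ * G u := by
    intro u
    have hpos : (0 < Vale.Agent.P014.psi (tw k) (n * u)) ↔ 0 < (4 * u + 5) * (u + 1) * (u - 3) := by
      rw [psi_tw_even hk]
      exact mul_pos_iff_of_pos_left (by positivity)
    by_cases h : 0 < (4 * u + 5) * (u + 1) * (u - 3)
    · have hm1 : (n * u : ℝ) ∈ {x : ℝ | 0 < Vale.Agent.P014.psi (tw k) x} := hpos.mpr h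
      have hm2 : u ∈ {u : ℝ | 0 < (4 * u + 5) * (u + 1) * (u - 3)} := h
      rw [hF, hG, Set.indicator_of_mem hm1, Set.indicator_of_mem hm2, psi_tw_even hk]
      have h2 : Real.sqrt ((n : ℝ) ^ 3 * ((4 * u + 5) * (u + 1) * (u - 3))) =
          n * Real.sqrt n * Real.sqrt ((4 * u + 5) * (u + 1) * (u - 3)) := by
        rw [Real.sqrt_mul (by positivity)]
        congr 1
        have : (n : ℝ) ^ 3 = n ^ 2 * n := by ring
        rw [this, Real.sqrt_mul (by positivity), Real.sqrt_sq hn'.le]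
      rw [h2]
      have h3 : Real.sqrt ((4 * u + 5) * (u + 1) * (u - 3)) ≠ 0 := (Real.sqrt_pos.mpr h).ne'
      have h4 : Real.sqrt (n : ℝ) ≠ 0 := (Real.sqrt_pos.mpr hn').ne'
      field_simp
    · have hm1 : (n * u : ℝ) ∉ {x : ℝ | 0 < Vale.Agent.P014.psi (tw k) x} := fun hc => h (hpos.mp hc)
      have hm2 : u ∉ {u : ℝ | 0 < (4 * u + 5) * (u + 1) * (u - 3)} := h
      rw [hF, hG, Set.indicator_of_notMem hm1, Set.indicator_of_notMem hm2, mul_zero]
  have h2 := Measure.integral_comp_mul_left F (n : ℝ)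
  simp only [h1] at h2
  rw [integral_const_mul, smul_eq_mul, abs_of_pos (inv_pos.mpr hn')] at h2
  have h4 : Real.sqrt (n : ℝ) ≠ 0 := (Real.sqrt_pos.mpr hn').ne'
  field_simp at h2 ⊢
  linarith

lemma F_pos17 : ∀ y, y1 ≤ y → 0 < (H687.Fc Th3 (zi y)).re :=
  fun _ hy => F_pos cal17 (an_two T3) an_le hy

/-- **calibration** of the even periods -/
theorem calibration_even : Oms = -2 * rhoE (an r3) gh ∧ 0 < Oms := by
  obtain ⟨h1, h2⟩ := Oms_Ei cal17 F_pos17
  refine ⟨?_, h2⟩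
  have h3 := Ei_y1 form17 (fun n => by
    have h4 := (hk T3).T 2 Nat.prime_two (by norm_num) n
    rw [an_two T3] at h4
    push_cast at h4
    linarith)
  have h5 : rhoE (an r3) gh = (psi (an r3) 9 1 17 2).re := by
    unfold rhoE rhoC
    rfl
  rw [h5, h3, h1]
  have h6 : (-8 * Ei (an r3) (zi y1) : ℂ) = ((-8 : ℝ) : ℂ) * Ei (an r3) (zi y1) := by push_cast; rfl
  rw [h6, Complex.re_ofReal_mul]
  ring

theorem rhoE_gh_neg : rhoE (an r3) gh < 0 := by
  obtain ⟨h1, h2⟩ := calibration_even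
  linarith

/-- **the `L`-value of the twist of `17a2` by `V > 0`** in terms of the real period -/
theorem hw_value_even {k : ℤ} {n : ℕ} (h4 : n % 4 = 1) (h1n : 1 < n) (hsq : Squarefree n)
    (h17 : Nat.Coprime 17 n) (hk : 4 * k + 1 = (n : ℤ)) {P : ℝ}
    (hP : 8 * ell (rhoE (an r3)) n = rhoE (an r3) gh * P) :
    ∃ L : ℂ → ℂ, IsHasseWeil (tw k) L ∧
      ∃ ε : ℝ, (ε = 1 ∨ ε = -1) ∧ L 1 = ((ε * P / 16 * realPeriod (tw k) : ℝ) : ℂ) := by
  obtain ⟨L, hL1, ε, hε, hL2⟩ := hw_even h4 h1n hsq h17 hk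
  refine ⟨L, hL1, -ε, ?_, ?_⟩
  · rcases hε with h | h
    · right; rw [h]
    · left; rw [h]; norm_num
  have hn : (0 : ℝ) < n := by exact_mod_cast (Nat.pos_of_ne_zero hsq.ne_zero)
  have hs : 0 < √(n : ℝ) := Real.sqrt_pos.2 hn
  have hO := calibration_even.1
  rw [hL2, realPeriod_tw_even hsq.ne_zero hk, hO]
  congr 1
  field_simp
  linear_combination (2 * ε) * hP

/-- the real period is positive -/
theorem realPeriod_pos_even {k : ℤ} {n : ℕ} (hn : n ≠ 0) (hk : 4 * k + 1 = (n : ℤ)) :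
    0 < realPeriod (tw k) := by
  have hn' : (0 : ℝ) < n := by exact_mod_cast (Nat.pos_of_ne_zero hn)
  rw [realPeriod_tw_even hn hk]
  exact div_pos calibration_even.2 (Real.sqrt_pos.2 hn')

end Vale.Agent.P014.H483
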