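import Vale.Agent.P014.NMat

/-!
# Contraction and deletion for the determinants `det N(T)` (module EXP)
-/

namespace Vale.Agent.P014.H483

open Matrix Finset

/-- every element of `F_2` doubles to zero -/
theorem dbl (a : ZMod 2) : a + a = 0 := CharTwo.add_self_eq_zero a

/-- a symmetric matrix over `F_2`: changing the entries `(i,j)` and `(j,i)` -/
theorem det_add_sym {m : Type*} [Fintype m] [DecidableEq m] (M : Matrix m m (ZMod 2))
    (hM : M.transpose = M) {i j : m} (hij : i ≠ j) :
    (M + Matrix.single i j 1 + Matrix.single j i 1).det =
      M.det + ((M.updateRow i (Pi.single i 1)).updateRow j (Pi.single j 1)).det := by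
  have h1 : M + Matrix.single i j 1 + Matrix.single j i 1 =
      (M.updateRow i (M i + Pi.single j 1)).updateRow j (M j + Pi.single i 1) := by
    ext a b
    by_cases ha : a = i
    · subst ha
      by_cases hb : b = j
      · subst hb
        simp [Matrix.updateRow_apply, hij, Matrix.single_apply, Pi.single_apply, hij.symm]
      · simp [Matrix.updateRow_apply, hij, Matrix.single_apply, Pi.single_apply, hij.symm, hb,
          Ne.symm hb]
    · by_cases ha' : a = j
      · subst ha'
        by_cases hb : b = i
        · subst hb
          simp [Matrix.updateRow_apply, hij, Matrix.single_apply, Pi.single_apply, hij.symm]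
        · simp [Matrix.updateRow_apply, hij, Matrix.single_apply, Pi.single_apply, hij.symm, hb,
            Ne.symm hb]
      · simp [Matrix.updateRow_apply, ha, ha', Matrix.single_apply, Ne.symm ha, Ne.symm ha']
  have h2 : ((M.updateRow i (Pi.single j 1)).updateRow j (M j)).det = M.adjugate j i := by
    rw [Matrix.adjugate_apply]
    congr 1
    ext a b
    by_cases ha : a = j
    · subst ha; simp [Matrix.updateRow_apply, hij.symm]
    · simp [Matrix.updateRow_apply, ha]
  have h3 : ((M.updateRow i (M i)).updateRow j (Pi.single i 1)).det = M.adjugate i j := by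
    rw [Matrix.adjugate_apply, Matrix.updateRow_eq_self]
  have h4 : M.adjugate j i = M.adjugate i j := by
    have := Matrix.adjugate_transpose M
    rw [hM] at this
    exact congrFun (congrFun this i) j
  have h5 : ((M.updateRow i (Pi.single j 1)).updateRow j (Pi.single i 1)).det =
      ((M.updateRow i (Pi.single i 1)).updateRow j (Pi.single j 1)).det := by
    have := Matrix.det_permute (Equiv.swap i j)
      ((M.updateRow i (Pi.single i 1)).updateRow j (Pi.single j 1))
    rw [Equiv.Perm.sign_swap hij] at this
    have hneg : (((-1 : ℤˣ) : ℤ) : ZMod 2) = 1 := by decide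
    rw [hneg, one_mul] at this
    rw [← this]
    congr 1
    ext a b
    by_cases ha : a = i
    · subst ha
      simp [Matrix.updateRow_apply, hij]
    · by_cases ha' : a = j
      · subst ha'
        simp [Matrix.updateRow_apply, hij]
      · simp [Matrix.updateRow_apply, ha, ha', Equiv.swap_apply_of_ne_of_ne ha ha']
  rw [h1, Matrix.det_updateRow_add]
  have h6 : ∀ v : m → ZMod 2, ((M.updateRow i (M i + Pi.single j 1)).updateRow j v).det =
      ((M.updateRow i (M i)).updateRow j v).det +
        ((M.updateRow i (Pi.single j 1)).updateRow j v).det := by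
    intro v
    rw [Matrix.updateRow_comm _ hij, Matrix.det_updateRow_add]
    rw [Matrix.updateRow_comm _ hij.symm, Matrix.updateRow_comm _ hij.symm]
  rw [h6, h6, h2, h3, h5, Matrix.updateRow_eq_self, Matrix.updateRow_eq_self, h4]
  have := dbl (M.adjugate i j)
  linear_combination this

theorem det_inst {m R : Type*} [CommRing R] (i1 i2 : Fintype m) (d1 d2 : DecidableEq m)
    (A : Matrix m m R) : @Matrix.det m d1 i1 R _ A = @Matrix.det m d2 i2 R _ A := by
  obtain rfl := Subsingleton.elim i1 i2
  obtain rfl := Subsingleton.elim d1 d2
  rfl

/-- removing unit rows from a determinant -/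
theorem det_unit_rows {R m k : Type*} [CommRing R] [Fintype m] [DecidableEq m] [Fintype k]
    [DecidableEq k] (f : k → m) (hf : Function.Injective f) (M : Matrix m m R)
    (h : ∀ i, i ∉ Set.range f → M i = Pi.single i 1) : M.det = (M.submatrix f f).det := by
  classical
  rw [Matrix.twoBlockTriangular_det M (fun i => i ∈ Set.range f)]
  · have h1 : (M.toSquareBlockProp fun i => ¬ i ∈ Set.range f) = 1 := by
      ext a b
      rw [Matrix.toSquareBlockProp_def, Matrix.of_apply, h a.1 a.2]
      by_cases hab : a = b
      · subst hab; simp
      · rw [Matrix.one_apply_ne hab, Pi.single_apply, if_neg]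
        exact fun hc => hab (Subtype.ext hc.symm)
    rw [h1, Matrix.det_one, mul_one]
    have h2 : M.submatrix f f =
        (M.toSquareBlockProp fun i => i ∈ Set.range f).submatrix (Equiv.ofInjective f hf)
          (Equiv.ofInjective f hf) := rfl
    rw [h2, Matrix.det_submatrix_equiv_self]
    exact det_inst _ _ _ _ _
  · intro i hi j hj
    rw [h i hi, Pi.single_apply, if_neg]
    rintro rfl
    exact hi hj

end Vale.Agent.P014.H483
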