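import Vale.Agent.P014.H483.Exp1

/-!
# Deletion and contraction (module EXP)
-/

namespace Vale.Agent.P014.H483

open Matrix Finset

variable {I : Type*} [DecidableEq I]

/-- deletion of the edge `p → r` -/
def del (w : I → I → ZMod 2) (p r : I) : I → I → ZMod 2 :=
  fun i j => if i = p ∧ j = r then 0 else w i j

/-- contraction of the edge `p → r` -/
def con (w : I → I → ZMod 2) (p r : I) : I → I → ZMod 2 :=
  fun i j => if j = r then w i p + w i r else w i j

/-- the marks after the contraction of the edge `p → r` -/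
def cone (e : I → ZMod 2) (p r : I) : I → ZMod 2 :=
  fun j => if j = r then e p + e r else e j

theorem lap_del (w : I → I → ZMod 2) {p r : I} (hpr : p ≠ r) (hw : w p r = 1) (T : Finset I)
    (hp : p ∈ T) (hr : r ∈ T) (a b : T) :
    Lap w T a b = Lap (del w p r) T a b + if a.1 = p ∧ (b.1 = p ∨ b.1 = r) then 1 else 0 := by
  unfold Lap del
  simp only [Matrix.of_apply]
  by_cases ha : a.1 = p
  · by_cases hab : a = b
    · subst hab
      simp only [if_true, ha, true_and, true_or]
      have h1 : r ∈ T.erase p := Finset.mem_erase.mpr ⟨hpr.symm, hr⟩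
      rw [← Finset.add_sum_erase _ _ h1, ← Finset.add_sum_erase (T.erase p) _ h1, hw, if_pos rfl,
        zero_add, add_comm]
      congr 1
      refine Finset.sum_congr rfl fun j hj => ?_
      rw [if_neg (Finset.ne_of_mem_erase hj)]
    · have hbp : b.1 ≠ p := fun h => hab (Subtype.ext (ha.trans h.symm))
      rw [if_neg hab, if_neg hab]
      by_cases hb : b.1 = r
      · simp [ha, hb, hw]
      · simp [ha, hb, hbp]
  · simp [ha]

theorem lap_con (w : I → I → ZMod 2) {p r : I} (hpr : p ≠ r) (T : Finset I)
    (hp : p ∈ T) (hr : r ∈ T) (a b : I) (ha : a ∈ T) (hb : b ∈ T) (hap : a ≠ p) (hbp : b ≠ p) :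
    Lap (del w p r) T ⟨a, ha⟩ ⟨b, hb⟩ + (if b = r then Lap (del w p r) T ⟨a, ha⟩ ⟨p, hp⟩ else 0) =
      Lap (con w p r) (T.erase p) ⟨a, Finset.mem_erase.mpr ⟨hap, ha⟩⟩
        ⟨b, Finset.mem_erase.mpr ⟨hbp, hb⟩⟩ := by
  unfold Lap del con
  simp only [Matrix.of_apply, Subtype.mk.injEq, hap, false_and, if_false]
  by_cases hab : a = b
  · subst hab
    simp only [if_true]
    have h1 : (T.erase p).erase a = (T.erase a).erase p := Finset.erase_right_comm
    have h2 : p ∈ T.erase a := Finset.mem_erase.mpr ⟨hap.symm, hp⟩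
    rw [h1, ← Finset.add_sum_erase _ _ h2]
    by_cases har : a = r
    · subst har
      rw [if_pos rfl]
      have h3 : ∑ x ∈ (T.erase a).erase p, (if x = a then w a p + w a a else w a x) =
          ∑ x ∈ (T.erase a).erase p, w a x := by
        refine Finset.sum_congr rfl fun j hj => ?_
        rw [if_neg (Finset.ne_of_mem_erase (Finset.mem_of_mem_erase hj))]
      rw [h3]
      have := dbl (w a p)
      linear_combination this
    · rw [if_neg har, add_zero]
      have h4 : r ∈ (T.erase a).erase p := by
        simp [hpr.symm, Ne.symm har, hr]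
      rw [← Finset.add_sum_erase _ _ h4, ← Finset.add_sum_erase ((T.erase a).erase p) _ h4,
        if_pos rfl]
      have h3 : ∑ x ∈ ((T.erase a).erase p).erase r, (if x = r then w a p + w a r else w a x) =
          ∑ x ∈ ((T.erase a).erase p).erase r, w a x := by
        refine Finset.sum_congr rfl fun j hj => ?_
        rw [if_neg (Finset.ne_of_mem_erase hj)]
      rw [h3]
      ring
  · rw [if_neg hab, if_neg hab]
    by_cases hb : b = r
    · rw [if_pos hb, if_pos hb, hb]; ring
    · rw [if_neg hb, if_neg hb, add_zero]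

/-- the entries of a congruent matrix -/
theorem congr_apply {m : Type*} [Fintype m] [DecidableEq m] (N : Matrix m m (ZMod 2)) (P R : m)
    (a b : m) :
    (Matrix.transvection R P 1 * N * Matrix.transvection P R 1 : Matrix m m (ZMod 2)) a b =
      N a b + (if a = R then N P b else 0) + (if b = R then N a P else 0) +
        (if a = R ∧ b = R then N P P else 0) := by
  by_cases hb : b = R
  · subst hb
    rw [Matrix.mul_transvection_apply_same]
    by_cases ha : a = b
    · subst ha
      rw [Matrix.transvection_mul_apply_same, Matrix.transvection_mul_apply_same]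
      simp
      ring
    · rw [Matrix.transvection_mul_apply_of_ne _ _ _ _ ha,
        Matrix.transvection_mul_apply_of_ne _ _ _ _ ha]
      simp [ha]
  · rw [Matrix.mul_transvection_apply_of_ne _ _ _ _ hb]
    by_cases ha : a = R
    · subst ha
      rw [Matrix.transvection_mul_apply_same]
      simp [hb]
    · rw [Matrix.transvection_mul_apply_of_ne _ _ _ _ ha]
      simp [ha, hb]

/-- **deletion–contraction for `det N(T)`** -/
theorem det_dc (s e : I → ZMod 2) (w : I → I → ZMod 2) {p r : I} (hpr : p ≠ r) (hw : w p r = 1)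
    (T : Finset I) (hp : p ∈ T) (hr : r ∈ T) :
    (NMat s e w T).det = (NMat s e (del w p r) T).det +
      (NMat s (cone e p r) (con w p r) (T.erase p)).det := by
  classical
  let Pl : T ⊕ T := Sum.inl ⟨p, hp⟩
  let P : T ⊕ T := Sum.inr ⟨p, hp⟩
  let R : T ⊕ T := Sum.inr ⟨r, hr⟩
  have hPR : P ≠ R := by
    intro h
    have := congrArg Subtype.val (Sum.inr_injective h)
    exact hpr this
  have hPlP : Pl ≠ P := by simp [Pl, P]
  let M0 : Matrix (T ⊕ T) (T ⊕ T) (ZMod 2) :=
    Matrix.transvection R P 1 * NMat s e (del w p r) T * Matrix.transvection P R 1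
  have hM0a : ∀ a b : T ⊕ T, M0 a b = NMat s e (del w p r) T a b +
      (if a = R then NMat s e (del w p r) T P b else 0) +
        (if b = R then NMat s e (del w p r) T a P else 0) +
          (if a = R ∧ b = R then NMat s e (del w p r) T P P else 0) :=
    fun a b => congr_apply _ _ _ a b
  have hd : ∀ N : Matrix (T ⊕ T) (T ⊕ T) (ZMod 2),
      (Matrix.transvection R P 1 * N * Matrix.transvection P R 1).det = N.det := by
    intro N
    rw [Matrix.det_mul, Matrix.det_mul, Matrix.det_transvection_of_ne _ _ hPR.symm,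
      Matrix.det_transvection_of_ne _ _ hPR, one_mul, mul_one]
  have hsym : ∀ (w : I → I → ZMod 2) (a b), NMat s e w T a b = NMat s e w T b a := by
    intro w a b
    rcases a with a | a <;> rcases b with b | b <;>
      simp [NMat, Matrix.diagonal_apply, eq_comm]
    · split_ifs with h
      · rw [h]
      · rfl
    · split_ifs with h
      · rw [h]
      · rfl
  have h1 : Matrix.transvection R P 1 * NMat s e w T * Matrix.transvection P R 1 =
      M0 + Matrix.single Pl P 1 + Matrix.single P Pl 1 := by
    have key : ∀ a b : T, Lap w T a b + (if b.1 = r then Lap w T a ⟨p, hp⟩ else 0) =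
        Lap (del w p r) T a b + (if b.1 = r then Lap (del w p r) T a ⟨p, hp⟩ else 0) +
          (if a.1 = p ∧ b.1 = p then 1 else 0) := by
      intro a b
      rw [lap_del w hpr hw T hp hr a b, lap_del w hpr hw T hp hr a ⟨p, hp⟩]
      by_cases ha : a.1 = p
      · by_cases hb : b.1 = r
        · have hbp : b.1 ≠ p := fun h => hpr (h.symm.trans hb)
          simp only [ha, hb, hpr.symm, true_and, if_true, or_true, true_or, if_false]
          have := dbl 1
          linear_combination this
        · by_cases hbp : b.1 = p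
          · simp [ha, hb, hbp, hpr]
          · simp [ha, hb, hbp]
      · simp [ha]
    have hv : ∀ (a : T) (x : I) (hx : x ∈ T), (a = ⟨x, hx⟩) = (a.1 = x) := by
      intro a x hx
      exact propext ⟨fun h => congrArg Subtype.val h, fun h => Subtype.ext h⟩
    ext a b
    rw [Matrix.add_apply, Matrix.add_apply, congr_apply, hM0a]
    rcases a with a | a <;> rcases b with b | b
    · simp [NMat, Pl, P, R, Matrix.single_apply]
    · have := key a b
      simp only [NMat, Pl, P, R, Matrix.single_apply, Matrix.fromBlocks_apply₁₂,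
        Matrix.fromBlocks_apply₂₁, Matrix.fromBlocks_apply₂₂, Matrix.fromBlocks_apply₁₁,
        Sum.inr.injEq, Sum.inl.injEq, reduceCtorEq, if_false, false_and, and_false, add_zero, hv]
      have h5 : (p = a.1 ∧ p = b.1) = (a.1 = p ∧ b.1 = p) :=
        propext ⟨fun h => ⟨h.1.symm, h.2.symm⟩, fun h => ⟨h.1.symm, h.2.symm⟩⟩
      simp only [h5]
      exact this
    · have := key b a
      simp only [NMat, Pl, P, R, Matrix.single_apply, Matrix.fromBlocks_apply₁₂,
        Matrix.fromBlocks_apply₂₁, Matrix.fromBlocks_apply₂₂, Matrix.fromBlocks_apply₁₁,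
        Sum.inr.injEq, Sum.inl.injEq, reduceCtorEq, if_false, false_and, and_false, add_zero, hv,
        Matrix.transpose_apply]
      have h5 : (p = a.1 ∧ p = b.1) = (b.1 = p ∧ a.1 = p) :=
        propext ⟨fun h => ⟨h.2.symm, h.1.symm⟩, fun h => ⟨h.2.symm, h.1.symm⟩⟩
      simp only [h5]
      exact this
    · simp [NMat, Pl, P, R, Matrix.single_apply]
  have hM0 : M0.transpose = M0 := by
    ext a b
    rw [Matrix.transpose_apply, hM0a, hM0a, hsym _ b a, hsym _ P a, hsym _ b P]
    have h5 : (b = R ∧ a = R) = (a = R ∧ b = R) := propext and_comm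
    simp only [h5]
    ring
  rw [← hd (NMat s e w T), h1, det_add_sym M0 hM0 hPlP, hd]
  congr 1
  let g : ↥(T.erase p) → ↥T := fun x => ⟨x.1, Finset.mem_of_mem_erase x.2⟩
  have hg : Function.Injective g := fun x y h => Subtype.ext (Subtype.mk.inj h)
  have hgr : ∀ x : T, x ∉ Set.range g → x = ⟨p, hp⟩ := by
    intro x hx
    by_contra hne
    exact hx ⟨⟨x.1, Finset.mem_erase.mpr ⟨fun h => hne (Subtype.ext h), x.2⟩⟩, rfl⟩
  have hgp : ∀ x, g x ≠ ⟨p, hp⟩ := fun x h =>
    Finset.ne_of_mem_erase x.2 (congrArg Subtype.val h)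
  rw [det_unit_rows (Sum.map g g) (hg.sumMap hg)]
  · congr 1
    ext a b
    rw [Matrix.submatrix_apply]
    rcases a with a | a <;> rcases b with b | b
    · rw [Matrix.updateRow_ne (by simp [P]), Matrix.updateRow_ne (by simpa [Pl] using hgp a), hM0a]
      simp [NMat, R, Matrix.diagonal_apply, hg.eq_iff, g]
    · rw [Sum.map_inl, Sum.map_inr, Matrix.updateRow_ne (by simp [P]),
        Matrix.updateRow_ne (by simpa [Pl] using hgp a), hM0a]
      have h6 := lap_con w hpr T hp hr a.1 b.1 (Finset.mem_of_mem_erase a.2)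
        (Finset.mem_of_mem_erase b.2) (Finset.ne_of_mem_erase a.2) (Finset.ne_of_mem_erase b.2)
      have h7 : (g b = ⟨r, hr⟩) = (b.1 = r) :=
        propext ⟨fun h => congrArg Subtype.val h, fun h => Subtype.ext h⟩
      simp only [NMat, P, R, Matrix.fromBlocks_apply₁₂, Sum.inr.injEq, reduceCtorEq, if_false,
        false_and, add_zero, h7]
      exact h6
    · rw [Sum.map_inl, Sum.map_inr, Matrix.updateRow_ne (by simpa [P] using hgp a),
        Matrix.updateRow_ne (by simp [Pl]), hM0a]
      have h6 := lap_con w hpr T hp hr b.1 a.1 (Finset.mem_of_mem_erase b.2)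
        (Finset.mem_of_mem_erase a.2) (Finset.ne_of_mem_erase b.2) (Finset.ne_of_mem_erase a.2)
      have h7 : (g a = ⟨r, hr⟩) = (a.1 = r) :=
        propext ⟨fun h => congrArg Subtype.val h, fun h => Subtype.ext h⟩
      simp only [NMat, P, R, Matrix.fromBlocks_apply₂₁, Sum.inr.injEq, reduceCtorEq, if_false,
        and_false, add_zero, h7, Matrix.transpose_apply]
      exact h6
    · rw [Sum.map_inr, Sum.map_inr, Matrix.updateRow_ne (by simpa [P] using hgp a),
        Matrix.updateRow_ne (by simp [Pl]), hM0a]
      have h7 : ∀ a : ↥(T.erase p), (g a = ⟨r, hr⟩) = (a.1 = r) := fun a =>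
        propext ⟨fun h => congrArg Subtype.val h, fun h => Subtype.ext h⟩
      have h8 : ∀ a : ↥(T.erase p), (⟨p, hp⟩ = g a) = False := fun a =>
        eq_false (fun h => hgp a h.symm)
      have h9 : ∀ a : ↥(T.erase p), (g a = ⟨p, hp⟩) = False := fun a => eq_false (hgp a)
      simp only [NMat, P, R, Matrix.fromBlocks_apply₂₂, Sum.inr.injEq, Matrix.diagonal_apply, h7,
        h8, h9, hg.eq_iff, if_false, if_true, ite_self, add_zero, cone]
      by_cases hab : a = b
      · subst hab
        by_cases har : a.1 = r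
        · simp [har, g, add_comm]
        · simp [har, g]
      · have : ¬ (a.1 = r ∧ b.1 = r) := fun h => hab (Subtype.ext (h.1.trans h.2.symm))
        rw [if_neg hab, if_neg this, if_neg hab, add_zero]
  · intro x hx
    rcases x with x | x
    · have : x = ⟨p, hp⟩ := hgr x (fun ⟨y, hy⟩ => hx ⟨Sum.inl y, by simp [hy]⟩)
      subst this
      rw [Matrix.updateRow_ne hPlP, Matrix.updateRow_self]
    · have : x = ⟨p, hp⟩ := hgr x (fun ⟨y, hy⟩ => hx ⟨Sum.inr y, by simp [hy]⟩)
      subst this
      rw [Matrix.updateRow_self]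

end Vale.Agent.P014.H483
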