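import Vale.Agent.P014.H483.Exp2

/-!
# Deletion and contraction for the principal cofactors (module EXP)
-/

namespace Vale.Agent.P014.H483

open Matrix Finset

variable {I : Type*} [DecidableEq I]

/-- the principal cofactors of `Lap w B` -/
def tau (w : I → I → ZMod 2) (B : Finset I) (i : I) : ZMod 2 :=
  if h : i ∈ B then (Lap w B).adjugate ⟨i, h⟩ ⟨i, h⟩ else 0

/-- the weighted sum of the principal cofactors -/
def sg (s : I → ZMod 2) (w : I → I → ZMod 2) (B : Finset I) : ZMod 2 :=
  ∑ i ∈ B, s i * tau w B i

theorem tau_dc (w : I → I → ZMod 2) {p r : I} (hpr : p ≠ r) (hw : w p r = 1)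
    (B : Finset I) (hp : p ∈ B) (hr : r ∈ B) (i : I) (hi : i ∈ B) :
    tau w B i = tau (del w p r) B i + tau (con w p r) (B.erase p) i := by
  classical
  unfold tau
  rw [dif_pos hi, dif_pos hi]
  by_cases hip : i = p
  · subst hip
    rw [dif_neg (Finset.notMem_erase i B), add_zero, Matrix.adjugate_apply, Matrix.adjugate_apply]
    congr 1
    ext a b
    by_cases ha : a = ⟨i, hi⟩
    · subst ha
      rw [Matrix.updateRow_self, Matrix.updateRow_self]
    · rw [Matrix.updateRow_ne ha, Matrix.updateRow_ne ha, lap_del w hpr hw B hp hr,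
        if_neg (fun h => ha (Subtype.ext h.1)), add_zero]
  · have hie : i ∈ B.erase p := Finset.mem_erase.mpr ⟨hip, hi⟩
    rw [dif_pos hie, Matrix.adjugate_apply, Matrix.adjugate_apply, Matrix.adjugate_apply]
    let P : B := ⟨p, hp⟩
    let R : B := ⟨r, hr⟩
    let J : B := ⟨i, hi⟩
    have hPR : P ≠ R := fun h => hpr (congrArg Subtype.val h)
    have hJP : J ≠ P := fun h => hip (congrArg Subtype.val h)
    let M0 : Matrix B B (ZMod 2) := (Lap (del w p r) B).updateRow J (Pi.single J 1)
    have h1 : (Lap w B).updateRow J (Pi.single J 1) =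
        M0.updateRow P (M0 P + (Pi.single P 1 + Pi.single R 1)) := by
      ext a b
      by_cases ha : a = P
      · subst ha
        rw [Matrix.updateRow_self, Matrix.updateRow_ne hJP.symm, Pi.add_apply, Pi.add_apply]
        simp only [M0]
        rw [Matrix.updateRow_ne hJP.symm, lap_del w hpr hw B hp hr]
        congr 1
        by_cases hb : b = P
        · subst hb
          simp [P, R, hPR, hpr]
        · have hbp : b.1 ≠ p := fun h => hb (Subtype.ext h)
          by_cases hb' : b = R
          · subst hb'
            simp [P, R, hPR, hpr, hpr.symm]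
          · have hbr : b.1 ≠ r := fun h => hb' (Subtype.ext h)
            rw [Pi.single_eq_of_ne hb, Pi.single_eq_of_ne hb', if_neg, add_zero]
            exact fun h => h.2.elim hbp hbr
      · rw [Matrix.updateRow_ne ha]
        simp only [M0]
        by_cases haJ : a = J
        · subst haJ
          rw [Matrix.updateRow_self, Matrix.updateRow_self]
        · rw [Matrix.updateRow_ne haJ, Matrix.updateRow_ne haJ, lap_del w hpr hw B hp hr,
            if_neg (fun h => ha (Subtype.ext h.1)), add_zero]
    change ((Lap w B).updateRow J (Pi.single J 1)).det = M0.det + _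
    rw [h1, Matrix.det_updateRow_add, Matrix.updateRow_eq_self]
    congr 1
    let M1 : Matrix B B (ZMod 2) := M0.updateRow P (Pi.single P 1 + Pi.single R 1)
    have h2 : M1.det = (M1 * Matrix.transvection P R 1).det := by
      rw [Matrix.det_mul, Matrix.det_transvection_of_ne _ _ hPR, mul_one]
    change M1.det = _
    rw [h2]
    have h3 : ∀ a b : B, (M1 * Matrix.transvection P R 1 : Matrix B B (ZMod 2)) a b =
        M1 a b + (if b = R then M1 a P else 0) := by
      intro a b
      by_cases hb : b = R
      · subst hb
        rw [Matrix.mul_transvection_apply_same, one_mul, if_pos rfl]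
      · rw [Matrix.mul_transvection_apply_of_ne _ _ _ _ hb, if_neg hb, add_zero]
    let g : ↥(B.erase p) → ↥B := fun x => ⟨x.1, Finset.mem_of_mem_erase x.2⟩
    have hg : Function.Injective g := fun x y h => Subtype.ext (Subtype.mk.inj h)
    have hgr : ∀ x : B, x ∉ Set.range g → x = P := by
      intro x hx
      by_contra hne
      exact hx ⟨⟨x.1, Finset.mem_erase.mpr ⟨fun h => hne (Subtype.ext h), x.2⟩⟩, rfl⟩
    have hgp : ∀ x, g x ≠ P := fun x h =>
      Finset.ne_of_mem_erase x.2 (congrArg Subtype.val h)
    rw [det_unit_rows g hg]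
    · congr 1
      ext a b
      rw [Matrix.submatrix_apply, h3]
      have h4 : ∀ b, M1 (g a) b = M0 (g a) b := fun b => by
        simp only [M1]
        rw [Matrix.updateRow_ne (hgp a)]
      rw [h4, h4]
      have h7 : (g b = R) = (b.1 = r) :=
        propext ⟨fun h => congrArg Subtype.val h, fun h => Subtype.ext h⟩
      simp only [h7]
      by_cases ha : a = ⟨i, hie⟩
      · subst ha
        rw [Matrix.updateRow_self]
        have h5 : ∀ b, M0 (g ⟨i, hie⟩) b = (Pi.single J 1 : B → ZMod 2) b := fun b => by
          simp only [M0]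
          have : g ⟨i, hie⟩ = J := rfl
          rw [this, Matrix.updateRow_self]
        rw [h5, h5, Pi.single_eq_of_ne hJP.symm, ite_self, add_zero, Pi.single_apply,
          Pi.single_apply]
        have h8 : (g b = J) = (b = ⟨i, hie⟩) :=
          propext ⟨fun h => Subtype.ext (congrArg Subtype.val h : b.1 = i),
            fun h => Subtype.ext (congrArg Subtype.val h : b.1 = i)⟩
        simp only [h8]
      · have haJ : g a ≠ J := fun h => ha (Subtype.ext (congrArg Subtype.val h : a.1 = i))
        have h5 : ∀ b, M0 (g a) b = Lap (del w p r) B (g a) b := fun b => by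
          simp only [M0]
          rw [Matrix.updateRow_ne haJ]
        rw [h5, h5, Matrix.updateRow_ne ha]
        exact lap_con w hpr B hp hr a.1 b.1 (Finset.mem_of_mem_erase a.2)
          (Finset.mem_of_mem_erase b.2) (Finset.ne_of_mem_erase a.2) (Finset.ne_of_mem_erase b.2)
    · intro x hx
      have := hgr x hx
      subst this
      ext b
      rw [h3]
      simp only [M1]
      rw [Matrix.updateRow_self]
      by_cases hb : b = R
      · subst hb
        simp [hPR, hPR.symm]
        exact dbl 1
      · rw [if_neg hb, add_zero, Pi.add_apply, Pi.single_eq_of_ne hb, add_zero]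

theorem sg_dc (s : I → ZMod 2) (w : I → I → ZMod 2) {p r : I} (hpr : p ≠ r) (hw : w p r = 1)
    (B : Finset I) (hp : p ∈ B) (hr : r ∈ B) :
    sg s w B = sg s (del w p r) B + sg s (con w p r) (B.erase p) := by
  unfold sg
  have h1 : ∑ i ∈ B.erase p, s i * tau (con w p r) (B.erase p) i =
      ∑ i ∈ B, s i * tau (con w p r) (B.erase p) i := by
    rw [← Finset.add_sum_erase B _ hp]
    have : tau (con w p r) (B.erase p) p = 0 := by
      unfold tau; rw [dif_neg (Finset.notMem_erase p B)]
    rw [this, mul_zero, zero_add]
  rw [h1, ← Finset.sum_add_distrib]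
  refine Finset.sum_congr rfl fun i hi => ?_
  rw [tau_dc w hpr hw B hp hr i hi]
  ring

end Vale.Agent.P014.H483
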