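import Vale.Agent.P014.H483.Exp3

/-!
# The expansion of `det N(T)` over the blocks containing a vertex (module EXP)
-/

namespace Vale.Agent.P014.H483

open Matrix Finset

variable {I : Type*} [DecidableEq I]

theorem Lap_congr {w w' : I → I → ZMod 2} {T : Finset I}
    (h : ∀ i ∈ T, ∀ j ∈ T, i ≠ j → w i j = w' i j) : Lap w T = Lap w' T := by
  ext a b
  unfold Lap
  simp only [Matrix.of_apply]
  by_cases hab : a = b
  · rw [if_pos hab, if_pos hab]
    exact Finset.sum_congr rfl fun j hj =>
      h a.1 a.2 j (Finset.mem_of_mem_erase hj) (Finset.ne_of_mem_erase hj).symm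
  · rw [if_neg hab, if_neg hab]
    exact h a.1 a.2 b.1 b.2 (fun h => hab (Subtype.ext h))

theorem NMat_congr {s s' e e' : I → ZMod 2} {w w' : I → I → ZMod 2} {T : Finset I}
    (hs : ∀ i ∈ T, s i = s' i) (he : ∀ i ∈ T, e i = e' i)
    (h : ∀ i ∈ T, ∀ j ∈ T, i ≠ j → w i j = w' i j) : NMat s e w T = NMat s' e' w' T := by
  unfold NMat
  rw [Lap_congr h]
  have h1 : (fun p : T => s p) = fun p : T => s' p := funext fun p => hs p.1 p.2
  have h2 : (fun p : T => e p) = fun p : T => e' p := funext fun p => he p.1 p.2
  rw [h1, h2]

theorem sg_congr (s : I → ZMod 2) {w w' : I → I → ZMod 2} {T : Finset I}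
    (h : ∀ i ∈ T, ∀ j ∈ T, i ≠ j → w i j = w' i j) : sg s w T = sg s w' T := by
  unfold sg tau
  rw [Lap_congr h]

theorem det_zero (s e : I → ZMod 2) (w : I → I → ZMod 2) (T : Finset I)
    (h : ∀ i ∈ T, ∀ j ∈ T, i ≠ j → w i j = 0) : (NMat s e w T).det = ∏ i ∈ T, s i * e i := by
  have h1 : Lap w T = 0 := by
    rw [Lap_congr (w' := fun _ _ => 0) h]
    ext a b
    simp [Lap]
  unfold NMat
  rw [h1, Matrix.transpose_zero, Matrix.det_fromBlocks_zero₂₁, Matrix.det_diagonal,
    Matrix.det_diagonal, ← Finset.prod_mul_distrib]
  exact Finset.prod_coe_sort T fun i => s i * e i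

theorem sg_zero (s : I → ZMod 2) (w : I → I → ZMod 2) (B : Finset I)
    (h : ∀ i ∈ B, ∀ j ∈ B, i ≠ j → w i j = 0) (q : I) (hq : q ∈ B) :
    sg s w B = if B = {q} then s q else 0 := by
  have h1 : Lap w B = 0 := by
    rw [Lap_congr (w' := fun _ _ => 0) h]
    ext a b
    simp [Lap]
  unfold sg tau
  rw [h1]
  by_cases hB : B = {q}
  · subst hB
    rw [if_pos rfl, Finset.sum_singleton, dif_pos (Finset.mem_singleton_self q),
      Matrix.adjugate_subsingleton, Matrix.one_apply_eq, mul_one]
  · rw [if_neg hB]
    have hn : Nontrivial B := by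
      by_contra hc
      rw [not_nontrivial_iff_subsingleton] at hc
      apply hB
      refine Finset.eq_singleton_iff_unique_mem.mpr ⟨hq, fun x hx => ?_⟩
      exact congrArg Subtype.val (Subsingleton.elim (⟨x, hx⟩ : B) ⟨q, hq⟩)
    refine Finset.sum_eq_zero fun i hi => ?_
    rw [dif_pos hi, Matrix.adjugate_zero, Matrix.zero_apply, mul_zero]

/-- the weight of a block in the expansion -/
def trm (s e : I → ZMod 2) (w : I → I → ZMod 2) (T B : Finset I) : ZMod 2 :=
  (∑ i ∈ B, e i) * sg s w B * (NMat s e w (T \ B)).det

theorem exp_main (n : ℕ) : ∀ T : Finset I, T.card = n → ∀ (s e : I → ZMod 2)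
    (w : I → I → ZMod 2) (q : I), q ∈ T →
    (NMat s e w T).det = ∑ B ∈ T.powerset.filter (q ∈ ·), trm s e w T B := by
  classical
  induction n using Nat.strong_induction_on with
  | _ n ih =>
  intro T hT s e w q hq
  obtain ⟨k, hk⟩ : ∃ k, ((T ×ˢ T).filter (fun x => x.1 ≠ x.2 ∧ w x.1 x.2 ≠ 0)).card = k :=
    ⟨_, rfl⟩
  induction k using Nat.strong_induction_on generalizing w with
  | _ k ihk =>
  by_cases hz : ∀ i ∈ T, ∀ j ∈ T, i ≠ j → w i j = 0
  · rw [Finset.sum_eq_single_of_mem {q}]
    · unfold trm
      rw [det_zero s e w T hz, det_zero s e w (T \ {q}) (fun i hi j hj => hz i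
        (Finset.mem_sdiff.mp hi).1 j (Finset.mem_sdiff.mp hj).1),
        sg_zero s w {q} (fun i hi j hj hij => absurd ((Finset.mem_singleton.mp hi).trans
          (Finset.mem_singleton.mp hj).symm) hij) q (Finset.mem_singleton_self q), if_pos rfl,
        Finset.sum_singleton, Finset.sdiff_singleton_eq_erase, ← Finset.mul_prod_erase T _ hq]
      ring
    · simp [hq]
    · intro B hB hBq
      rw [Finset.mem_filter, Finset.mem_powerset] at hB
      unfold trm
      rw [sg_zero s w B (fun i hi j hj => hz i (hB.1 hi) j (hB.1 hj)) q hB.2, if_neg hBq]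
      ring
  · push Not at hz
    obtain ⟨p, hp, r, hr, hpr, hw⟩ := hz
    have hw1 : w p r = 1 := by
      have : ∀ a : ZMod 2, a ≠ 0 → a = 1 := by decide
      exact this _ hw
    have hlt : ((T ×ˢ T).filter
        (fun x => x.1 ≠ x.2 ∧ del w p r x.1 x.2 ≠ 0)).card < k := by
      rw [← hk]
      apply Finset.card_lt_card
      rw [Finset.ssubset_iff_of_subset]
      · refine ⟨(p, r), ?_, ?_⟩
        · simp [hp, hr, hpr, hw]
        · simp [del]
      · intro x hx
        rw [Finset.mem_filter] at hx ⊢
        refine ⟨hx.1, hx.2.1, fun h0 => hx.2.2 ?_⟩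
        unfold del
        split_ifs
        · rfl
        · exact h0
    have hI1 := ihk _ hlt (del w p r) rfl
    have hcard : (T.erase p).card < n := by
      rw [← hT]; exact Finset.card_erase_lt_of_mem hp
    have hq' : (if q = p then r else q) ∈ T.erase p := by
      split_ifs with h
      · exact Finset.mem_erase.mpr ⟨hpr.symm, hr⟩
      · exact Finset.mem_erase.mpr ⟨h, hq⟩
    have hI2 := ih _ hcard (T.erase p) rfl s (cone e p r) (con w p r) _ hq'
    rw [det_dc s e w hpr hw1 T hp hr, hI1, hI2]
    have hterm : ∀ B ∈ T.powerset.filter (q ∈ ·), trm s e w T B = trm s e (del w p r) T B +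
        if (p ∈ B ↔ r ∈ B) then trm s (cone e p r) (con w p r) (T.erase p) (B.erase p) else 0 := by
      intro B hB
      rw [Finset.mem_filter, Finset.mem_powerset] at hB
      unfold trm
      by_cases hpB : p ∈ B
      · by_cases hrB : r ∈ B
        · rw [if_pos (by tauto), sg_dc s w hpr hw1 B hpB hrB]
          have h1 : NMat s e (del w p r) (T \ B) = NMat s e w (T \ B) :=
            NMat_congr (fun _ _ => rfl) (fun _ _ => rfl) (fun i hi j hj hij => by
              unfold del
              rw [if_neg]
              rintro ⟨rfl, rfl⟩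
              exact (Finset.mem_sdiff.mp hi).2 hpB)
          have h2 : T.erase p \ B.erase p = T \ B := by
            ext x
            simp only [Finset.mem_sdiff, Finset.mem_erase]
            constructor
            · rintro ⟨⟨h3, h4⟩, h5⟩
              exact ⟨h4, fun h => h5 ⟨h3, h⟩⟩
            · rintro ⟨h3, h4⟩
              exact ⟨⟨fun h => h4 (h ▸ hpB), h3⟩, fun h => h4 h.2⟩
          have h3 : NMat s (cone e p r) (con w p r) (T \ B) = NMat s e w (T \ B) :=
            NMat_congr (fun _ _ => rfl) (fun i hi => by
              unfold cone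
              rw [if_neg]
              rintro rfl
              exact (Finset.mem_sdiff.mp hi).2 hrB) (fun i hi j hj hij => by
              unfold con
              rw [if_neg]
              rintro rfl
              exact (Finset.mem_sdiff.mp hj).2 hrB)
          have h4 : ∑ i ∈ B.erase p, cone e p r i = ∑ i ∈ B, e i := by
            have hre : r ∈ B.erase p := Finset.mem_erase.mpr ⟨hpr.symm, hrB⟩
            rw [← Finset.add_sum_erase B _ hpB, ← Finset.add_sum_erase (B.erase p) _ hre,
              ← Finset.add_sum_erase (B.erase p) _ hre]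
            have h5 : ∑ i ∈ (B.erase p).erase r, cone e p r i =
                ∑ i ∈ (B.erase p).erase r, e i :=
              Finset.sum_congr rfl fun i hi => by
                unfold cone; rw [if_neg (Finset.ne_of_mem_erase hi)]
            rw [h5]
            unfold cone
            rw [if_pos rfl]
            ring
          rw [h1, h2, h3, h4]
          ring
        · rw [if_neg (by tauto), add_zero]
          have h1 : NMat s e (del w p r) (T \ B) = NMat s e w (T \ B) :=
            NMat_congr (fun _ _ => rfl) (fun _ _ => rfl) (fun i hi j hj hij => by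
              unfold del
              rw [if_neg]
              rintro ⟨rfl, rfl⟩
              exact (Finset.mem_sdiff.mp hi).2 hpB)
          have h2 : sg s (del w p r) B = sg s w B := sg_congr s (fun i hi j hj hij => by
              unfold del
              rw [if_neg]
              rintro ⟨rfl, rfl⟩
              exact hrB hj)
          rw [h1, h2]
      · have h2 : sg s (del w p r) B = sg s w B := sg_congr s (fun i hi j hj hij => by
              unfold del
              rw [if_neg]
              rintro ⟨rfl, rfl⟩
              exact hpB hi)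
        by_cases hrB : r ∈ B
        · rw [if_neg (by tauto), add_zero]
          have h1 : NMat s e (del w p r) (T \ B) = NMat s e w (T \ B) :=
            NMat_congr (fun _ _ => rfl) (fun _ _ => rfl) (fun i hi j hj hij => by
              unfold del
              rw [if_neg]
              rintro ⟨rfl, rfl⟩
              exact (Finset.mem_sdiff.mp hj).2 hrB)
          rw [h1, h2]
        · rw [if_pos (by tauto), h2, Finset.erase_eq_of_notMem hpB,
            det_dc s e w hpr hw1 (T \ B) (Finset.mem_sdiff.mpr ⟨hp, hpB⟩)
              (Finset.mem_sdiff.mpr ⟨hr, hrB⟩)]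
          have h3 : T.erase p \ B = (T \ B).erase p := by
            ext x
            simp only [Finset.mem_sdiff, Finset.mem_erase]
            tauto
          have h4 : ∑ i ∈ B, cone e p r i = ∑ i ∈ B, e i :=
            Finset.sum_congr rfl fun i hi => by
              unfold cone
              rw [if_neg]
              rintro rfl
              exact hrB hi
          have h5 : sg s (con w p r) B = sg s w B := sg_congr s (fun i hi j hj hij => by
              unfold con
              rw [if_neg]
              rintro rfl
              exact hrB hj)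
          rw [h3, h4, h5]
          ring
    rw [Finset.sum_congr rfl hterm, Finset.sum_add_distrib]
    congr 1
    rw [← Finset.sum_filter]
    symm
    refine Finset.sum_nbij' (fun B => B.erase p) (fun B => if r ∈ B then insert p B else B)
      ?_ ?_ ?_ ?_ ?_
    · intro B hB
      simp only [Finset.mem_filter, Finset.mem_powerset] at hB ⊢
      refine ⟨Finset.erase_subset_erase p hB.1.1, ?_⟩
      split_ifs with h
      · subst h
        exact Finset.mem_erase.mpr ⟨hpr.symm, hB.2.mp hB.1.2⟩
      · exact Finset.mem_erase.mpr ⟨h, hB.1.2⟩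
    · intro B hB
      simp only [Finset.mem_filter, Finset.mem_powerset] at hB ⊢
      have hpB : p ∉ B := fun h => Finset.notMem_erase p T (hB.1 h)
      have hBT : B ⊆ T := hB.1.trans (Finset.erase_subset p T)
      by_cases hrB : r ∈ B
      · rw [if_pos hrB]
        refine ⟨⟨Finset.insert_subset hp hBT, ?_⟩, ?_⟩
        · by_cases hqp : q = p
          · subst hqp; exact Finset.mem_insert_self _ _
          · have := hB.2
            rw [if_neg hqp] at this
            exact Finset.mem_insert_of_mem this
        · simp [hrB]
      · rw [if_neg hrB]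
        refine ⟨⟨hBT, ?_⟩, by tauto⟩
        by_cases hqp : q = p
        · have := hB.2
          rw [if_pos hqp] at this
          exact absurd this hrB
        · have := hB.2
          rwa [if_neg hqp] at this
    · intro B hB
      simp only [Finset.mem_filter, Finset.mem_powerset] at hB
      by_cases hrB : r ∈ B
      · rw [if_pos (Finset.mem_erase.mpr ⟨hpr.symm, hrB⟩)]
        exact Finset.insert_erase (hB.2.mpr hrB)
      · rw [if_neg (fun h => hrB (Finset.mem_of_mem_erase h))]
        exact Finset.erase_eq_of_notMem (fun h => hrB (hB.2.mp h))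
    · intro B hB
      simp only [Finset.mem_filter, Finset.mem_powerset] at hB
      have hpB : p ∉ B := fun h => Finset.notMem_erase p T (hB.1 h)
      by_cases hrB : r ∈ B
      · rw [if_pos hrB]
        exact Finset.erase_insert hpB
      · rw [if_neg hrB]
        exact Finset.erase_eq_of_notMem hpB
    · intro B hB
      rfl

end Vale.Agent.P014.H483
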