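import Vale.Agent.P014.H483.Exp4

/-!
# Module EXP: final statements
-/

namespace Vale.Agent.P014.H483

open Matrix Finset

variable {I : Type*} [DecidableEq I]

/-- the block weights `g(B)` -/
def gB (s e : I → ZMod 2) (w : I → I → ZMod 2) (B : Finset I) : ZMod 2 :=
  (∑ i ∈ B, e i) * ∑ i : B, s i * (Lap w B).adjugate i i

theorem sg_eq (s : I → ZMod 2) (w : I → I → ZMod 2) (B : Finset I) :
    sg s w B = ∑ i : B, s i * (Lap w B).adjugate i i := by
  unfold sg
  rw [← Finset.sum_attach B]
  refine Finset.sum_congr rfl fun i _ => ?_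
  unfold tau
  rw [dif_pos i.2]

/-- **EXP**: expansion of `det N(T)` over the blocks containing `q` (any `w`) -/
theorem exp_rec (s e : I → ZMod 2) (w : I → I → ZMod 2) (T : Finset I) (q : I) (hq : q ∈ T) :
    (NMat s e w T).det =
      ∑ B ∈ T.powerset.filter (q ∈ ·), gB s e w B * (NMat s e w (T \ B)).det := by
  rw [exp_main T.card T rfl s e w q hq]
  refine Finset.sum_congr rfl fun B _ => ?_
  unfold trm gB
  rw [sg_eq]

theorem det_empty (s e : I → ZMod 2) (w : I → I → ZMod 2) : (NMat s e w ∅).det = 1 :=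
  Matrix.det_isEmpty

theorem Lap_mulVec_one (w : I → I → ZMod 2) (B : Finset I) :
    (Lap w B).mulVec (fun _ => 1) = 0 := by
  ext a
  simp only [Matrix.mulVec, dotProduct, mul_one, Pi.zero_apply]
  rw [← Finset.add_sum_erase _ _ (Finset.mem_univ a)]
  have h1 : Lap w B a a = ∑ r ∈ B.erase a, w a r := by simp [Lap]
  have h2 : ∑ x ∈ Finset.univ.erase a, Lap w B a x = ∑ r ∈ B.erase a, w a r := by
    refine Finset.sum_bij (fun x _ => x.1) ?_ ?_ ?_ ?_
    · intro x hx
      exact Finset.mem_erase.mpr ⟨fun h => Finset.ne_of_mem_erase hx (Subtype.ext h), x.2⟩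
    · intro x _ y _ h
      exact Subtype.ext h
    · intro b hb
      exact ⟨⟨b, Finset.mem_of_mem_erase hb⟩, Finset.mem_erase.mpr
        ⟨fun h => Finset.ne_of_mem_erase hb (congrArg Subtype.val h), Finset.mem_univ _⟩, rfl⟩
    · intro x hx
      unfold Lap
      rw [Matrix.of_apply, if_neg (Finset.ne_of_mem_erase hx).symm]
  rw [h1, h2]
  exact dbl _

theorem Lap_transpose_mulVec_one (e : I → ZMod 2) (w : I → I → ZMod 2)
    (hw : ∀ i j, i ≠ j → w j i = w i j + e i * e j) (B : Finset I) (he : ∑ i ∈ B, e i = 1) :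
    (Lap w B).transpose.mulVec (fun _ => 1) = 0 := by
  have h1 : (Lap w B).transpose = Lap w B + Matrix.of fun a b : B =>
      e a * e b + (if a = b then e a else 0) := by
    ext a b
    rw [Matrix.transpose_apply, Matrix.add_apply, Matrix.of_apply]
    by_cases hab : a = b
    · subst hab
      rw [if_pos rfl]
      have h2 : ∀ x : ZMod 2, x * x + x = 0 := by decide
      rw [h2, add_zero]
    · rw [if_neg hab, add_zero]
      unfold Lap
      rw [Matrix.of_apply, Matrix.of_apply, if_neg hab, if_neg (Ne.symm hab)]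
      exact hw a.1 b.1 (fun h => hab (Subtype.ext h))
  rw [h1, Matrix.add_mulVec, Lap_mulVec_one, zero_add]
  ext a
  simp only [Matrix.mulVec, dotProduct, mul_one, Pi.zero_apply, Matrix.of_apply]
  rw [Finset.sum_add_distrib, ← Finset.mul_sum, Finset.sum_coe_sort B e, he, mul_one,
    Finset.sum_ite_eq Finset.univ a, if_pos (Finset.mem_univ a)]
  exact dbl _

/-- a matrix with row sums zero: the cofactors do not depend on the column -/
theorem adj_const {m : Type*} [Fintype m] [DecidableEq m] (M : Matrix m m (ZMod 2))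
    (h : M.mulVec (fun _ => 1) = 0) (i k j : m) : M.adjugate i j = M.adjugate k j := by
  by_cases hik : i = k
  · rw [hik]
  have h1 : (M.updateRow j (Pi.single i 1 + Pi.single k 1)).det = 0 := by
    rw [← Matrix.exists_mulVec_eq_zero_iff]
    refine ⟨fun _ => 1, fun hc => ?_, ?_⟩
    · have := congrFun hc j
      exact one_ne_zero this
    · ext a
      by_cases ha : a = j
      · subst ha
        simp only [Matrix.mulVec, dotProduct, mul_one, Pi.zero_apply, Matrix.updateRow_self,
          Pi.add_apply, Finset.sum_add_distrib]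
        rw [Finset.sum_pi_single', Finset.sum_pi_single']
        simp only [Finset.mem_univ, if_true]
        exact dbl 1
      · have := congrFun h a
        simp only [Matrix.mulVec, dotProduct, mul_one, Pi.zero_apply] at this ⊢
        rw [← this]
        refine Finset.sum_congr rfl fun b _ => ?_
        rw [Matrix.updateRow_ne ha]
  rw [Matrix.det_updateRow_add, ← Matrix.adjugate_apply, ← Matrix.adjugate_apply] at h1
  have := dbl (M.adjugate k j)
  linear_combination h1 - this

/-- all cofactors are equal if the row and column sums vanish -/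
theorem adj_all {m : Type*} [Fintype m] [DecidableEq m] (M : Matrix m m (ZMod 2))
    (h : M.mulVec (fun _ => 1) = 0) (h' : M.transpose.mulVec (fun _ => 1) = 0) (i j : m) :
    M.adjugate i i = M.adjugate j j := by
  rw [adj_const M h i j i]
  have h1 := adj_const M.transpose h' i j j
  rw [← Matrix.adjugate_transpose] at h1
  simpa only [Matrix.transpose_apply] using h1

theorem gB_eq (s e : I → ZMod 2) (w : I → I → ZMod 2)
    (hw : ∀ i j, i ≠ j → w j i = w i j + e i * e j) (B : Finset I) (j : B) :
    gB s e w B = (∑ i ∈ B, e i) * (∑ i ∈ B, s i) * (Lap w B).adjugate j j := by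
  unfold gB
  have h01 : ∀ x : ZMod 2, x = 0 ∨ x = 1 := by decide
  rcases h01 (∑ i ∈ B, e i) with he | he
  · rw [he]; ring
  · rw [he, one_mul, one_mul, ← Finset.sum_coe_sort B s, Finset.sum_mul]
    refine Finset.sum_congr rfl fun i _ => ?_
    rw [adj_all (Lap w B) (Lap_mulVec_one w B) (Lap_transpose_mulVec_one e w hw B he) i j]

theorem gB_ne_zero (s e : I → ZMod 2) (w : I → I → ZMod 2)
    (hw : ∀ i j, i ≠ j → w j i = w i j + e i * e j) (B : Finset I) (h : gB s e w B ≠ 0) :
    ∑ i ∈ B, e i = 1 ∧ ∑ i ∈ B, s i = 1 := by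
  have h01 : ∀ x : ZMod 2, x ≠ 0 → x = 1 := by decide
  rcases B.eq_empty_or_nonempty with rfl | ⟨j, hj⟩
  · exact absurd (by simp [gB]) h
  · rw [gB_eq s e w hw B ⟨j, hj⟩] at h
    exact ⟨h01 _ (fun h0 => h (by rw [h0]; ring)), h01 _ (fun h0 => h (by rw [h0]; ring))⟩

end Vale.Agent.P014.H483
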