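import Vale.Agent.P014.H483.Birch

/-!
# P014, module P: the calibration, complex analytic part
-/

namespace Vale.Agent.P014.H483

open Complex Filter Topology

/-- the data used in the calibration: the cusp form `F`, the Eisenstein series `e`,
their logarithmic derivatives `dF`, `de` (`θ = (2π i)⁻¹ d/dz`) and the quartic relation -/
structure Cal (F e dF de : ℂ → ℂ) (a b : ℕ → ℤ) : Prop where
  form : Form F a
  eslash : ∀ p q r s : ℤ, p * s - q * r = 1 → 17 ∣ r → ∀ z : ℂ, 0 < z.im →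
    e ((p * z + q) / (r * z + s)) = (r * z + s) ^ 2 * e z
  efricke : ∀ z : ℂ, 0 < z.im → e (-1 / (17 * z)) = -17 * z ^ 2 * e z
  eqexp : ∀ z : ℂ, 0 < z.im →
    HasSum (fun n : ℕ => (b n : ℂ) * cexp (2 * Real.pi * I * (n * z))) (e z)
  hF : ∀ z : ℂ, 0 < z.im → HasDerivAt F (2 * Real.pi * I * dF z) z
  he : ∀ z : ℂ, 0 < z.im → HasDerivAt e (2 * Real.pi * I * de z) z
  quartic : ∀ z : ℂ, 0 < z.im → 4 * (e z * dF z - F z * de z) ^ 2 =
    F z ^ 2 * (e z ^ 4 - 16 * e z ^ 3 * F z - 66 * e z ^ 2 * F z ^ 2 - 48 * e z * F z ^ 3 -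
      127 * F z ^ 4)
  a1 : a 1 = 1
  b0 : b 0 = 2

/-! ### limits at the cusp `∞` -/

/-- the constant term -/
lemma tendsto_coeff {G : ℂ → ℂ} {c : ℕ → ℤ}
    (h : ∀ z : ℂ, 0 < z.im →
      HasSum (fun n : ℕ => (c n : ℂ) * cexp (2 * Real.pi * I * (n * z))) (G z)) (x : ℝ) :
    Tendsto (fun y : ℝ => G (x + y * I)) atTop (𝓝 (c 0)) := by
  have hsum : Summable (fun n : ℕ => |(c n : ℝ)| * Real.exp (-2 * Real.pi * n * 1)) := by
    have h1 := (h I (by simp)).summable.norm
    refine h1.congr fun n => ?_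
    rw [norm_mul, norm_e, Complex.norm_intCast]
    simp
  set C : ℝ := ∑' n : ℕ, |(c n : ℝ)| * Real.exp (-2 * Real.pi * n * 1) with hC
  have hb : ∀ y : ℝ, 1 ≤ y → ‖G (x + y * I) - c 0‖ ≤ C * Real.exp (-2 * Real.pi * (y - 1)) := by
    intro y hy
    have hz : 0 < ((x : ℂ) + y * I).im := by simp; linarith
    have h2 := h _ hz
    have h3 : HasSum (fun n : ℕ => (if n = 0 then (0 : ℂ) else
        (c n : ℂ) * cexp (2 * Real.pi * I * (n * (x + y * I))))) (G (x + y * I) - c 0) := by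
      have h4 := h2.update 0 0
      have h5 : (0 : ℂ) - (c 0 : ℂ) * cexp (2 * Real.pi * I * (((0 : ℕ) : ℂ) * (x + y * I))) +
          G (x + y * I) = G (x + y * I) - c 0 := by
        simp
        ring
      rw [h5] at h4
      refine h4.congr_fun fun n => ?_
      by_cases hn : n = 0
      · subst hn
        simp
      · rw [if_neg hn, Function.update_of_ne hn]
    rw [← h3.tsum_eq]
    have hS := hsum.hasSum.mul_right (Real.exp (-2 * Real.pi * (y - 1)))
    refine tsum_of_norm_bounded hS fun n => ?_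
    by_cases hn : n = 0
    · rw [if_pos hn, norm_zero]
      positivity
    · rw [if_neg hn, norm_mul, norm_e, Complex.norm_intCast]
      have him : ((x : ℂ) + y * I).im = y := by simp
      rw [him]
      have hn1 : (1 : ℝ) ≤ n := by exact_mod_cast Nat.one_le_iff_ne_zero.2 hn
      rw [mul_assoc (|(c n : ℝ)|) (Real.exp (-2 * Real.pi * n * 1)), ← Real.exp_add]
      refine mul_le_mul_of_nonneg_left (Real.exp_le_exp.2 ?_) (by positivity)
      have h1 : 0 ≤ 2 * Real.pi * ((n - 1) * (y - 1)) := by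
        have := Real.pi_pos
        have h2 : 0 ≤ (n : ℝ) - 1 := by linarith
        have h3 : 0 ≤ y - 1 := by linarith
        positivity
      nlinarith
  have h0 : Tendsto (fun y : ℝ => C * Real.exp (-2 * Real.pi * (y - 1))) atTop (𝓝 0) := by
    have h1 : Tendsto (fun y : ℝ => -2 * Real.pi * (y - 1)) atTop atBot := by
      have h2 : Tendsto (fun y : ℝ => y - 1) atTop atTop := tendsto_atTop_add_const_right _ _ tendsto_id
      exact h2.const_mul_atTop_of_neg (by have := Real.pi_pos; linarith)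
    simpa using (Real.tendsto_exp_atBot.comp h1).const_mul C
  have h6 : Tendsto (fun y : ℝ => G (x + y * I) - c 0) atTop (𝓝 0) := by
    refine squeeze_zero_norm' ?_ h0
    filter_upwards [eventually_ge_atTop (1 : ℝ)] with y hy
    exact hb y hy
  have h7 := h6.add_const (c 0 : ℂ)
  simpa using h7

/-- the first coefficient -/
lemma tendsto_coeff1 {G : ℂ → ℂ} {c : ℕ → ℤ}
    (h : ∀ z : ℂ, 0 < z.im →
      HasSum (fun n : ℕ => (c n : ℂ) * cexp (2 * Real.pi * I * (n * z))) (G z)) (h0 : c 0 = 0)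
    (x : ℝ) :
    Tendsto (fun y : ℝ => G (x + y * I) * cexp (-(2 * Real.pi * I * (x + y * I)))) atTop
      (𝓝 (c 1)) := by
  refine tendsto_coeff (G := fun z => G z * cexp (-(2 * Real.pi * I * z)))
    (c := fun n => c (n + 1)) (fun z hz => ?_) x
  have h1 := (hasSum_nat_add_iff' 1).2 (h z hz)
  simp only [Finset.sum_range_one, h0, Int.cast_zero, zero_mul, sub_zero] at h1
  refine (h1.mul_right _).congr_fun fun n => ?_
  rw [mul_assoc ((c (n + 1) : ℤ) : ℂ), ← Complex.exp_add]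
  congr 2
  push_cast
  ring

/-! ### the second differential equation -/

section hol

variable {F e dF de : ℂ → ℂ} {a b : ℕ → ℤ}

/-- the bracket -/
noncomputable def BB (F e dF de : ℂ → ℂ) (z : ℂ) : ℂ := e z * dF z - F z * de z

/-- the derivative of the bracket -/
noncomputable def dB (F e dF de : ℂ → ℂ) (z : ℂ) : ℂ :=
  deriv (BB F e dF de) z / (2 * Real.pi * I)

/-- the expression which vanishes -/
noncomputable def WW (F e dF de : ℂ → ℂ) (z : ℂ) : ℂ :=
  8 * dB F e dF de z * F z - 24 * BB F e dF de z * dF z +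
    F z ^ 2 * (4 * e z ^ 3 - 48 * e z ^ 2 * F z - 132 * e z * F z ^ 2 - 48 * F z ^ 3)

lemma two_pi_I : (2 * Real.pi * I : ℂ) ≠ 0 := by
  have : (Real.pi : ℂ) ≠ 0 := by exact_mod_cast Real.pi_pos.ne'
  simp [this]

lemma diff_of {G dG : ℂ → ℂ} (hG : ∀ z : ℂ, 0 < z.im → HasDerivAt G (2 * Real.pi * I * dG z) z) :
    DifferentiableOn ℂ dG {w : ℂ | 0 < w.im} := by
  have h1 : DifferentiableOn ℂ G {w : ℂ | 0 < w.im} := fun z hz =>
    (hG z hz).differentiableAt.differentiableWithinAt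
  have h2 : DifferentiableOn ℂ (fun z => deriv G z / (2 * Real.pi * I)) {w : ℂ | 0 < w.im} :=
    (h1.deriv isOpen_H).div_const _
  refine h2.congr fun z hz => ?_
  rw [(hG z hz).deriv, mul_div_cancel_left₀ _ two_pi_I]

lemma diff_BB (h : Cal F e dF de a b) : DifferentiableOn ℂ (BB F e dF de) {w : ℂ | 0 < w.im} := by
  have h1 : DifferentiableOn ℂ F {w : ℂ | 0 < w.im} := fun z hz =>
    (h.hF z hz).differentiableAt.differentiableWithinAt
  have h2 : DifferentiableOn ℂ e {w : ℂ | 0 < w.im} := fun z hz =>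
    (h.he z hz).differentiableAt.differentiableWithinAt
  exact (h2.mul (diff_of h.hF)).sub (h1.mul (diff_of h.he))

lemma hasDerivAt_BB (h : Cal F e dF de a b) {z : ℂ} (hz : 0 < z.im) :
    HasDerivAt (BB F e dF de) (2 * Real.pi * I * dB F e dF de z) z := by
  have h1 := ((diff_BB h).differentiableAt (isOpen_H.mem_nhds hz)).hasDerivAt
  refine h1.congr_deriv ?_
  unfold dB
  rw [mul_div_cancel₀ _ two_pi_I]

lemma BW (h : Cal F e dF de a b) {z : ℂ} (hz : 0 < z.im) :
    BB F e dF de z * WW F e dF de z = 0 := by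
  have hF := h.hF z hz
  have he := h.he z hz
  have hB := hasDerivAt_BB h hz
  set c : ℂ := 2 * Real.pi * I with hc
  have hc0 : c ≠ 0 := two_pi_I
  have h1 : HasDerivAt (fun w => 4 * BB F e dF de w ^ 2)
      (4 * (2 * BB F e dF de z * (c * dB F e dF de z))) z := by
    refine ((hB.pow 2).const_mul 4).congr_deriv ?_
    simp
  have h2 : HasDerivAt (fun w => F w ^ 2 * (e w ^ 4 - 16 * e w ^ 3 * F w - 66 * e w ^ 2 * F w ^ 2 -
      48 * e w * F w ^ 3 - 127 * F w ^ 4))
      (2 * F z * (c * dF z) * (e z ^ 4 - 16 * e z ^ 3 * F z - 66 * e z ^ 2 * F z ^ 2 -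
        48 * e z * F z ^ 3 - 127 * F z ^ 4) +
      F z ^ 2 * ((4 * e z ^ 3 - 48 * e z ^ 2 * F z - 132 * e z * F z ^ 2 - 48 * F z ^ 3) *
        (c * de z) + (-16 * e z ^ 3 - 132 * e z ^ 2 * F z - 144 * e z * F z ^ 2 - 508 * F z ^ 3) *
        (c * dF z))) z := by
    have a1 := he.pow 4
    have a2 := ((he.pow 3).const_mul 16).mul hF
    have a3 := ((he.pow 2).const_mul 66).mul (hF.pow 2)
    have a4 := (he.const_mul 48).mul (hF.pow 3)
    have a5 := (hF.pow 4).const_mul 127
    refine ((hF.pow 2).mul ((((a1.sub a2).sub a3).sub a4).sub a5)).congr_deriv ?_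
    simp only [Pi.pow_apply, Pi.mul_apply, Pi.sub_apply]
    push_cast
    ring
  have h3 : (fun w => 4 * BB F e dF de w ^ 2) =ᶠ[𝓝 z] (fun w => F w ^ 2 * (e w ^ 4 -
      16 * e w ^ 3 * F w - 66 * e w ^ 2 * F w ^ 2 - 48 * e w * F w ^ 3 - 127 * F w ^ 4)) := by
    filter_upwards [isOpen_H.mem_nhds hz] with w hw
    exact h.quartic w hw
  have h4 := h1.unique (h2.congr_of_eventuallyEq h3)
  have h5 := h.quartic z hz
  have h6 : c * (BB F e dF de z * WW F e dF de z) = 0 := by
    unfold WW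
    have hBB : BB F e dF de z = e z * dF z - F z * de z := rfl
    set B := BB F e dF de z with hBdef
    rw [← hBB] at h5
    linear_combination F z * h4 - 6 * c * dF z * h5 + (c * F z ^ 2 *
      (4 * e z ^ 3 - 48 * e z ^ 2 * F z - 132 * e z * F z ^ 2 - 48 * F z ^ 3)) * hBB
  exact (mul_eq_zero.1 h6).resolve_left hc0

lemma WW_zero (h : Cal F e dF de a b) (hne : ∃ z : ℂ, 0 < z.im ∧ BB F e dF de z ≠ 0) {z : ℂ}
    (hz : 0 < z.im) : WW F e dF de z = 0 := by
  have hFd : DifferentiableOn ℂ F {w : ℂ | 0 < w.im} := fun z hz =>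
    (h.hF z hz).differentiableAt.differentiableWithinAt
  have hed : DifferentiableOn ℂ e {w : ℂ | 0 < w.im} := fun z hz =>
    (h.he z hz).differentiableAt.differentiableWithinAt
  have hB := diff_BB h
  have hdB : DifferentiableOn ℂ (dB F e dF de) {w : ℂ | 0 < w.im} :=
    (hB.deriv isOpen_H).div_const _
  have hdF := diff_of h.hF
  have hW : DifferentiableOn ℂ (WW F e dF de) {w : ℂ | 0 < w.im} := by
    unfold WW
    refine (((hdB.const_mul 8).mul hFd).sub ((hB.const_mul 24).mul hdF)).add ((hFd.pow 2).mul ?_)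
    exact ((((hed.pow 3).const_mul 4).sub (((hed.pow 2).const_mul 48).mul hFd)).sub
      ((hed.const_mul 132).mul (hFd.pow 2))).sub ((hFd.pow 3).const_mul 48)
  have h1 := AnalyticOnNhd.eq_zero_or_eq_zero_of_mul_eq_zero (hB.analyticOnNhd isOpen_H)
    (hW.analyticOnNhd isOpen_H) (fun z hz => BW h hz) preconn_H
  rcases h1 with h2 | h2
  · obtain ⟨w, hw, hw0⟩ := hne
    exact absurd (h2 w hw) hw0
  · exact h2 z hz

end hol

end Vale.Agent.P014.H483
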