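import Vale.Agent.P004G.H575.Ent
import Vale.Agent.P014.H483.Birch

/-!
# P014, module P: the value at `1` of the entire `L`-function
-/

namespace Vale.Agent.P014.H483

open Complex Filter Topology MeasureTheory Set
open P004G P004G.Rk

/-- `∑ A n / n e^{-2π n y}` -/
noncomputable def EA (A : ℕ → ℤ) (y : ℝ) : ℝ :=
  ∑' n : ℕ, ((A n : ℤ) : ℝ) / n * Real.exp (-2 * Real.pi * n * y)

variable {A : ℕ → ℤ} {q κ : ℝ}

lemma summable_A (hA : LD A) {y : ℝ} (hy : 0 < y) :
    Summable (fun n : ℕ => |(A n : ℝ)| * Real.exp (-2 * Real.pi * n * y)) := by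
  have h1 := (summable_TH hA (u := 2 * y) (by positivity)).norm
  refine h1.congr fun n => ?_
  rw [norm_mul, Real.norm_eq_abs, Real.norm_of_nonneg (Real.exp_pos _).le]
  congr 2
  ring

lemma summable_EA (hA : LD A) {y : ℝ} (hy : 0 < y) :
    Summable (fun n : ℕ => ((A n : ℤ) : ℝ) / n * Real.exp (-2 * Real.pi * n * y)) := by
  refine Summable.of_norm_bounded (summable_A hA hy) fun n => ?_
  rw [norm_mul, Real.norm_of_nonneg (Real.exp_pos _).le]
  refine mul_le_mul_of_nonneg_right ?_ (Real.exp_pos _).le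
  rcases Nat.eq_zero_or_pos n with rfl | hn
  · simp
  · have hn1 : (1 : ℝ) ≤ n := by exact_mod_cast hn
    rw [norm_div, Real.norm_eq_abs, Real.norm_natCast]
    exact div_le_self (abs_nonneg _) hn1

lemma hasDerivAt_EA (hA : LD A) {y : ℝ} (hy : 0 < y) :
    HasDerivAt (EA A) (-(Real.pi / 2) * TH A (2 * y)) y := by
  set c : ℝ := y / 2 with hc
  have hc0 : 0 < c := by positivity
  have hcy : c < y := by rw [hc]; linarith
  have key := hasDerivAt_tsum_of_isPreconnected (𝕜 := ℝ)
    (g := fun (n : ℕ) (w : ℝ) => ((A n : ℤ) : ℝ) / n * Real.exp (-2 * Real.pi * n * w))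
    (g' := fun (n : ℕ) (w : ℝ) => -2 * Real.pi * (((A n : ℤ) : ℝ) * Real.exp (-2 * Real.pi * n * w)))
    (u := fun n : ℕ => 2 * Real.pi * (|(A n : ℝ)| * Real.exp (-2 * Real.pi * n * c)))
    (t := Ioi c) (y₀ := y) (y := y)
    ((summable_A hA hc0).mul_left _) isOpen_Ioi isPreconnected_Ioi ?_ ?_ hcy (summable_EA hA hy) hcy
  · refine key.congr_deriv ?_
    rw [tsum_mul_left]
    unfold TH
    have e : ∀ n : ℕ, ((A n : ℤ) : ℝ) * Real.exp (-2 * Real.pi * n * y) =
        (A n : ℝ) * Real.exp (-Real.pi * n * (2 * y)) := by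
      intro n
      congr 2
      ring
    simp_rw [e]
    ring
  · intro n w _
    have h1 : HasDerivAt (fun w : ℝ => -2 * Real.pi * n * w) (-2 * Real.pi * n) w := by
      simpa using (hasDerivAt_id w).const_mul (-2 * Real.pi * n)
    have h2 := (h1.exp).const_mul (((A n : ℤ) : ℝ) / n)
    refine h2.congr_deriv ?_
    rcases Nat.eq_zero_or_pos n with rfl | hn
    · simp [hA.zero]
    · have hn0 : (n : ℝ) ≠ 0 := by exact_mod_cast hn.ne'
      field_simp
  · intro n w hw
    have hw' : c < w := hw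
    have h1 : ‖(-2 * Real.pi : ℝ)‖ = 2 * Real.pi := by
      rw [Real.norm_eq_abs, abs_mul, abs_of_pos Real.pi_pos]
      norm_num
    rw [norm_mul (-2 * Real.pi), h1, norm_mul, Real.norm_of_nonneg (Real.exp_pos _).le,
      Real.norm_eq_abs]
    refine mul_le_mul_of_nonneg_left (mul_le_mul_of_nonneg_left (Real.exp_le_exp.2 ?_)
      (abs_nonneg _)) (by positivity)
    have h2 : 0 ≤ Real.pi * n := by positivity
    nlinarith

/-- the completed function at `1` -/
theorem PhiA_one (hA : LD A) (hF : FEq A q κ) {l : ℝ}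
    (h0 : Tendsto (EA A) (𝓝[>] 0) (𝓝 l)) (h1 : Tendsto (EA A) atTop (𝓝 0)) :
    PhiA A 1 = ((4 / Real.pi * l : ℝ) : ℂ) := by
  have hconv := PhiA_conv hA hF 1
  -- the primitive
  set G : ℝ → ℝ := Function.update (fun u => -(4 / Real.pi) * EA A (u / 2)) 0
    (-(4 / Real.pi) * l) with hG
  have hcont : ContinuousWithinAt G (Ici 0) 0 := by
    rw [hG, continuousWithinAt_update_same]
    have h2 : Tendsto (fun u : ℝ => u / 2) (𝓝[>] 0) (𝓝[>] 0) := by
      refine tendsto_nhdsWithin_iff.2 ⟨?_, ?_⟩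
      · have h3 : Tendsto (fun u : ℝ => u / 2) (𝓝 0) (𝓝 (0 / 2)) := by
          exact (continuous_id.div_const 2).tendsto 0
        rw [zero_div] at h3
        exact h3.mono_left nhdsWithin_le_nhds
      · filter_upwards [self_mem_nhdsWithin] with u hu
        have : (0 : ℝ) < u := hu
        show (0 : ℝ) < u / 2
        positivity
    have e : Ici (0 : ℝ) \ {0} = Ioi 0 := by
      ext x
      simp only [Set.mem_sdiff, mem_Ici, mem_singleton_iff, mem_Ioi]
      constructor
      · rintro ⟨h, h'⟩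
        exact lt_of_le_of_ne h (Ne.symm h')
      · intro h
        exact ⟨h.le, h.ne'⟩
    rw [e]
    exact (h0.comp h2).const_mul _
  have hderiv : ∀ u ∈ Ioi (0 : ℝ), HasDerivAt G (TH A u) u := by
    intro u hu
    have hu0 : (0 : ℝ) < u := hu
    have h3 : HasDerivAt (fun u => -(4 / Real.pi) * EA A (u / 2)) (TH A u) u := by
      have h4 := hasDerivAt_EA hA (y := u / 2) (by positivity)
      have h5 : HasDerivAt (fun u : ℝ => u / 2) (1 / 2) u := (hasDerivAt_id u).div_const 2
      have h6 := (HasDerivAt.comp u h4 h5).const_mul (-(4 / Real.pi))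
      refine h6.congr_deriv ?_
      have hpi := Real.pi_pos.ne'
      rw [show 2 * (u / 2) = u by ring]
      field_simp
      norm_num
    refine h3.congr_of_eventuallyEq ?_
    filter_upwards [isOpen_Ioi.mem_nhds hu] with w hw
    have : (w : ℝ) ≠ 0 := ne_of_gt hw
    rw [hG, Function.update_of_ne this]
  have hint : IntegrableOn (TH A) (Ioi 0) := by
    have h7 : IntegrableOn (fun u : ℝ => ((u : ℂ) ^ ((1 : ℂ) - 1)) • ((TH A u : ℝ) : ℂ)) (Ioi 0) :=
      hconv
    have h8 : IntegrableOn (fun u : ℝ => ((TH A u : ℝ) : ℂ)) (Ioi 0) := by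
      refine h7.congr_fun (fun u _ => ?_) measurableSet_Ioi
      simp
    have h9 := h8.re
    unfold IntegrableOn
    simpa using h9
  have hlim : Tendsto G atTop (𝓝 0) := by
    have h2 : Tendsto (fun u : ℝ => u / 2) atTop atTop := tendsto_id.atTop_div_const (by norm_num)
    have h3 := (h1.comp h2).const_mul (-(4 / Real.pi))
    rw [mul_zero] at h3
    refine h3.congr' ?_
    filter_upwards [eventually_gt_atTop 0] with u hu
    rw [hG, Function.update_of_ne hu.ne']
    rfl
  have h10 := integral_Ioi_of_hasDerivAt_of_tendsto hcont hderiv hint hlim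
  have h11 : G 0 = -(4 / Real.pi) * l := by rw [hG, Function.update_self]
  rw [h11] at h10
  unfold PhiA mellin
  have h12 : ∀ u : ℝ, ((u : ℂ) ^ ((1 : ℂ) - 1)) • ((TH A u : ℝ) : ℂ) = ((TH A u : ℝ) : ℂ) := by
    intro u
    simp
  simp_rw [h12]
  rw [integral_complex_ofReal, h10]
  congr 1
  ring

/-- the entire `L`-function and its value at `1` -/
theorem L_one (hA : LD A) (hF : FEq A q κ) {l : ℝ}
    (h0 : Tendsto (EA A) (𝓝[>] 0) (𝓝 l)) (h1 : Tendsto (EA A) atTop (𝓝 0)) :
    ∃ L : ℂ → ℂ, Differentiable ℂ L ∧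
      (∀ s : ℂ, 3 / 2 < s.re → LSeriesHasSum (fun n => (A n : ℂ)) s (L s)) ∧ L 1 = (l : ℂ) := by
  have hL := isL_PhiA hA hF
  refine ⟨fun s => PhiA A s * P004G.Rk.hf s, hL.1, fun s hs => ?_, ?_⟩
  · have h2 := (summable_dirC hA hs).hasSum
    rw [← hL.2 s hs] at h2
    refine h2.congr_fun fun n => ?_
    rcases Nat.eq_zero_or_pos n with rfl | hn
    · rw [LSeries.term_zero, hA.zero]
      simp
    · rw [LSeries.term_of_ne_zero hn.ne']
  · show PhiA A 1 * P004G.Rk.hf 1 = _
    rw [PhiA_one hA hF h0 h1]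
    unfold P004G.Rk.hf
    rw [Complex.Gamma_one, Complex.cpow_one]
    push_cast
    have hpi : (Real.pi : ℂ) ≠ 0 := by exact_mod_cast Real.pi_pos.ne'
    field_simp

end Vale.Agent.P014.H483
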