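import Vale.Agent.P014.H483.Hol

/-!
# P014, module P: the calibration on the line `re z = 1/3`
-/

namespace Vale.Agent.P014.H483

open Complex Filter Topology

variable {F e dF de : ℂ → ℂ} {a b : ℕ → ℤ}

/-- the line -/
noncomputable def zl (y : ℝ) : ℂ := ((1 / 3 : ℝ) : ℂ) + y * I

lemma zl_im (y : ℝ) : (zl y).im = y := by
  unfold zl
  simp

lemma hasDerivAt_zl (y : ℝ) : HasDerivAt zl I y := by
  have h1 : HasDerivAt (fun y : ℝ => (y : ℂ)) 1 y := Complex.ofRealCLM.hasDerivAt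
  have h2 := (h1.mul_const I).const_add (((1 / 3 : ℝ) : ℂ))
  rw [one_mul] at h2
  exact h2

/-- composition with the line -/
lemma hasDerivAt_line {G dG : ℂ → ℂ}
    (hG : ∀ z : ℂ, 0 < z.im → HasDerivAt G (2 * Real.pi * I * dG z) z) {y : ℝ} (hy : 0 < y) :
    HasDerivAt (fun y : ℝ => G (zl y)) (-(2 * Real.pi * dG (zl y))) y := by
  have h1 := hG (zl y) (by rw [zl_im]; exact hy)
  have h2 : HasDerivAt (fun y : ℝ => G (zl y)) (2 * Real.pi * I * dG (zl y) * I) y :=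
    HasDerivAt.comp y h1 (hasDerivAt_zl y)
  refine h2.congr_deriv ?_
  linear_combination (2 * Real.pi * dG (zl y)) * Complex.I_sq

/-- `e / F` on the line -/
noncomputable def uu (F e : ℂ → ℂ) (y : ℝ) : ℂ := e (zl y) / F (zl y)

/-- `2 [e, F] / F³` on the line -/
noncomputable def vv (F e dF de : ℂ → ℂ) (y : ℝ) : ℂ := 2 * BB F e dF de (zl y) / F (zl y) ^ 3

lemma hasDerivAt_uu (h : Cal F e dF de a b) {y : ℝ} (hy : 0 < y) (h0 : F (zl y) ≠ 0) :
    HasDerivAt (uu F e) (Real.pi * vv F e dF de y * F (zl y)) y := by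
  have h1 := (hasDerivAt_line h.he hy).div (hasDerivAt_line h.hF hy) h0
  refine h1.congr_deriv ?_
  unfold vv BB
  field_simp
  ring

lemma hasDerivAt_vv (h : Cal F e dF de a b) (hne : ∃ z : ℂ, 0 < z.im ∧ BB F e dF de z ≠ 0)
    {y : ℝ} (hy : 0 < y) (h0 : F (zl y) ≠ 0) :
    HasDerivAt (vv F e dF de) (Real.pi / 2 * (4 * uu F e y ^ 3 - 48 * uu F e y ^ 2 -
      132 * uu F e y - 48) * F (zl y)) y := by
  have hB := hasDerivAt_line (G := BB F e dF de) (dG := dB F e dF de)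
    (fun z hz => hasDerivAt_BB h hz) hy
  have hF := hasDerivAt_line h.hF hy
  have h1 := (hB.const_mul 2).div (hF.pow 3) (pow_ne_zero 3 h0)
  have hW := WW_zero h hne (z := zl y) (by rw [zl_im]; exact hy)
  refine h1.congr_deriv ?_
  unfold WW at hW
  unfold uu
  simp only [Pi.pow_apply]
  push_cast
  field_simp
  linear_combination -hW

lemma vv_sq (h : Cal F e dF de a b) {y : ℝ} (hy : 0 < y) (h0 : F (zl y) ≠ 0) :
    vv F e dF de y ^ 2 = uu F e y ^ 4 - 16 * uu F e y ^ 3 - 66 * uu F e y ^ 2 - 48 * uu F e y -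
      127 := by
  have hq := h.quartic (zl y) (by rw [zl_im]; exact hy)
  unfold vv uu BB
  field_simp
  linear_combination hq

/-! ### real and imaginary parts -/

/-- the derivative of the quartic -/
def Q1 (u : ℂ) : ℂ := 4 * u ^ 3 - 48 * u ^ 2 - 132 * u - 48

lemma Q1_re (u : ℂ) : (Q1 u).re = 4 * (u.re ^ 3 - 3 * u.re * u.im ^ 2) -
    48 * (u.re ^ 2 - u.im ^ 2) - 132 * u.re - 48 := by
  unfold Q1
  simp [pow_succ, Complex.mul_re, Complex.mul_im]
  ring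

lemma Q1_im (u : ℂ) : (Q1 u).im = 4 * (3 * u.re ^ 2 * u.im - u.im ^ 3) -
    48 * (2 * u.re * u.im) - 132 * u.im := by
  unfold Q1
  simp [pow_succ, Complex.mul_re, Complex.mul_im]
  ring

lemma Q_re (u : ℂ) : (u ^ 4 - 16 * u ^ 3 - 66 * u ^ 2 - 48 * u - 127).re =
    (u.re ^ 4 - 6 * u.re ^ 2 * u.im ^ 2 + u.im ^ 4) - 16 * (u.re ^ 3 - 3 * u.re * u.im ^ 2) -
      66 * (u.re ^ 2 - u.im ^ 2) - 48 * u.re - 127 := by
  simp [pow_succ, Complex.mul_re, Complex.mul_im]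
  ring

lemma Q_im (u : ℂ) : (u ^ 4 - 16 * u ^ 3 - 66 * u ^ 2 - 48 * u - 127).im =
    (4 * u.re ^ 3 * u.im - 4 * u.re * u.im ^ 3) - 16 * (3 * u.re ^ 2 * u.im - u.im ^ 3) -
      66 * (2 * u.re * u.im) - 48 * u.im := by
  simp [pow_succ, Complex.mul_re, Complex.mul_im]
  ring

/-- the real parameter -/
noncomputable def KK (u v : ℂ) : ℝ := -(v.re ^ 2 / u.im ^ 2) - 4 * u.re ^ 2 + 32 * u.re

/-- its derivative, up to a factor -/
noncomputable def mm (u v : ℂ) : ℝ :=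
  v.re * (12 * u.re ^ 2 - 4 * u.im ^ 2 - 96 * u.re - 132) / u.im + 2 * v.re ^ 3 / u.im ^ 3 +
    (8 * u.re - 32) * v.im

/-- the relations on the real and imaginary parts -/
lemma rel {u v : ℂ} (h : v ^ 2 = u ^ 4 - 16 * u ^ 3 - 66 * u ^ 2 - 48 * u - 127) :
    v.re ^ 2 - v.im ^ 2 = (u.re ^ 4 - 6 * u.re ^ 2 * u.im ^ 2 + u.im ^ 4) -
      16 * (u.re ^ 3 - 3 * u.re * u.im ^ 2) - 66 * (u.re ^ 2 - u.im ^ 2) - 48 * u.re - 127 ∧
    2 * v.re * v.im = (4 * u.re ^ 3 * u.im - 4 * u.re * u.im ^ 3) -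
      16 * (3 * u.re ^ 2 * u.im - u.im ^ 3) - 66 * (2 * u.re * u.im) - 48 * u.im := by
  have h1 := congrArg Complex.re h
  have h2 := congrArg Complex.im h
  rw [Q_re, sq, Complex.mul_re] at h1
  rw [Q_im, sq, Complex.mul_im] at h2
  constructor
  · linear_combination h1
  · linear_combination h2

lemma mm_sq {u v : ℂ} (h : v ^ 2 = u ^ 4 - 16 * u ^ 3 - 66 * u ^ 2 - 48 * u - 127)
    (hu : u.im ≠ 0) :
    mm u v ^ 2 = -4 * (KK u v + 4) * ((KK u v + 64) ^ 2 + 1024) := by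
  obtain ⟨r1, r2⟩ := rel h
  unfold mm KK
  generalize u.re = A at *
  generalize u.im = B at *
  generalize v.re = g at *
  generalize v.im = d at *
  field_simp
  linear_combination (-64*A^2*B^6 + 512*A*B^6 - 1024*B^6 - 16*B^4*g^2) * r1 +
    (80*A^3*B^5 - 960*A^2*B^5 - 16*A*B^7 + 2544*A*B^5 + 16*A*B^3*g^2 + 64*B^7 + 4416*B^5 -
      8*B^4*g*d - 64*B^3*g^2) * r2

section real

lemma hasDerivAt_re {g : ℝ → ℂ} {g' : ℂ} {y : ℝ} (h : HasDerivAt g g' y) :
    HasDerivAt (fun y => (g y).re) g'.re y :=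
  Complex.reCLM.hasFDerivAt.comp_hasDerivAt y h

lemma hasDerivAt_im {g : ℝ → ℂ} {g' : ℂ} {y : ℝ} (h : HasDerivAt g g' y) :
    HasDerivAt (fun y => (g y).im) g'.im y :=
  Complex.imCLM.hasFDerivAt.comp_hasDerivAt y h

variable {u v : ℝ → ℂ} {f : ℂ} {y : ℝ}

lemma hasDerivAt_KK (hu : HasDerivAt u (Real.pi * v y * f) y)
    (hv : HasDerivAt v (Real.pi / 2 * (4 * u y ^ 3 - 48 * u y ^ 2 - 132 * u y - 48) * f) y)
    (h : v y ^ 2 = u y ^ 4 - 16 * u y ^ 3 - 66 * u y ^ 2 - 48 * u y - 127) (h0 : (u y).im ≠ 0) :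
    HasDerivAt (fun y => KK (u y) (v y)) (Real.pi * f.im * mm (u y) (v y)) y := by
  obtain ⟨r1, r2⟩ := rel h
  have a1 := hasDerivAt_re hu
  have a2 := hasDerivAt_im hu
  have a3 := hasDerivAt_re hv
  have e1 : (Real.pi * v y * f).re = Real.pi * ((v y).re * f.re - (v y).im * f.im) := by
    rw [mul_assoc, Complex.re_ofReal_mul, Complex.mul_re]
  have e2 : (Real.pi * v y * f).im = Real.pi * ((v y).re * f.im + (v y).im * f.re) := by
    rw [mul_assoc, Complex.im_ofReal_mul, Complex.mul_im]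
  have e3 : (Real.pi / 2 * (4 * u y ^ 3 - 48 * u y ^ 2 - 132 * u y - 48) * f).re =
      Real.pi / 2 * ((Q1 (u y)).re * f.re - (Q1 (u y)).im * f.im) := by
    have : (Real.pi / 2 * (4 * u y ^ 3 - 48 * u y ^ 2 - 132 * u y - 48) * f : ℂ) =
      ((Real.pi / 2 : ℝ) : ℂ) * (Q1 (u y) * f) := by
      unfold Q1
      push_cast
      ring
    rw [this, Complex.re_ofReal_mul, Complex.mul_re]
  rw [e1] at a1
  rw [e2] at a2
  rw [e3, Q1_re, Q1_im] at a3
  have h1 := (((a3.pow 2).div (a2.pow 2) (pow_ne_zero 2 h0)).neg.sub ((a1.pow 2).const_mul 4)).add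
    (a1.const_mul 32)
  refine h1.congr_deriv ?_
  simp only [Pi.pow_apply]
  unfold mm
  generalize (u y).re = A at *
  generalize (u y).im = B at *
  generalize (v y).re = g at *
  generalize (v y).im = d at *
  generalize f.re = p
  generalize f.im = x
  have r2' : 2 * g * d - ((4 * A ^ 3 * B - 4 * A * B ^ 3) - 16 * (3 * A ^ 2 * B - B ^ 3) -
      66 * (2 * A * B) - 48 * B) = 0 := by linarith
  rw [← sub_eq_zero]
  have key : ∀ S : ℝ, S = 0 → ∀ T : ℝ, T = Real.pi * g * p / B ^ 3 * S → T = 0 := by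
    intro S hS T hT
    rw [hT, hS, mul_zero]
  refine key _ r2' _ ?_
  field_simp
  ring

lemma hasDerivAt_mm (hu : HasDerivAt u (Real.pi * v y * f) y)
    (hv : HasDerivAt v (Real.pi / 2 * (4 * u y ^ 3 - 48 * u y ^ 2 - 132 * u y - 48) * f) y)
    (h : v y ^ 2 = u y ^ 4 - 16 * u y ^ 3 - 66 * u y ^ 2 - 48 * u y - 127) (h0 : (u y).im ≠ 0) :
    HasDerivAt (fun y => mm (u y) (v y)) (-2 * Real.pi * f.im *
      ((KK (u y) (v y) + 64) ^ 2 + 1024 + 2 * (KK (u y) (v y) + 4) * (KK (u y) (v y) + 64))) y := by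
  obtain ⟨r1, r2⟩ := rel h
  have a1 := hasDerivAt_re hu
  have a2 := hasDerivAt_im hu
  have a3 := hasDerivAt_re hv
  have a4 := hasDerivAt_im hv
  have e1 : (Real.pi * v y * f).re = Real.pi * ((v y).re * f.re - (v y).im * f.im) := by
    rw [mul_assoc, Complex.re_ofReal_mul, Complex.mul_re]
  have e2 : (Real.pi * v y * f).im = Real.pi * ((v y).re * f.im + (v y).im * f.re) := by
    rw [mul_assoc, Complex.im_ofReal_mul, Complex.mul_im]
  have e0 : (Real.pi / 2 * (4 * u y ^ 3 - 48 * u y ^ 2 - 132 * u y - 48) * f : ℂ) =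
      ((Real.pi / 2 : ℝ) : ℂ) * (Q1 (u y) * f) := by
    unfold Q1
    push_cast
    ring
  have e3 : (Real.pi / 2 * (4 * u y ^ 3 - 48 * u y ^ 2 - 132 * u y - 48) * f).re =
      Real.pi / 2 * ((Q1 (u y)).re * f.re - (Q1 (u y)).im * f.im) := by
    rw [e0, Complex.re_ofReal_mul, Complex.mul_re]
  have e4 : (Real.pi / 2 * (4 * u y ^ 3 - 48 * u y ^ 2 - 132 * u y - 48) * f).im =
      Real.pi / 2 * ((Q1 (u y)).re * f.im + (Q1 (u y)).im * f.re) := by
    rw [e0, Complex.im_ofReal_mul, Complex.mul_im]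
  rw [e1] at a1
  rw [e2] at a2
  rw [e3, Q1_re, Q1_im] at a3
  rw [e4, Q1_re, Q1_im] at a4
  have b1 := ((((a1.pow 2).const_mul 12).sub ((a2.pow 2).const_mul 4)).sub
    (a1.const_mul 96)).sub_const 132
  have h1 := (((a3.mul b1).div a2 h0).add (((a3.pow 3).const_mul 2).div (a2.pow 3)
    (pow_ne_zero 3 h0))).add (((a1.const_mul 8).sub_const 32).mul a4)
  refine h1.congr_deriv ?_
  simp only [Pi.pow_apply, Pi.mul_apply, Pi.sub_apply]
  unfold KK
  generalize (u y).re = A at *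
  generalize (u y).im = B at *
  generalize (v y).re = g at *
  generalize (v y).im = d at *
  generalize f.re = p
  generalize f.im = x
  have r1' : g ^ 2 - d ^ 2 - ((A ^ 4 - 6 * A ^ 2 * B ^ 2 + B ^ 4) -
      16 * (A ^ 3 - 3 * A * B ^ 2) - 66 * (A ^ 2 - B ^ 2) - 48 * A - 127) = 0 := by linarith
  have r2' : 2 * g * d - ((4 * A ^ 3 * B - 4 * A * B ^ 3) - 16 * (3 * A ^ 2 * B - B ^ 3) -
      66 * (2 * A * B) - 48 * B) = 0 := by linarith
  rw [← sub_eq_zero]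
  have key : ∀ R S : ℝ, R = 0 → S = 0 → ∀ T : ℝ, T = Real.pi / B ^ 4 * ((8 * B ^ 4 * x) * R +
      (-6*A^2*B^2*p - 12*A*B^3*x + 48*A*B^2*p + 2*B^4*p + 48*B^3*x + 66*B^2*p - 3*g^2*p) * S) →
      T = 0 := by
    intro R S hR hS T hT
    rw [hT, hR, hS]
    ring
  refine key _ _ r1' r2' _ ?_
  field_simp
  ring

end real

end Vale.Agent.P014.H483
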